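import Vale.Agent.P028.MathlibUsed
import Vale.Agent.P028.XDefs
import Vale.Agent.P028.XF0

/-!
# Block E: unstructured divisors are rarely in a Bohr set
-/

namespace Vale.P028

open Finset

/-- the `y`-smooth part -/
noncomputable def sPart (y N : ℕ) : ℕ :=
  ∏ p ∈ N.primeFactors.filter (fun p => p ≤ y), p ^ N.factorization p

/-- the `y`-rough part -/
noncomputable def rPart (y N : ℕ) : ℕ :=
  ∏ p ∈ N.primeFactors.filter (fun p => ¬ p ≤ y), p ^ N.factorization p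

theorem sPart_mul_rPart (y : ℕ) {N : ℕ} (hN : 0 < N) : sPart y N * rPart y N = N := by
  unfold sPart rPart
  rw [prod_filter_mul_prod_filter_not]
  exact Nat.prod_factorization_pow_eq_self hN.ne'

theorem sPart_pos (y N : ℕ) : 0 < sPart y N := by
  apply prod_pos
  intro p hp
  exact pow_pos (Nat.prime_of_mem_primeFactors (mem_filter.mp hp).1).pos _

theorem rPart_pos (y N : ℕ) : 0 < rPart y N := by
  apply prod_pos
  intro p hp
  exact pow_pos (Nat.prime_of_mem_primeFactors (mem_filter.mp hp).1).pos _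

theorem prime_dvd_sPart {y N p : ℕ} (hp : p.Prime) (h : p ∣ sPart y N) : p ≤ y := by
  unfold sPart at h
  rw [hp.prime.dvd_finsetProd_iff] at h
  obtain ⟨q, hq, hpq⟩ := h
  rw [mem_filter] at hq
  have h1 := hp.dvd_of_dvd_pow hpq
  rw [(Nat.prime_dvd_prime_iff_eq hp (Nat.prime_of_mem_primeFactors hq.1)).mp h1]
  exact hq.2

theorem prime_dvd_rPart {y N p : ℕ} (hp : p.Prime) (h : p ∣ rPart y N) : y < p := by
  unfold rPart at h
  rw [hp.prime.dvd_finsetProd_iff] at h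
  obtain ⟨q, hq, hpq⟩ := h
  rw [mem_filter] at hq
  have h1 := hp.dvd_of_dvd_pow hpq
  rw [(Nat.prime_dvd_prime_iff_eq hp (Nat.prime_of_mem_primeFactors hq.1)).mp h1]
  exact not_le.mp hq.2

theorem sPart_coprime_rPart (y N : ℕ) : Nat.Coprime (sPart y N) (rPart y N) := by
  apply Nat.coprime_of_dvd
  intro p hp h1 h2
  have := prime_dvd_sPart hp h1
  have := prime_dvd_rPart hp h2
  omega

open Classical in
/-- the statement of F2 with a fixed constant -/
def F2C (C : ℝ) : Prop :=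
  ∀ (H s α β K : ℝ) (y : ℕ), 1 ≤ H → 0 < s → s ≤ 1 / 1000 →
    s * H ^ 2 ≤ 1 → 2 ≤ y → 4 * (y : ℝ) ^ 4 ≤ s ^ 2 * K →
    (∀ d : ℕ, 0 < d → (d : ℝ) ≤ H → s * H ^ 2 < distInt (d * α) * K) →
    (((Icc 1 ⌊2 * K⌋₊).filter (fun k : ℕ => K < k ∧ (∀ p : ℕ, p.Prime → p ≤ y → ¬ p ∣ k) ∧
        distInt (k * α - β) < 2 * s)).card : ℝ) ≤ C * K / (H ^ (1 / 4 : ℝ) * Real.log y)

open Classical in
/-- the statement of F2b with a fixed constant -/
def F2bC (C : ℝ) : Prop :=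
  ∀ (K : ℝ) (y : ℕ), 2 ≤ y → (y : ℝ) ^ 2 ≤ K →
    (((Icc 1 ⌊2 * K⌋₊).filter (fun k : ℕ => K < k ∧
      (∀ p : ℕ, p.Prime → p ≤ y → ¬ p ∣ k))).card : ℝ) ≤ C * K / Real.log y

open Classical in
/-- the statement of F4 with a fixed constant -/
def F4C (C : ℝ) : Prop :=
  ∀ (y : ℕ) (M : ℝ) (N : ℕ), 3 ≤ y → 1 ≤ M → 0 < N →
    (∀ p : ℕ, p.Prime → p ∣ N → p ≤ y) →
    ∑ m ∈ N.divisors.filter (fun m : ℕ => M < m), wdv N m ≤
      C * Real.exp (-(Real.log M / Real.log y))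

open Classical in
/-- the inner sum over the rough part, by counting -/
theorem e_inner {K B : ℝ} (hK : 1 ≤ K) (y N : ℕ) (P : ℕ → Prop)
    (hcard : (((Icc 1 ⌊2 * K⌋₊).filter (fun k : ℕ => K < k ∧
      (∀ p : ℕ, p.Prime → p ≤ y → ¬ p ∣ k) ∧ P k)).card : ℝ) ≤ B) :
    ∑ k ∈ (rPart y N).divisors.filter (fun k : ℕ => (K < k ∧ (k : ℝ) ≤ 2 * K) ∧ P k),
      wdv (rPart y N) k ≤ B / K := by
  have hK0 : 0 < K := by linarith only [hK]
  have h1 : ∀ k ∈ (rPart y N).divisors.filter (fun k : ℕ => (K < k ∧ (k : ℝ) ≤ 2 * K) ∧ P k),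
      wdv (rPart y N) k ≤ 1 / K := by
    intro k hk
    rw [mem_filter] at hk
    refine (wdv_le _ k).trans ?_
    exact one_div_le_one_div_of_le hK0 hk.2.1.1.le
  refine (sum_le_card_nsmul _ _ _ h1).trans ?_
  rw [nsmul_eq_mul, mul_one_div]
  apply div_le_div_of_nonneg_right _ hK0.le
  refine le_trans ?_ hcard
  norm_cast
  apply card_le_card
  intro k hk
  rw [mem_filter] at hk
  rw [mem_filter, mem_Icc]
  have hk1 : 1 ≤ k := Nat.pos_of_mem_divisors hk.1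
  refine ⟨⟨hk1, Nat.le_floor hk.2.1.2⟩, hk.2.1.1, ?_, hk.2.2⟩
  intro p hp hpy hpk
  have := prime_dvd_rPart hp (hpk.trans (Nat.dvd_of_mem_divisors hk.1))
  omega

open Classical in
theorem e_core {C₂ C₂b C₄ : ℝ} (hC₂ : 0 < C₂) (hC₂b : 0 < C₂b) (hF2 : F2C C₂) (hF2b : F2bC C₂b)
    (hF3 : BlkF3) (hF4 : F4C C₄) {H s α β R : ℝ} {y N : ℕ} (hH : 8 < H) (hs : 0 < s)
    (hs1 : s ≤ 1 / 1000) (hsH : 2 * s * H ^ 2 ≤ 1) (hR : 1 ≤ R) (hN : 0 < N) (hy : 3 ≤ y)
    (hyR : 4 * (y : ℝ) ^ 4 ≤ s ^ 2 * √R)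
    (hns : ∀ d : ℕ, 0 < d → (d : ℝ) ≤ H → s * H ^ 2 < distInt (d * α) * (2 * R)) :
    ∑ n ∈ N.divisors.filter (fun n : ℕ => (R < n ∧ (n : ℝ) ≤ 2 * R) ∧
        distInt (n * α - β) < 2 * s), wdv N n ≤
      C₂ / (H ^ (1 / 12 : ℝ) * Real.log y) + H ^ (-(1 / 3) : ℝ) * (C₂b / Real.log y) +
        C₄ * Real.exp (-(Real.log √R / Real.log y)) := by
  set P : ℕ → Prop := fun n => (R < n ∧ (n : ℝ) ≤ 2 * R) ∧ distInt (n * α - β) < 2 * s with hP
  set g : ℕ → ℝ := fun m => ∑ k ∈ (rPart y N).divisors.filter (fun k : ℕ => P (m * k)),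
    wdv (rPart y N) k with hg
  have hlogy : 0 < Real.log y := Real.log_pos (by exact_mod_cast (by omega : 1 < y))
  have hH0 : 0 < H := by linarith only [hH]
  -- factor
  have e1 : ∑ n ∈ N.divisors.filter P, wdv N n = ∑ m ∈ (sPart y N).divisors,
      wdv (sPart y N) m * g m := by
    rw [sum_filter]
    conv_lhs => rw [← sPart_mul_rPart y hN]
    rw [sum_divisors_mul_coprime (sPart_pos _ _) (rPart_pos _ _) (sPart_coprime_rPart _ _)]
    apply sum_congr rfl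
    intro m hm
    rw [hg]
    simp only
    rw [sum_filter, mul_sum]
    apply sum_congr rfl
    intro k hk
    split_ifs with h
    · exact wdv_mul (sPart_pos _ _) (rPart_pos _ _) (sPart_coprime_rPart _ _)
        (Nat.dvd_of_mem_divisors hm) (Nat.dvd_of_mem_divisors hk)
    · rw [mul_zero]
  rw [e1]
  -- trivial bound
  have hg0 : ∀ m, 0 ≤ g m := fun m => sum_nonneg fun k _ => wdv_nonneg _ _
  have hg1 : ∀ m, g m ≤ 1 := by
    intro m
    rw [← wdv_sum (rPart y N) (rPart_pos y N)]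
    exact sum_le_sum_of_subset_of_nonneg (filter_subset _ _) fun k _ _ => wdv_nonneg _ _
  have hsq : ∀ m : ℕ, 0 < m → (m : ℝ) ^ 2 ≤ R → √R ≤ R / m := by
    intro m hm hmR
    have hm0 : (0 : ℝ) < m := by exact_mod_cast hm
    have h1 : (m : ℝ) ≤ √R := Real.le_sqrt_of_sq_le hmR
    rw [le_div_iff₀ hm0]
    calc √R * m ≤ √R * √R := mul_le_mul_of_nonneg_left h1 (Real.sqrt_nonneg _)
      _ = R := Real.mul_self_sqrt (by linarith only [hR])
  have hsqR : 1 ≤ √R := Real.one_le_sqrt.mpr hR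
  have hy1 : (1 : ℝ) ≤ y := by exact_mod_cast (by omega : 1 ≤ y)
  have hcond : ∀ m k : ℕ, 0 < m → P (m * k) →
      ((R / m < k ∧ (k : ℝ) ≤ 2 * (R / m)) ∧ distInt (k * (m * α) - β) < 2 * s) := by
    intro m k hm h
    have hm0 : (0 : ℝ) < m := by exact_mod_cast hm
    obtain ⟨⟨h1, h2⟩, h3⟩ := h
    push_cast at h1 h2 h3
    refine ⟨⟨?_, ?_⟩, ?_⟩
    · rw [div_lt_iff₀ hm0]; linarith only [h1]
    · rw [← mul_div_assoc, le_div_iff₀ hm0]; linarith only [h2]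
    · rwa [show (k : ℝ) * (m * α) - β = m * k * α - β by ring]
  have hg2 : ∀ m : ℕ, 0 < m → (m : ℝ) ^ 2 ≤ R → g m ≤ C₂b / Real.log y := by
    intro m hm hmR
    have hK := hsq m hm hmR
    have hK1 : 1 ≤ R / m := hsqR.trans hK
    have hyK : (y : ℝ) ^ 2 ≤ R / m := by
      have h1 : (y : ℝ) ^ 2 ≤ 4 * (y : ℝ) ^ 4 := by nlinarith only [hy1, sq_nonneg (y : ℝ), mul_self_nonneg ((y : ℝ) ^ 2 - 1), pow_two_nonneg (y : ℝ)]
      have h2 : s ^ 2 * √R ≤ √R := by
        apply mul_le_of_le_one_left (Real.sqrt_nonneg _)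
        nlinarith only [hs, hs1]
      linarith only [h1, h2, hyR, hK]
    have h1 := hF2b (R / m) y (by omega) hyK
    have h2 := e_inner hK1 y N (fun _ => True) (B := C₂b * (R / m) / Real.log y) (by
      simpa only [and_true] using h1)
    simp only [and_true] at h2
    have h3 : g m ≤ C₂b * (R / m) / Real.log y / (R / m) := by
      refine le_trans ?_ h2
      apply sum_le_sum_of_subset_of_nonneg _ fun k _ _ => wdv_nonneg _ _
      intro k hk
      rw [mem_filter] at hk ⊢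
      exact ⟨hk.1, (hcond m k hm hk.2).1⟩
    refine h3.trans (le_of_eq ?_)
    have : R / m ≠ 0 := by linarith only [hK1]
    field_simp
  -- bad `m`
  set Bad : ℕ → Prop := fun m => (m : ℝ) ^ 2 ≤ R ∧ ∃ d : ℕ, 0 < d ∧ (d : ℝ) ≤ H ^ (1 / 3 : ℝ) ∧
    distInt (d * (m * α)) * (R / m) ≤ s * H ^ (2 / 3 : ℝ) with hBad
  have hg3 : ∀ m : ℕ, 0 < m → (m : ℝ) ^ 2 ≤ R → ¬ Bad m →
      g m ≤ C₂ / (H ^ (1 / 12 : ℝ) * Real.log y) := by
    intro m hm hmR hnb
    have hK := hsq m hm hmR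
    have hK1 : 1 ≤ R / m := hsqR.trans hK
    have hH' : (H ^ (1 / 3 : ℝ)) ^ 2 = H ^ (2 / 3 : ℝ) := by
      rw [← Real.rpow_natCast, ← Real.rpow_mul hH0.le]; norm_num
    have hH'' : (H ^ (1 / 3 : ℝ)) ^ (1 / 4 : ℝ) = H ^ (1 / 12 : ℝ) := by
      rw [← Real.rpow_mul hH0.le]; norm_num
    have h1 := hF2 (H ^ (1 / 3 : ℝ)) s (m * α) β (R / m) y
      (Real.one_le_rpow (by linarith only [hH]) (by norm_num)) hs hs1
      (by
        rw [hH']
        have h4 : H ^ (2 / 3 : ℝ) ≤ H ^ (2 : ℝ) :=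
          Real.rpow_le_rpow_of_exponent_le (by linarith only [hH]) (by norm_num)
        rw [Real.rpow_two] at h4
        nlinarith only [h4, hs, hsH])
      (by omega)
      (hyR.trans (mul_le_mul_of_nonneg_left hK (sq_nonneg s)))
      (by
        intro d hd hdH
        rw [hH']
        by_contra hcon
        exact hnb ⟨hmR, d, hd, hdH, not_lt.mp hcon⟩)
    rw [hH''] at h1
    have h2 := e_inner hK1 y N (fun k => distInt (k * (m * α) - β) < 2 * s)
      (B := C₂ * (R / m) / (H ^ (1 / 12 : ℝ) * Real.log y)) h1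
    have h3 : g m ≤ C₂ * (R / m) / (H ^ (1 / 12 : ℝ) * Real.log y) / (R / m) := by
      refine le_trans ?_ h2
      apply sum_le_sum_of_subset_of_nonneg _ fun k _ _ => wdv_nonneg _ _
      intro k hk
      rw [mem_filter] at hk ⊢
      exact ⟨hk.1, hcond m k hm hk.2⟩
    refine h3.trans (le_of_eq ?_)
    have : R / m ≠ 0 := by linarith only [hK1]
    have : H ^ (1 / 12 : ℝ) ≠ 0 := (Real.rpow_pos_of_pos hH0 _).ne'
    field_simp
  -- pointwise
  have hA0 : 0 ≤ C₂ / (H ^ (1 / 12 : ℝ) * Real.log y) := by positivity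
  have hB0 : 0 ≤ C₂b / Real.log y := by positivity
  have hpt : ∀ m ∈ (sPart y N).divisors, wdv (sPart y N) m * g m ≤
      wdv (sPart y N) m * (C₂ / (H ^ (1 / 12 : ℝ) * Real.log y)) +
        (if Bad m then wdv (sPart y N) m * (C₂b / Real.log y) else 0) +
        (if √R < m then wdv (sPart y N) m else 0) := by
    intro m hm
    have hm0 : 0 < m := Nat.pos_of_mem_divisors hm
    have hw := wdv_nonneg (sPart y N) m
    have hwA : 0 ≤ wdv (sPart y N) m * (C₂ / (H ^ (1 / 12 : ℝ) * Real.log y)) :=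
      mul_nonneg hw hA0
    have hwB : 0 ≤ wdv (sPart y N) m * (C₂b / Real.log y) := mul_nonneg hw hB0
    by_cases h1 : √R < m
    · rw [if_pos h1]
      have h2 : wdv (sPart y N) m * g m ≤ wdv (sPart y N) m :=
        mul_le_of_le_one_right hw (hg1 m)
      have h3 : 0 ≤ (if Bad m then wdv (sPart y N) m * (C₂b / Real.log y) else 0) := by
        split_ifs <;> [exact hwB; exact le_rfl]
      linarith only [h2, h3, hwA]
    · rw [if_neg h1]
      have hmR : (m : ℝ) ^ 2 ≤ R := by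
        rw [not_lt] at h1
        calc (m : ℝ) ^ 2 ≤ √R ^ 2 := by gcongr
          _ = R := Real.sq_sqrt (by linarith only [hR])
      by_cases h2 : Bad m
      · rw [if_pos h2]
        have h3 := mul_le_mul_of_nonneg_left (hg2 m hm0 hmR) hw
        linarith only [h3, hwA]
      · rw [if_neg h2]
        have h3 := mul_le_mul_of_nonneg_left (hg3 m hm0 hmR h2) hw
        linarith only [h3]
  refine (sum_le_sum hpt).trans ?_
  rw [sum_add_distrib, sum_add_distrib, ← sum_mul, wdv_sum _ (sPart_pos y N), one_mul]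
  have hbad : ∑ m ∈ (sPart y N).divisors,
      (if Bad m then wdv (sPart y N) m * (C₂b / Real.log y) else 0) ≤
      H ^ (-(1 / 3) : ℝ) * (C₂b / Real.log y) := by
    rw [← sum_filter, ← sum_mul]
    exact mul_le_mul_of_nonneg_right (hF3 H s α R (sPart y N) hH hs hsH hR (sPart_pos y N) hns)
      hB0
  have hlarge : ∑ m ∈ (sPart y N).divisors, (if √R < m then wdv (sPart y N) m else 0) ≤
      C₄ * Real.exp (-(Real.log √R / Real.log y)) := by
    rw [← sum_filter]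
    exact hF4 y √R (sPart y N) hy hsqR (sPart_pos y N) fun p hp h => prime_dvd_sPart hp h
  linarith only [hbad, hlarge]

open Classical in
/-- the divisors of a dyadic block -/
noncomputable def eT (s α β : ℝ) (N j : ℕ) : ℝ :=
  ∑ n ∈ N.divisors.filter (fun n : ℕ => ((2 : ℝ) ^ j < n ∧ (n : ℝ) ≤ 2 * 2 ^ j) ∧
    distInt (n * α - β) < 2 * s ∧ ¬ XStr (s ^ (-(1 / 64) : ℝ)) s α n), wdv N n

theorem eT_zero_or {s α β : ℝ} {N j : ℕ} :
    eT s α β N j = 0 ∨ ((s ^ (-(1 / 64) : ℝ)) ^ 2 < 2 * 2 ^ j ∧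
      ∀ d : ℕ, 0 < d → (d : ℝ) ≤ s ^ (-(1 / 64) : ℝ) →
        s * (s ^ (-(1 / 64) : ℝ)) ^ 2 < distInt (d * α) * (2 * 2 ^ j)) := by
  classical
  rcases (N.divisors.filter (fun n : ℕ => ((2 : ℝ) ^ j < n ∧ (n : ℝ) ≤ 2 * 2 ^ j) ∧
    distInt (n * α - β) < 2 * s ∧ ¬ XStr (s ^ (-(1 / 64) : ℝ)) s α n)).eq_empty_or_nonempty
    with h | ⟨n, hn⟩
  · left
    unfold eT
    convert sum_empty (M := ℝ) using 2
  · right
    rw [mem_filter] at hn
    obtain ⟨_, ⟨_, h2⟩, _, h4⟩ := hn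
    unfold XStr at h4
    push Not at h4
    refine ⟨h4.1.trans_le h2, fun d hd hdH => (h4.2 d hd hdH).trans_le ?_⟩
    exact mul_le_mul_of_nonneg_left h2 (abs_nonneg _)

theorem eT_small (hD1 : BlkD1) : ∃ C : ℝ, 0 < C ∧ ∀ (s α β : ℝ) (N j : ℕ), 0 < s →
    s ≤ 1 / 1000 → eT s α β N j ≤ C * s ^ (1 / 64 : ℝ) := by
  classical
  obtain ⟨C, hC, h⟩ := hD1
  refine ⟨4 * C, by positivity, ?_⟩
  intro s α β N j hs hs1
  rcases eT_zero_or (s := s) (α := α) (β := β) (N := N) (j := j) with h0 | ⟨h1, h2⟩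
  · rw [h0]; positivity
  set H := s ^ (-(1 / 64) : ℝ) with hH
  have hH1 : 1 ≤ H := Real.one_le_rpow_of_pos_of_le_one_of_nonpos hs (by linarith only [hs1])
    (by norm_num)
  have hnx : ¬ XStr H s α (2 ^ (j + 1)) := by
    unfold XStr
    push Not
    push_cast
    rw [show (2 : ℝ) ^ (j + 1) = 2 * 2 ^ j by ring]
    exact ⟨h1, h2⟩
  have h3 := h H s α β (2 ^ (j + 1)) hH1 hs hs1 hnx
  push_cast at h3
  have hj0 : (0 : ℝ) < 2 ^ j := by positivity
  have h4 : eT s α β N j ≤ (1 / 2 ^ j) * (C * (s + 1 / H) * 2 ^ (j + 1)) := by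
    unfold eT
    have h5 : ∀ n ∈ N.divisors.filter (fun n : ℕ => ((2 : ℝ) ^ j < n ∧ (n : ℝ) ≤ 2 * 2 ^ j) ∧
        distInt (n * α - β) < 2 * s ∧ ¬ XStr (s ^ (-(1 / 64) : ℝ)) s α n),
        wdv N n ≤ 1 / 2 ^ j := by
      intro n hn
      rw [mem_filter] at hn
      exact (wdv_le N n).trans (one_div_le_one_div_of_le hj0 hn.2.1.1.le)
    refine (sum_le_card_nsmul _ _ _ h5).trans ?_
    rw [nsmul_eq_mul, mul_comm]
    apply mul_le_mul_of_nonneg_left _ (by positivity)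
    refine le_trans ?_ h3
    norm_cast
    apply card_le_card
    intro n hn
    rw [mem_filter] at hn ⊢
    refine ⟨?_, hn.2.2.1⟩
    rw [mem_Icc]
    refine ⟨Nat.pos_of_mem_divisors hn.1, ?_⟩
    have := hn.2.1.2
    rw [← pow_succ'] at this
    exact_mod_cast this
  have hHi : 1 / H = s ^ (1 / 64 : ℝ) := by
    rw [hH, one_div, ← Real.rpow_neg hs.le]; norm_num
  have hss : s ≤ s ^ (1 / 64 : ℝ) := by
    conv_lhs => rw [← Real.rpow_one s]
    exact Real.rpow_le_rpow_of_exponent_ge hs (by linarith only [hs1]) (by norm_num)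
  rw [hHi] at h4
  calc eT s α β N j ≤ _ := h4
    _ = 2 * C * (s + s ^ (1 / 64 : ℝ)) := by rw [pow_succ]; field_simp
    _ ≤ 2 * C * (s ^ (1 / 64 : ℝ) + s ^ (1 / 64 : ℝ)) := by gcongr
    _ = _ := by ring

theorem e_num : ∃ L₀ : ℝ, 16 ≤ L₀ ∧ ∀ L : ℝ, L₀ ≤ L → 8 ≤ Real.log L ∧
    2000 * Real.log L ≤ L / 8 := by
  have h1 := Real.isLittleO_log_id_atTop.bound (c := 1 / 16000) (by norm_num)
  obtain ⟨L₁, hL₁⟩ := Filter.eventually_atTop.mp h1
  refine ⟨max (max 16 (Real.exp 8)) L₁, le_max_of_le_left (le_max_left _ _), ?_⟩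
  intro L hL
  have h16 : 16 ≤ L := (le_max_left _ _).trans ((le_max_left _ _).trans hL)
  have h8 : Real.exp 8 ≤ L := (le_max_right _ _).trans ((le_max_left _ _).trans hL)
  have h2 : 8 ≤ Real.log L := (Real.le_log_iff_exp_le (by linarith only [h16])).mpr h8
  refine ⟨h2, ?_⟩
  have h3 := hL₁ L ((le_max_right _ _).trans hL)
  simp only [Real.norm_eq_abs, id_eq] at h3
  rw [abs_of_nonneg (by linarith only [h2]), abs_of_nonneg (by linarith only [h16])] at h3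
  linarith only [h3]

theorem eT_large {C₂ C₂b C₄ : ℝ} (hC₂ : 0 < C₂) (hC₂b : 0 < C₂b) (hC₄ : 0 < C₄)
    (hF2 : F2C C₂) (hF2b : F2bC C₂b) (hF3 : BlkF3) (hF4 : F4C C₄) {L₀ : ℝ} (hL16 : 16 ≤ L₀)
    (hL₀ : ∀ L : ℝ, L₀ ≤ L → 8 ≤ Real.log L ∧ 2000 * Real.log L ≤ L / 8)
    {s α β : ℝ} {N j : ℕ} (hs : 0 < s) (hs1 : s ≤ 1 / 1000) (hN : 0 < N)
    (hsL : L₀ ≤ s ^ (-(1 / 1000) : ℝ)) (hj : s ^ (-(1 / 1000) : ℝ) ≤ j * Real.log 2) :
    eT s α β N j ≤ (8 * (C₂ + C₂b) * s ^ (1 / 768 : ℝ) * Real.log (j * Real.log 2) +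
      C₄ * s ^ (1 / 1000 : ℝ)) / (j * Real.log 2) := by
  classical
  set L := (j : ℝ) * Real.log 2 with hL
  obtain ⟨hlog8, hlogL⟩ := hL₀ L (hsL.trans hj)
  have hL0 : 16 ≤ L := hL16.trans (hsL.trans hj)
  have hLpos : 0 < L := by linarith only [hL0]
  have hR : (2 : ℝ) ^ j = Real.exp L := by
    rw [hL, mul_comm, Real.exp_mul, Real.exp_log (by norm_num), Real.rpow_natCast]
  rcases eT_zero_or (s := s) (α := α) (β := β) (N := N) (j := j) with h0 | ⟨h1, h2⟩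
  · rw [h0]
    have : 0 ≤ Real.log L := by linarith only [hlog8]
    positivity
  set H := s ^ (-(1 / 64) : ℝ) with hH
  have hH0 : 0 < H := Real.rpow_pos_of_pos hs _
  have hs1' : s ≤ 1 := by linarith only [hs1]
  -- the size of `H`
  have hH8 : 8 < H := by
    have h3 : s ^ (-(1 / 1000) : ℝ) ≤ H :=
      Real.rpow_le_rpow_of_exponent_ge hs hs1' (by norm_num)
    linarith only [h3, hsL, hL16]
  have hsH : 2 * s * H ^ 2 ≤ 1 := by
    have h3 : H ^ 2 = s ^ (-(1 / 32) : ℝ) := by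
      rw [hH, ← Real.rpow_natCast, ← Real.rpow_mul hs.le]; norm_num
    have h4 : s * H ^ 2 = s ^ (31 / 32 : ℝ) := by
      rw [h3]
      conv_lhs => rw [← Real.rpow_one s, ← Real.rpow_mul hs.le, one_mul, ← Real.rpow_add hs]
      norm_num
    have h5 : s ^ (31 / 32 : ℝ) ≤ s ^ (1 / 2 : ℝ) :=
      Real.rpow_le_rpow_of_exponent_ge hs hs1' (by norm_num)
    have h6 : s ^ (1 / 2 : ℝ) ≤ 1 / 2 := by
      rw [← Real.sqrt_eq_rpow]
      rw [Real.sqrt_le_left (by norm_num)]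
      linarith only [hs1]
    rw [mul_assoc, h4]
    linarith only [h5, h6]
  set l := L / (4 * Real.log L) with hl
  have hl2 : 2 ≤ l := by
    rw [hl, le_div_iff₀ (by linarith only [hlog8])]
    linarith only [hlogL, hlog8]
  set y := ⌊Real.exp l⌋₊ with hy
  have hy_le : (y : ℝ) ≤ Real.exp l := Nat.floor_le (Real.exp_pos _).le
  have he2 : (4 : ℝ) ≤ Real.exp l := by
    have h3 : Real.exp 2 ≤ Real.exp l := Real.exp_le_exp.mpr hl2
    have h4 : (4 : ℝ) ≤ Real.exp 2 := by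
      have h5 := Real.add_one_le_exp (1 : ℝ)
      have h6 : Real.exp 2 = Real.exp 1 * Real.exp 1 := by rw [← Real.exp_add]; norm_num
      rw [h6]
      nlinarith only [h5]
    linarith only [h3, h4]
  have hy3 : 3 ≤ y := by
    rw [hy]
    apply Nat.le_floor
    push_cast
    linarith only [he2]
  have hy_ge : Real.exp l / 2 ≤ y := by
    have h3 := Nat.lt_floor_add_one (Real.exp l)
    rw [← hy] at h3
    linarith only [h3, he2]
  have hlogy : l / 2 ≤ Real.log y := by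
    have h3 : Real.log (Real.exp l / 2) ≤ Real.log y :=
      Real.log_le_log (by positivity) hy_ge
    rw [Real.log_div (Real.exp_pos _).ne' (by norm_num), Real.log_exp] at h3
    have h4 := Real.log_two_lt_d9
    linarith only [h3, h4, hl2]
  have hlogy' : Real.log y ≤ l := by
    rw [Real.log_le_iff_le_exp (by exact_mod_cast (by omega : 0 < y))]
    exact hy_le
  have hlogy0 : 0 < Real.log y := by linarith only [hlogy, hl2]
  -- the condition on `y`
  have hsL' : L ^ (-1000 : ℝ) ≤ s := by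
    have h3 : L ^ (-1000 : ℝ) ≤ (s ^ (-(1 / 1000) : ℝ)) ^ (-1000 : ℝ) :=
      Real.rpow_le_rpow_of_nonpos (Real.rpow_pos_of_pos hs _) hj (by norm_num)
    rw [← Real.rpow_mul hs.le] at h3
    norm_num at h3
    norm_num
    exact h3
  have hyR : 4 * (y : ℝ) ^ 4 ≤ s ^ 2 * √(2 ^ j) := by
    have h3 : √((2 : ℝ) ^ j) = Real.exp (L / 2) := by
      rw [hR, Real.exp_half]
    have h4 : (y : ℝ) ^ 4 ≤ Real.exp (L / 8) := by
      calc (y : ℝ) ^ 4 ≤ (Real.exp l) ^ 4 := by gcongr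
        _ = Real.exp (4 * l) := by rw [← Real.exp_nat_mul]; norm_num
        _ ≤ Real.exp (L / 8) := by
          apply Real.exp_le_exp.mpr
          rw [hl]
          rw [show 4 * (L / (4 * Real.log L)) = L / Real.log L by
            have : Real.log L ≠ 0 := by linarith only [hlog8]
            field_simp]
          exact div_le_div_of_nonneg_left hLpos.le (by norm_num) hlog8
    have h5 : Real.exp (-(L / 8)) ≤ s ^ 2 := by
      have h6 : Real.exp (-(L / 8)) ≤ (L ^ (-1000 : ℝ)) ^ 2 := by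
        rw [← Real.rpow_natCast, ← Real.rpow_mul hLpos.le, Real.rpow_def_of_pos hLpos]
        apply Real.exp_le_exp.mpr
        push_cast
        linarith only [hlogL]
      refine h6.trans ?_
      gcongr
    have h7 : (4 : ℝ) ≤ Real.exp (L / 8) := by
      have h8 : Real.exp 2 ≤ Real.exp (L / 8) := Real.exp_le_exp.mpr (by linarith only [hL0])
      have h9 : (4 : ℝ) ≤ Real.exp 2 := by
        have h5 := Real.add_one_le_exp (1 : ℝ)
        have h6 : Real.exp 2 = Real.exp 1 * Real.exp 1 := by rw [← Real.exp_add]; norm_num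
        rw [h6]
        nlinarith only [h5]
      linarith only [h8, h9]
    rw [h3]
    calc 4 * (y : ℝ) ^ 4 ≤ Real.exp (L / 8) * Real.exp (L / 8) :=
          mul_le_mul h7 h4 (by positivity) (Real.exp_pos _).le
      _ = Real.exp (-(L / 8)) * Real.exp (3 * L / 8) := by
          rw [← Real.exp_add, ← Real.exp_add]; congr 1; ring
      _ ≤ s ^ 2 * Real.exp (L / 2) := by
          apply mul_le_mul h5 _ (Real.exp_pos _).le (sq_nonneg s)
          apply Real.exp_le_exp.mpr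
          linarith only [hLpos]
  have hcore := e_core hC₂ hC₂b hF2 hF2b hF3 hF4 (H := H) (s := s) (α := α) (β := β)
    (R := 2 ^ j) (y := y) (N := N) hH8 hs hs1 hsH (one_le_pow₀ (by norm_num)) hN hy3 hyR h2
  have hTle : eT s α β N j ≤ C₂ / (H ^ (1 / 12 : ℝ) * Real.log y) +
      H ^ (-(1 / 3) : ℝ) * (C₂b / Real.log y) +
        C₄ * Real.exp (-(Real.log √(2 ^ j) / Real.log y)) := by
    refine le_trans ?_ hcore
    unfold eT
    apply sum_le_sum_of_subset_of_nonneg _ fun k _ _ => wdv_nonneg _ _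
    intro n hn
    rw [mem_filter] at hn ⊢
    exact ⟨hn.1, hn.2.1, hn.2.2.1⟩
  refine hTle.trans ?_
  have hinv : 1 / Real.log y ≤ 8 * Real.log L / L := by
    have h3 : 1 / Real.log y ≤ 1 / (l / 2) :=
      one_div_le_one_div_of_le (by linarith only [hl2]) hlogy
    refine h3.trans (le_of_eq ?_)
    rw [hl]
    have : Real.log L ≠ 0 := by linarith only [hlog8]
    field_simp
    norm_num
  have hH12 : 1 / H ^ (1 / 12 : ℝ) = s ^ (1 / 768 : ℝ) := by
    rw [hH, ← Real.rpow_mul hs.le, one_div, ← Real.rpow_neg hs.le]; norm_num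
  have hH3 : H ^ (-(1 / 3) : ℝ) ≤ s ^ (1 / 768 : ℝ) := by
    rw [hH, ← Real.rpow_mul hs.le]
    exact Real.rpow_le_rpow_of_exponent_ge hs hs1' (by norm_num)
  have hexp : Real.exp (-(Real.log √(2 ^ j) / Real.log y)) ≤ s ^ (1 / 1000 : ℝ) / L := by
    have h3 : Real.log √((2 : ℝ) ^ j) = L / 2 := by
      rw [hR, ← Real.exp_half, Real.log_exp]
    rw [h3]
    have h4 : 2 * Real.log L ≤ L / 2 / Real.log y := by
      rw [le_div_iff₀ hlogy0]
      have h5 : 2 * Real.log L * Real.log y ≤ 2 * Real.log L * l :=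
        mul_le_mul_of_nonneg_left hlogy' (by linarith only [hlog8])
      refine h5.trans (le_of_eq ?_)
      rw [hl]
      have : Real.log L ≠ 0 := by linarith only [hlog8]
      field_simp
      norm_num
    have h5 : Real.exp (-(L / 2 / Real.log y)) ≤ Real.exp (-(2 * Real.log L)) :=
      Real.exp_le_exp.mpr (by linarith only [h4])
    refine h5.trans ?_
    have h6 : Real.exp (-(2 * Real.log L)) = 1 / L / L := by
      rw [Real.exp_neg, show 2 * Real.log L = Real.log L + Real.log L by ring, Real.exp_add,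
        Real.exp_log hLpos]
      field_simp
    rw [h6]
    apply div_le_div_of_nonneg_right _ hLpos.le
    rw [one_div, ← Real.rpow_neg_one]
    have h7 : L ^ (-1 : ℝ) ≤ (s ^ (-(1 / 1000) : ℝ)) ^ (-1 : ℝ) :=
      Real.rpow_le_rpow_of_nonpos (Real.rpow_pos_of_pos hs _) hj (by norm_num)
    rw [← Real.rpow_mul hs.le] at h7
    norm_num at h7
    norm_num
    exact h7
  have hlL0 : 0 ≤ Real.log L := by linarith only [hlog8]
  have hs768 : 0 ≤ s ^ (1 / 768 : ℝ) := Real.rpow_nonneg hs.le _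
  have f1 : C₂ / (H ^ (1 / 12 : ℝ) * Real.log y) ≤
      C₂ * s ^ (1 / 768 : ℝ) * (8 * Real.log L / L) := by
    rw [← hH12]
    calc C₂ / (H ^ (1 / 12 : ℝ) * Real.log y) =
        C₂ * (1 / H ^ (1 / 12 : ℝ)) * (1 / Real.log y) := by
          have : H ^ (1 / 12 : ℝ) ≠ 0 := (Real.rpow_pos_of_pos hH0 _).ne'
          field_simp
      _ ≤ _ := mul_le_mul_of_nonneg_left hinv (by positivity)
  have f2 : H ^ (-(1 / 3) : ℝ) * (C₂b / Real.log y) ≤
      C₂b * s ^ (1 / 768 : ℝ) * (8 * Real.log L / L) := by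
    calc H ^ (-(1 / 3) : ℝ) * (C₂b / Real.log y) =
        C₂b * H ^ (-(1 / 3) : ℝ) * (1 / Real.log y) := by ring
      _ ≤ C₂b * s ^ (1 / 768 : ℝ) * (8 * Real.log L / L) := by
          apply mul_le_mul (mul_le_mul_of_nonneg_left hH3 hC₂b.le) hinv (by positivity)
          positivity
  have f3 : C₄ * Real.exp (-(Real.log √(2 ^ j) / Real.log y)) ≤
      C₄ * (s ^ (1 / 1000 : ℝ) / L) := mul_le_mul_of_nonneg_left hexp hC₄.le
  calc _ ≤ C₂ * s ^ (1 / 768 : ℝ) * (8 * Real.log L / L) +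
      C₂b * s ^ (1 / 768 : ℝ) * (8 * Real.log L / L) + C₄ * (s ^ (1 / 1000 : ℝ) / L) := by
        linarith only [f1, f2, f3]
    _ = _ := by field_simp

open Classical in
/-- decomposition into dyadic blocks -/
theorem e_dyadic {s α β : ℝ} {N : ℕ} (hs : 0 < s) (hs1 : s ≤ 1 / 1000) (ε : ℝ) :
    ∑ n ∈ N.divisors.filter (fun n : ℕ => (n : ℝ) ≤ Real.exp (Real.exp (s ^ (-ε))) ∧
        distInt (n * α - β) < 2 * s ∧ ¬ XStr (s ^ (-(1 / 64) : ℝ)) s α n), wdv N n ≤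
      ∑ j ∈ (range (⌊Real.exp (s ^ (-ε)) / Real.log 2⌋₊ + 1)).filter
        (fun j : ℕ => (j : ℝ) * Real.log 2 ≤ Real.exp (s ^ (-ε))), eT s α β N j := by
  set H := s ^ (-(1 / 64) : ℝ) with hH
  have hH1 : 1 ≤ H := Real.one_le_rpow_of_pos_of_le_one_of_nonpos hs (by linarith only [hs1])
    (by norm_num)
  set S := N.divisors.filter (fun n : ℕ => (n : ℝ) ≤ Real.exp (Real.exp (s ^ (-ε))) ∧
        distInt (n * α - β) < 2 * s ∧ ¬ XStr H s α n) with hS
  set J := (range (⌊Real.exp (s ^ (-ε)) / Real.log 2⌋₊ + 1)).filter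
        (fun j : ℕ => (j : ℝ) * Real.log 2 ≤ Real.exp (s ^ (-ε))) with hJ
  have hlog2 : 0 < Real.log 2 := Real.log_pos (by norm_num)
  have key : ∀ n ∈ S, ((2 : ℝ) ^ (Nat.log 2 (n - 1)) < n ∧
      (n : ℝ) ≤ 2 * 2 ^ (Nat.log 2 (n - 1))) ∧ Nat.log 2 (n - 1) ∈ J := by
    intro n hn
    rw [hS, mem_filter] at hn
    obtain ⟨_, h1, _, h3⟩ := hn
    unfold XStr at h3
    push Not at h3
    have h4 : (1 : ℝ) < n := by
      refine lt_of_le_of_lt ?_ h3.1
      nlinarith only [hH1]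
    have h5 : 1 < n := by exact_mod_cast h4
    have h6 := Nat.pow_log_le_self 2 (show n - 1 ≠ 0 by omega)
    have h7 := Nat.lt_pow_succ_log_self (show 1 < 2 by norm_num) (n - 1)
    have h8 : 2 ^ (Nat.log 2 (n - 1)) < n := by omega
    have h9 : n ≤ 2 * 2 ^ (Nat.log 2 (n - 1)) := by
      rw [Nat.succ_eq_add_one, pow_succ'] at h7
      omega
    have h8' : (2 : ℝ) ^ (Nat.log 2 (n - 1)) < n := by exact_mod_cast h8
    have h10 : (Nat.log 2 (n - 1) : ℝ) * Real.log 2 ≤ Real.exp (s ^ (-ε)) := by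
      rw [← Real.log_pow]
      rw [Real.log_le_iff_le_exp (by positivity)]
      exact h8'.le.trans h1
    refine ⟨⟨h8', by exact_mod_cast h9⟩, ?_⟩
    rw [hJ, mem_filter, mem_range]
    refine ⟨?_, h10⟩
    rw [Nat.lt_add_one_iff]
    apply Nat.le_floor
    rw [le_div_iff₀ hlog2]
    exact h10
  rw [← sum_fiberwise_of_maps_to (fun n hn => (key n hn).2)]
  apply sum_le_sum
  intro j _
  unfold eT
  apply sum_le_sum_of_subset_of_nonneg _ fun k _ _ => wdv_nonneg _ _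
  intro n hn
  rw [mem_filter] at hn
  obtain ⟨hnS, hnj⟩ := hn
  have h1 := (key n hnS).1
  rw [hnj] at h1
  rw [hS, mem_filter] at hnS
  rw [mem_filter]
  exact ⟨hnS.1, h1, hnS.2.2⟩

/-- BLOCK E from the other blocks. -/
theorem blkE_of (hD1 : BlkD1) (hF2 : BlkF2) (hF2b : BlkF2b) (hF3 : BlkF3) (hF4 : BlkF4) :
    BlkE := by
  classical
  obtain ⟨C₁, hC₁, hsm⟩ := eT_small hD1
  obtain ⟨C₂, hC₂, hF2'⟩ := hF2
  obtain ⟨C₂b, hC₂b, hF2b'⟩ := hF2b
  obtain ⟨C₄, hC₄, hF4'⟩ := hF4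
  obtain ⟨L₀, hL16, hL₀⟩ := e_num
  have hL₀0 : 0 < L₀ := by linarith only [hL16]
  set s₀ : ℝ := L₀ ^ (-1000 : ℝ) with hs₀
  have hs₀0 : 0 < s₀ := Real.rpow_pos_of_pos hL₀0 _
  set C₅ : ℝ := C₁ + 6 * (C₁ + 8 * (C₂ + C₂b) + C₄) with hC₅
  refine ⟨1 / 8000, 1 / 2000, max C₅ (s₀ ^ (-(1 / 2000) : ℝ)), by norm_num, by norm_num,
    lt_max_of_lt_left (by positivity), ?_⟩
  intro s α β N hs hs1 hN
  have hs1' : s ≤ 1 := by linarith only [hs1]
  rcases lt_or_ge s₀ s with hbig | hsmall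
  · -- trivial bound
    have h1 : ∑ n ∈ N.divisors.filter (fun n : ℕ => (n : ℝ) ≤
        Real.exp (Real.exp (s ^ (-(1 / 8000) : ℝ))) ∧
        distInt (n * α - β) < 2 * s ∧ ¬ XStr (s ^ (-(1 / 64) : ℝ)) s α n), wdv N n ≤ 1 := by
      rw [← wdv_sum N hN]
      exact sum_le_sum_of_subset_of_nonneg (filter_subset _ _) fun k _ _ => wdv_nonneg _ _
    refine h1.trans ?_
    have h2 : 1 ≤ s₀ ^ (-(1 / 2000) : ℝ) * s ^ (1 / 2000 : ℝ) := by
      have h3 : s₀ ^ (-(1 / 2000) : ℝ) * s₀ ^ (1 / 2000 : ℝ) = 1 := by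
        rw [← Real.rpow_add hs₀0]; norm_num
      refine h3.symm.le.trans ?_
      apply mul_le_mul_of_nonneg_left _ (Real.rpow_nonneg hs₀0.le _)
      exact Real.rpow_le_rpow hs₀0.le hbig.le (by norm_num)
    refine h2.trans ?_
    exact mul_le_mul_of_nonneg_right (le_max_right _ _) (Real.rpow_nonneg hs.le _)
  -- small `s`
  have hsL : L₀ ≤ s ^ (-(1 / 1000) : ℝ) := by
    have h1 : s₀ ^ (-(1 / 1000) : ℝ) ≤ s ^ (-(1 / 1000) : ℝ) :=
      Real.rpow_le_rpow_of_nonpos hs hsmall (by norm_num)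
    rw [hs₀, ← Real.rpow_mul hL₀0.le] at h1
    norm_num at h1
    norm_num
    exact h1
  refine (e_dyadic hs hs1 (1 / 8000)).trans ?_
  set X : ℝ := Real.exp (s ^ (-(1 / 8000) : ℝ)) with hX
  have hlog2 : 0 < Real.log 2 := Real.log_pos (by norm_num)
  have hlog2' : 1 / 2 ≤ Real.log 2 := by linarith only [Real.log_two_gt_d9]
  set A : ℝ := C₁ * s ^ (1 / 64 - 1 / 1000 : ℝ) +
    (8 * (C₂ + C₂b) * s ^ (1 / 768 - 1 / 8000 : ℝ) + C₄ * s ^ (1 / 1000 : ℝ)) with hA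
  have hA0 : 0 ≤ A := by positivity
  have hpt : ∀ j : ℕ, 0 < j → (j : ℝ) * Real.log 2 ≤ X → eT s α β N j ≤
      A / (j * Real.log 2) := by
    intro j hj hjX
    have hj0 : (0 : ℝ) < j := by exact_mod_cast hj
    have hjl : 0 < (j : ℝ) * Real.log 2 := by positivity
    rcases lt_or_ge ((j : ℝ) * Real.log 2) (s ^ (-(1 / 1000) : ℝ)) with h | h
    · refine (hsm s α β N j hs hs1).trans ?_
      rw [le_div_iff₀ hjl]
      have h1 : C₁ * s ^ (1 / 64 : ℝ) * (j * Real.log 2) ≤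
          C₁ * s ^ (1 / 64 : ℝ) * s ^ (-(1 / 1000) : ℝ) :=
        mul_le_mul_of_nonneg_left h.le (by positivity)
      have h2 : C₁ * s ^ (1 / 64 : ℝ) * s ^ (-(1 / 1000) : ℝ) =
          C₁ * s ^ (1 / 64 - 1 / 1000 : ℝ) := by
        rw [mul_assoc, ← Real.rpow_add hs]
        norm_num
      rw [h2] at h1
      refine h1.trans ?_
      rw [hA]
      have h3 : 0 ≤ 8 * (C₂ + C₂b) * s ^ (1 / 768 - 1 / 8000 : ℝ) + C₄ * s ^ (1 / 1000 : ℝ) := by
        positivity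
      linarith only [h3]
    · refine (eT_large hC₂ hC₂b hC₄ hF2' hF2b' hF3 hF4' hL16 hL₀ hs hs1 hN hsL h).trans ?_
      apply div_le_div_of_nonneg_right _ hjl.le
      have h1 : Real.log (j * Real.log 2) ≤ s ^ (-(1 / 8000) : ℝ) := by
        rw [Real.log_le_iff_le_exp hjl]
        exact hjX
      have h2 : 8 * (C₂ + C₂b) * s ^ (1 / 768 : ℝ) * Real.log (j * Real.log 2) ≤
          8 * (C₂ + C₂b) * s ^ (1 / 768 : ℝ) * s ^ (-(1 / 8000) : ℝ) :=
        mul_le_mul_of_nonneg_left h1 (by positivity)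
      have h3 : 8 * (C₂ + C₂b) * s ^ (1 / 768 : ℝ) * s ^ (-(1 / 8000) : ℝ) =
          8 * (C₂ + C₂b) * s ^ (1 / 768 - 1 / 8000 : ℝ) := by
        rw [mul_assoc, ← Real.rpow_add hs]
        norm_num
      rw [h3] at h2
      rw [hA]
      have h4 : 0 ≤ C₁ * s ^ (1 / 64 - 1 / 1000 : ℝ) := by positivity
      linarith only [h2, h4]
  set J' := ⌊X / Real.log 2⌋₊ with hJ'
  have hsum : ∑ j ∈ (range (J' + 1)).filter (fun j : ℕ => (j : ℝ) * Real.log 2 ≤ X),
      eT s α β N j ≤ C₁ * s ^ (1 / 64 : ℝ) + (A / Real.log 2) * (1 + Real.log J') := by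
    rw [sum_filter, sum_range_succ']
    have h1 : ∀ i ∈ range J', (if ((i + 1 : ℕ) : ℝ) * Real.log 2 ≤ X then
        eT s α β N (i + 1) else 0) ≤ (A / Real.log 2) * ((i : ℝ) + 1)⁻¹ := by
      intro i _
      split_ifs with h
      · refine (hpt (i + 1) (Nat.succ_pos i) h).trans (le_of_eq ?_)
        push_cast
        field_simp
      · positivity
    have h2 : (if ((0 : ℕ) : ℝ) * Real.log 2 ≤ X then eT s α β N 0 else 0) ≤
        C₁ * s ^ (1 / 64 : ℝ) := by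
      split_ifs
      · exact hsm s α β N 0 hs hs1
      · positivity
    have h3 := sum_le_sum h1
    rw [← mul_sum] at h3
    have h4 : ∑ i ∈ range J', ((i : ℝ) + 1)⁻¹ ≤ 1 + Real.log J' := by
      have h5 := harmonic_le_one_add_log J'
      rw [harmonic] at h5
      push_cast at h5
      exact h5
    have h6 := mul_le_mul_of_nonneg_left h4 (show 0 ≤ A / Real.log 2 by positivity)
    linarith only [h2, h3, h6]
  refine hsum.trans ?_
  have hse1 : 1 ≤ s ^ (-(1 / 8000) : ℝ) :=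
    Real.one_le_rpow_of_pos_of_le_one_of_nonpos hs hs1' (by norm_num)
  have hlogJ : 1 + Real.log J' ≤ 3 * s ^ (-(1 / 8000) : ℝ) := by
    rcases Nat.eq_zero_or_pos J' with h0 | hpos
    · rw [h0, Nat.cast_zero, Real.log_zero]
      linarith only [hse1]
    · have h1 : Real.log J' ≤ s ^ (-(1 / 8000) : ℝ) + 1 := by
        rw [Real.log_le_iff_le_exp (by exact_mod_cast hpos)]
        have h2 : (J' : ℝ) ≤ X / Real.log 2 := Nat.floor_le (by positivity)
        refine h2.trans ?_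
        rw [div_le_iff₀ hlog2, Real.exp_add]
        have h3 := Real.add_one_le_exp (1 : ℝ)
        have h4 : X ≤ X * (Real.exp 1 * Real.log 2) := by
          apply le_mul_of_one_le_right (Real.exp_pos _).le
          nlinarith only [h3, hlog2']
        rw [hX] at h4 ⊢
        linarith only [h4]
      linarith only [h1, hse1]
  have hA2 : A ≤ (C₁ + 8 * (C₂ + C₂b) + C₄) * s ^ (1 / 2000 + 1 / 8000 : ℝ) := by
    have e1 : s ^ (1 / 64 - 1 / 1000 : ℝ) ≤ s ^ (1 / 2000 + 1 / 8000 : ℝ) :=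
      Real.rpow_le_rpow_of_exponent_ge hs hs1' (by norm_num)
    have e2 : s ^ (1 / 768 - 1 / 8000 : ℝ) ≤ s ^ (1 / 2000 + 1 / 8000 : ℝ) :=
      Real.rpow_le_rpow_of_exponent_ge hs hs1' (by norm_num)
    have e3 : s ^ (1 / 1000 : ℝ) ≤ s ^ (1 / 2000 + 1 / 8000 : ℝ) :=
      Real.rpow_le_rpow_of_exponent_ge hs hs1' (by norm_num)
    calc A ≤ C₁ * s ^ (1 / 2000 + 1 / 8000 : ℝ) +
        (8 * (C₂ + C₂b) * s ^ (1 / 2000 + 1 / 8000 : ℝ) +
          C₄ * s ^ (1 / 2000 + 1 / 8000 : ℝ)) := by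
          rw [hA]
          gcongr
      _ = _ := by ring
  have hfin : A / Real.log 2 * (1 + Real.log J') ≤
      6 * (C₁ + 8 * (C₂ + C₂b) + C₄) * s ^ (1 / 2000 : ℝ) := by
    have h1 : A / Real.log 2 ≤ 2 * A := by
      rw [div_le_iff₀ hlog2]
      nlinarith only [hA0, hlog2']
    calc A / Real.log 2 * (1 + Real.log J') ≤ A / Real.log 2 * (3 * s ^ (-(1 / 8000) : ℝ)) :=
          mul_le_mul_of_nonneg_left hlogJ (by positivity)
      _ ≤ 2 * A * (3 * s ^ (-(1 / 8000) : ℝ)) := mul_le_mul_of_nonneg_right h1 (by positivity)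
      _ ≤ 2 * ((C₁ + 8 * (C₂ + C₂b) + C₄) * s ^ (1 / 2000 + 1 / 8000 : ℝ)) *
          (3 * s ^ (-(1 / 8000) : ℝ)) := by gcongr
      _ = 6 * (C₁ + 8 * (C₂ + C₂b) + C₄) * (s ^ (1 / 2000 + 1 / 8000 : ℝ) *
          s ^ (-(1 / 8000) : ℝ)) := by ring
      _ = _ := by rw [← Real.rpow_add hs]; norm_num
  have hfin2 : C₁ * s ^ (1 / 64 : ℝ) ≤ C₁ * s ^ (1 / 2000 : ℝ) :=
    mul_le_mul_of_nonneg_left (Real.rpow_le_rpow_of_exponent_ge hs hs1' (by norm_num)) hC₁.le
  calc _ ≤ C₁ * s ^ (1 / 2000 : ℝ) +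
      6 * (C₁ + 8 * (C₂ + C₂b) + C₄) * s ^ (1 / 2000 : ℝ) := add_le_add hfin2 hfin
    _ = C₅ * s ^ (1 / 2000 : ℝ) := by rw [hC₅]; ring
    _ ≤ _ := mul_le_mul_of_nonneg_right (le_max_left _ _) (Real.rpow_nonneg hs.le _)

end Vale.P028
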