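import Vale.Agent.P028.MathlibUsed
import Vale.Agent.P028.XDefs

/-!
# Block F2: definitions and the interface statement
-/

namespace Vale.P028

open Finset

/-- The exponential sum over `A`. -/
noncomputable def expS (A : Finset ℕ) (t : ℝ) : ℂ :=
  ∑ k ∈ A, Complex.exp (2 * Real.pi * Complex.I * (k * t))

/-- The squarefree `q ≤ y` prime to `r`. -/
def Qs (y r : ℕ) : Finset ℕ := (Icc 1 y).filter (fun q => Squarefree q ∧ Nat.Coprime q r)

/-- Reduced residues. -/
def cop (q : ℕ) : Finset ℕ := (range q).filter (fun a => Nat.Coprime a q)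

/-- Interface: large sieve with shifts for rough numbers. -/
def MontS : Prop :=
  ∃ C : ℝ, 0 < C ∧ ∀ (K : ℝ) (y r : ℕ), 1 ≤ K → 0 < r → ∀ (𝓗 : Finset ℕ) (x : ℕ → ℝ),
    (∀ h ∈ 𝓗, ∀ h' ∈ 𝓗, ∀ q ∈ Qs y r, ∀ q' ∈ Qs y r, ∀ a ∈ cop q, ∀ a' ∈ cop q',
      (h ≠ h' ∨ q ≠ q' ∨ a ≠ a') →
        1 / K ≤ distInt ((x h + (a : ℝ) / q) - (x h' + (a' : ℝ) / q'))) →
    ∀ A : Finset ℕ, (∀ k ∈ A, K < k ∧ (k : ℝ) ≤ 2 * K ∧
      ∀ p : ℕ, p.Prime → p ≤ y → ¬ p ∣ k) →
    (∑ h ∈ 𝓗, ‖expS A (x h)‖ ^ 2) * ∑ q ∈ Qs y r, 1 / (q.totient : ℝ) ≤ C * K * A.card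

theorem expS_lower {A : Finset ℕ} {x c : ℝ}
    (h : ∀ k ∈ A, ∃ m : ℤ, |(k : ℝ) * x - c - m| ≤ 1 / 25) : (A.card : ℝ) / 2 ≤ ‖expS A x‖ := by
  have h1 : ‖expS A x‖ = ‖Complex.exp (2 * Real.pi * Complex.I * (-c : ℝ)) * expS A x‖ := by
    rw [norm_mul]
    have : ‖Complex.exp (2 * Real.pi * Complex.I * (-c : ℝ))‖ = 1 := by
      rw [show (2 * Real.pi * Complex.I * (-c : ℝ) : ℂ) = ((2 * Real.pi * (-c) : ℝ) : ℂ) * Complex.I by
        push_cast; ring]
      exact Complex.norm_exp_ofReal_mul_I _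
    rw [this, one_mul]
  have h2 : (Complex.exp (2 * Real.pi * Complex.I * (-c : ℝ)) * expS A x).re ≤
      ‖Complex.exp (2 * Real.pi * Complex.I * (-c : ℝ)) * expS A x‖ := Complex.re_le_norm _
  have h3 : (A.card : ℝ) / 2 ≤ (Complex.exp (2 * Real.pi * Complex.I * (-c : ℝ)) * expS A x).re := by
    unfold expS
    rw [Finset.mul_sum, Complex.re_sum]
    rw [show (A.card : ℝ) / 2 = ∑ _k ∈ A, (1 / 2 : ℝ) by simp; ring]
    apply Finset.sum_le_sum
    intro k hk
    obtain ⟨m, hm⟩ := h k hk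
    rw [← Complex.exp_add]
    have e1 : (2 * Real.pi * Complex.I * (-c : ℝ) + 2 * Real.pi * Complex.I * (k * x) : ℂ)
        = ((2 * Real.pi * ((k : ℝ) * x - c - m) : ℝ) : ℂ) * Complex.I
          + (m : ℤ) * (2 * Real.pi * Complex.I) := by
      push_cast; ring
    rw [e1, Complex.exp_add, Complex.exp_int_mul_two_pi_mul_I, mul_one, Complex.exp_ofReal_mul_I_re]
    have h4 := Real.one_sub_sq_div_two_le_cos (x := 2 * Real.pi * ((k : ℝ) * x - c - m))
    have h5 : (2 * Real.pi * ((k : ℝ) * x - c - m)) ^ 2 ≤ 1 := by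
      rw [← sq_abs, abs_mul, abs_of_pos (by positivity : (0 : ℝ) < 2 * Real.pi)]
      have : 2 * Real.pi * |(k : ℝ) * x - c - m| ≤ 1 := by
        have := Real.pi_le_four
        nlinarith [abs_nonneg ((k : ℝ) * x - c - m), Real.pi_pos]
      have h6 : 0 ≤ 2 * Real.pi * |(k : ℝ) * x - c - m| := by positivity
      nlinarith
    linarith
  linarith

/-- Two reals which differ from distinct points of the unit circle. -/
theorem one_div_le_abs_int {N : ℤ} (hN : N ≠ 0) {d : ℝ} (hd : 0 < d) :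
    1 / d ≤ |(N : ℝ) / d| := by
  rw [abs_div, abs_of_pos hd]
  apply div_le_div_of_nonneg_right _ hd.le
  exact_mod_cast Int.one_le_abs hN

/-- Distance of two distinct reduced fractions modulo one. -/
theorem frac_sep {q q' a a' : ℕ} (hq : 0 < q) (hq' : 0 < q') (ha : a ∈ cop q) (ha' : a' ∈ cop q')
    (hne : q ≠ q' ∨ a ≠ a') (n : ℤ) :
    1 / ((q : ℝ) * q') ≤ |(a : ℝ) / q - a' / q' - n| := by
  have hqR : (0 : ℝ) < q := by exact_mod_cast hq
  have hqR' : (0 : ℝ) < q' := by exact_mod_cast hq'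
  simp only [cop, mem_filter, mem_range] at ha ha'
  have e : (a : ℝ) / q - a' / q' - n = (((a : ℤ) * q' - a' * q - n * (q * q') : ℤ) : ℝ) / (q * q') := by
    push_cast
    field_simp
  rw [e]
  refine one_div_le_abs_int ?_ (by positivity)
  intro h0
  have h1 : (a : ℤ) * q' - a' * q = n * (q * q') := by linarith
  have h2 : (a : ℤ) * q' < q * q' := by
    have : (a : ℤ) < q := by exact_mod_cast ha.1
    have : (0 : ℤ) < q' := by exact_mod_cast hq'
    nlinarith
  have h3 : (a' : ℤ) * q < q * q' := by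
    have : (a' : ℤ) < q' := by exact_mod_cast ha'.1
    have : (0 : ℤ) < q := by exact_mod_cast hq
    nlinarith
  have h4 : (0 : ℤ) ≤ (a : ℤ) * q' := by positivity
  have h5 : (0 : ℤ) ≤ (a' : ℤ) * q := by positivity
  have h6 : (0 : ℤ) < (q : ℤ) * q' := by positivity
  have hn : n = 0 := by
    have h7 : n < 1 := by nlinarith
    have h8 : -1 < n := by nlinarith
    omega
  rw [hn, zero_mul] at h1
  have h9 : a * q' = a' * q := by
    have : (a : ℤ) * q' = a' * q := by linarith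
    exact_mod_cast this
  have hd1 : q ∣ q' := by
    have : q ∣ a * q' := by rw [h9]; exact Dvd.intro_left a' rfl
    exact (Nat.Coprime.dvd_of_dvd_mul_left ha.2.symm this)
  have hd2 : q' ∣ q := by
    have : q' ∣ a' * q := by rw [← h9]; exact Dvd.intro_left a rfl
    exact (Nat.Coprime.dvd_of_dvd_mul_left ha'.2.symm this)
  have hqq : q = q' := Nat.dvd_antisymm hd1 hd2
  subst hqq
  have : a = a' := Nat.eq_of_mul_eq_mul_right hq h9
  rcases hne with h | h
  · exact h rfl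
  · exact h this

theorem distInt_ge_of_forall {t c : ℝ} (h : ∀ n : ℤ, c ≤ |t - n|) : c ≤ distInt t := h (round t)

theorem mem_Qs {y r q : ℕ} (h : q ∈ Qs y r) : 0 < q ∧ q ≤ y ∧ Squarefree q ∧ Nat.Coprime q r := by
  simp only [Qs, mem_filter, mem_Icc] at h
  exact ⟨by omega, h.1.2, h.2.1, h.2.2⟩

open Classical in
/-- BLOCK F2b from the interface. -/
theorem blkF2b_of (hM : MontS) (hb : BlkF1b) : BlkF2b := by
  obtain ⟨C, hC, hM⟩ := hM
  refine ⟨C, hC, fun K y hy hK => ?_⟩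
  have hyR : (2 : ℝ) ≤ y := by exact_mod_cast hy
  have hK1 : (1 : ℝ) ≤ K := by nlinarith
  have hlog : 0 < Real.log y := Real.log_pos (by linarith)
  set A := (Icc 1 ⌊2 * K⌋₊).filter (fun k : ℕ => K < k ∧ (∀ p : ℕ, p.Prime → p ≤ y → ¬ p ∣ k))
    with hA
  have h := hM K y 1 hK1 one_pos {0} (fun _ => 0) ?_ A ?_
  · have h0 : expS A 0 = A.card := by simp [expS]
    have h1 := hb 1 y one_pos (by omega)
    simp only [sum_singleton, h0] at h
    have h2 : (Real.log y) ≤ ∑ q ∈ Qs y 1, 1 / (q.totient : ℝ) := by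
      simpa [Qs] using h1
    have h3 : ‖(A.card : ℂ)‖ = (A.card : ℝ) := by simp
    rw [h3] at h
    by_cases hc : A.card = 0
    · rw [hc]; simp; positivity
    have hc' : (0 : ℝ) < A.card := by exact_mod_cast Nat.pos_of_ne_zero hc
    rw [le_div_iff₀ hlog]
    have h4 : (A.card : ℝ) ^ 2 * Real.log y ≤ C * K * A.card :=
      (mul_le_mul_of_nonneg_left h2 (by positivity)).trans h
    nlinarith
  · intro h _ h' _ q hq q' hq' a ha a' ha' hne
    have hq1 := mem_Qs hq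
    have hq2 := mem_Qs hq'
    have hne' : q ≠ q' ∨ a ≠ a' := by
      rcases hne with h1 | h1
      · simp_all
      · exact h1
    refine distInt_ge_of_forall (fun n => ?_)
    have h1 := frac_sep hq1.1 hq2.1 ha ha' hne' n
    have e : (0 : ℝ) + (a : ℝ) / q - (0 + (a' : ℝ) / q') - n = (a : ℝ) / q - a' / q' - n := by ring
    rw [e]
    refine le_trans ?_ h1
    have hqR : (0 : ℝ) < q := by exact_mod_cast hq1.1
    have hqR' : (0 : ℝ) < q' := by exact_mod_cast hq2.1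
    apply one_div_le_one_div_of_le (by positivity)
    have h5 : (q : ℝ) ≤ y := by exact_mod_cast hq1.2.1
    have h6 : (q' : ℝ) ≤ y := by exact_mod_cast hq2.2.1
    nlinarith
  · intro k hk
    simp only [hA, mem_filter, mem_Icc] at hk
    refine ⟨hk.2.1, ?_, hk.2.2⟩
    exact (Nat.le_floor_iff (by positivity)).1 hk.1.2

end Vale.P028
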