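import Vale.Agent.P028.MathlibUsed
import Vale.Agent.P028.XF2D

/-!
# Montgomery's large sieve step: `BlkF1 → MontS`
-/

namespace Vale.P028

open Finset

theorem cop_one : cop 1 = {0} := by
  ext a
  simp only [cop, mem_filter, mem_range, mem_singleton]
  constructor
  · rintro ⟨h, -⟩; omega
  · rintro rfl; exact ⟨one_pos, Nat.coprime_one_right 0⟩

theorem sum_fractions {M : Type*} [AddCommMonoid M] (q : ℕ) (hq : 0 < q) (F : ℝ → M) :
    ∑ a ∈ range q, F ((a : ℝ) / q) = ∑ d ∈ q.divisors, ∑ a ∈ cop d, F ((a : ℝ) / d) := by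
  rw [Finset.sum_sigma']
  have hqR : (q : ℝ) ≠ 0 := by exact_mod_cast hq.ne'
  refine Finset.sum_nbij' (fun a => (⟨q / Nat.gcd a q, a / Nat.gcd a q⟩ : Σ _ : ℕ, ℕ))
    (fun t => t.2 * (q / t.1)) ?_ ?_ ?_ ?_ ?_
  · intro a ha
    have ha' := mem_range.1 ha
    have hg : 0 < Nat.gcd a q := Nat.gcd_pos_of_pos_right _ hq
    simp only [mem_sigma, Nat.mem_divisors, cop, mem_filter, mem_range]
    refine ⟨⟨Nat.div_dvd_of_dvd (Nat.gcd_dvd_right a q), hq.ne'⟩, ?_, ?_⟩
    · exact Nat.div_lt_div_of_lt_of_dvd (Nat.gcd_dvd_right a q) ha'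
    · exact Nat.coprime_div_gcd_div_gcd hg
  · rintro ⟨d, a⟩ h
    simp only [mem_sigma, Nat.mem_divisors, cop, mem_filter, mem_range] at h ⊢
    obtain ⟨⟨hd, -⟩, ha, -⟩ := h
    have hd0 : 0 < d := Nat.pos_of_dvd_of_pos hd hq
    have hqd : 0 < q / d := Nat.div_pos (Nat.le_of_dvd hq hd) hd0
    calc a * (q / d) < d * (q / d) := Nat.mul_lt_mul_of_pos_right ha hqd
      _ = q := Nat.mul_div_cancel' hd
  · intro a ha
    simp only
    have hg : 0 < Nat.gcd a q := Nat.gcd_pos_of_pos_right _ hq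
    rw [Nat.div_div_self (Nat.gcd_dvd_right a q) hq.ne']
    exact Nat.div_mul_cancel (Nat.gcd_dvd_left a q)
  · rintro ⟨d, a⟩ h
    simp only [mem_sigma, Nat.mem_divisors, cop, mem_filter, mem_range] at h ⊢
    obtain ⟨⟨hd, -⟩, ha, hcop⟩ := h
    have hd0 : 0 < d := Nat.pos_of_dvd_of_pos hd hq
    obtain ⟨e, rfl⟩ := hd
    have he : 0 < e := Nat.pos_of_mul_pos_left hq
    have e1 : d * e / d = e := Nat.mul_div_cancel_left e hd0
    have hg : Nat.gcd (a * e) (d * e) = e := by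
      rw [Nat.gcd_mul_right, hcop.gcd_eq_one, one_mul]
    rw [e1, hg, Nat.mul_div_cancel _ he, Nat.mul_div_cancel _ he]
  · intro a ha
    simp only
    have hg : 0 < Nat.gcd a q := Nat.gcd_pos_of_pos_right _ hq
    have hgR : (Nat.gcd a q : ℝ) ≠ 0 := by exact_mod_cast hg.ne'
    congr 1
    rw [Nat.cast_div (Nat.gcd_dvd_left a q) hgR, Nat.cast_div (Nat.gcd_dvd_right a q) hgR]
    field_simp

/-- Ramanujan sums for coprime arguments. -/
theorem ram_sum (k : ℕ) (q : ℕ) (hq : 0 < q) (hk : Nat.Coprime k q) :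
    ∑ a ∈ cop q, Complex.exp (2 * Real.pi * Complex.I * (k * (((a : ℝ) / q : ℝ) : ℂ)))
      = ((ArithmeticFunction.moebius q : ℤ) : ℂ) := by
  induction q using Nat.strong_induction_on with
  | _ q ih =>
  rcases Nat.eq_or_lt_of_le (Nat.one_le_iff_ne_zero.2 hq.ne') with h1 | h1
  · subst h1
    simp [cop_one]
  · have hs := sum_fractions q hq
      (fun t : ℝ => Complex.exp (2 * Real.pi * Complex.I * (k * (t : ℂ))))
    have hgeom : ∑ a ∈ range q,
        Complex.exp (2 * Real.pi * Complex.I * (k * (((a : ℝ) / q : ℝ) : ℂ))) = 0 := by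
      have hp := Complex.isPrimitiveRoot_exp_of_coprime k q hq.ne' hk
      have := hp.geom_sum_eq_zero h1
      rw [← this]
      apply sum_congr rfl
      intro a _
      rw [← Complex.exp_nat_mul]
      congr 1
      push_cast
      ring
    rw [hgeom] at hs
    have hmu : ∑ d ∈ q.divisors, ((ArithmeticFunction.moebius d : ℤ) : ℂ) = 0 := by
      have h2 : ∑ d ∈ q.divisors, (ArithmeticFunction.moebius d : ℤ) = 0 := by
        have h3 := ArithmeticFunction.coe_zeta_mul_apply (f := ArithmeticFunction.moebius) (x := q)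
        rw [ArithmeticFunction.coe_zeta_mul_moebius] at h3
        rw [← h3, ArithmeticFunction.one_apply, if_neg (by omega)]
      have := congrArg (fun z : ℤ => (z : ℂ)) h2
      simpa using this
    have hsplit : q.divisors = insert q q.properDivisors := (Nat.insert_self_properDivisors hq.ne').symm
    have hnot : q ∉ q.properDivisors := Nat.self_notMem_properDivisors
    rw [hsplit, sum_insert hnot] at hs hmu
    have hrest : ∑ d ∈ q.properDivisors, ∑ a ∈ cop d,
        Complex.exp (2 * Real.pi * Complex.I * (k * (((a : ℝ) / d : ℝ) : ℂ))) =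
        ∑ d ∈ q.properDivisors, ((ArithmeticFunction.moebius d : ℤ) : ℂ) := by
      apply sum_congr rfl
      intro d hd
      rw [Nat.mem_properDivisors] at hd
      exact ih d hd.2 (Nat.pos_of_dvd_of_pos hd.1 hq) (hk.coprime_dvd_right hd.1)
    rw [hrest] at hs
    have := hs.symm.trans hmu.symm
    exact add_right_cancel this

theorem cop_card (q : ℕ) : (cop q).card = q.totient := by
  rw [Nat.totient_eq_card_coprime, cop]
  congr 1
  apply filter_congr
  intro a _
  exact Nat.coprime_comm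

theorem sum_expS_cop {A : Finset ℕ} {q : ℕ} (hq : 0 < q) (h : ∀ k ∈ A, Nat.Coprime k q) (t : ℝ) :
    ∑ a ∈ cop q, expS A (t + (a : ℝ) / q) =
      ((ArithmeticFunction.moebius q : ℤ) : ℂ) * expS A t := by
  unfold expS
  rw [sum_comm, mul_sum]
  apply sum_congr rfl
  intro k hk
  rw [← ram_sum k q hq (h k hk), sum_mul]
  apply sum_congr rfl
  intro a _
  rw [← Complex.exp_add]
  congr 1
  push_cast
  ring

theorem mont_ineq {A : Finset ℕ} {q : ℕ} (hq : 0 < q) (hsq : Squarefree q)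
    (h : ∀ k ∈ A, Nat.Coprime k q) (t : ℝ) :
    ‖expS A t‖ ^ 2 ≤ (q.totient : ℝ) * ∑ a ∈ cop q, ‖expS A (t + (a : ℝ) / q)‖ ^ 2 := by
  have h1 : ‖expS A t‖ = ‖∑ a ∈ cop q, expS A (t + (a : ℝ) / q)‖ := by
    rw [sum_expS_cop hq h, norm_mul]
    have : ‖((ArithmeticFunction.moebius q : ℤ) : ℂ)‖ = 1 := by
      rw [Complex.norm_intCast]
      have := ArithmeticFunction.abs_moebius_eq_one_of_squarefree hsq
      exact_mod_cast this
    rw [this, one_mul]
  have h2 : ‖∑ a ∈ cop q, expS A (t + (a : ℝ) / q)‖ ≤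
      ∑ a ∈ cop q, ‖expS A (t + (a : ℝ) / q)‖ := norm_sum_le _ _
  have h3 := sq_sum_le_card_mul_sum_sq (s := cop q) (f := fun a => ‖expS A (t + (a : ℝ) / q)‖)
  rw [cop_card] at h3
  rw [h1]
  refine le_trans ?_ h3
  gcongr

theorem coprime_of_rough {k q y : ℕ} (hk : ∀ p : ℕ, p.Prime → p ≤ y → ¬ p ∣ k) (hq : 0 < q)
    (hqy : q ≤ y) : Nat.Coprime k q := by
  apply Nat.Coprime.symm
  apply Nat.Coprime.symm
  rw [Nat.coprime_iff_gcd_eq_one]
  by_contra hg
  obtain ⟨p, hp, hpd⟩ := Nat.exists_prime_and_dvd hg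
  have h1 : p ∣ k := hpd.trans (Nat.gcd_dvd_left k q)
  have h2 : p ∣ q := hpd.trans (Nat.gcd_dvd_right k q)
  exact hk p hp ((Nat.le_of_dvd hq h2).trans hqy) h1

/-- The large sieve for rough numbers with shifts. -/
theorem montS_of (h1 : BlkF1) : MontS := by
  obtain ⟨C, hC, h1⟩ := h1
  refine ⟨C, hC, fun K y r hK hr 𝓗 x hsep A hA => ?_⟩
  have key := h1 K hK (Σ _ : ℕ, Σ _ : ℕ, ℕ)
    (𝓗.sigma (fun _ => (Qs y r).sigma (fun q => cop q)))
    (fun t => x t.1 + (t.2.2 : ℝ) / t.2.1) (by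
      rintro ⟨h, q, a⟩ hi ⟨h', q', a'⟩ hj hne
      simp only [mem_sigma] at hi hj
      refine hsep h hi.1 h' hj.1 q hi.2.1 q' hj.2.1 a hi.2.2 a' hj.2.2 ?_
      by_contra hcon
      push Not at hcon
      obtain ⟨e1, e2, e3⟩ := hcon
      subst e1; subst e2; subst e3
      exact hne rfl) A (fun k hk => ⟨(hA k hk).1, (hA k hk).2.1⟩)
  rw [sum_sigma] at key
  have key2 : ∑ h ∈ 𝓗, ∑ q ∈ Qs y r, ∑ a ∈ cop q, ‖expS A (x h + (a : ℝ) / q)‖ ^ 2 ≤
      C * K * A.card := by
    refine le_trans (le_of_eq ?_) key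
    apply sum_congr rfl
    intro h _
    rw [sum_sigma]
    apply sum_congr rfl
    intro q _
    apply sum_congr rfl
    intro a _
    rfl
  refine le_trans ?_ key2
  rw [sum_mul]
  apply sum_le_sum
  intro h _
  rw [mul_sum]
  apply sum_le_sum
  intro q hq
  have hq' := mem_Qs hq
  have hsq : Squarefree q := by
    simp only [Qs, mem_filter] at hq; exact hq.2.1
  have hm := mont_ineq hq'.1 hsq (fun k hk => coprime_of_rough (hA k hk).2.2 hq'.1 hq'.2.1) (x h)
  have hφ : (0 : ℝ) < q.totient := by exact_mod_cast Nat.totient_pos.2 hq'.1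
  rw [mul_one_div, div_le_iff₀ hφ, mul_comm]
  exact hm

end Vale.P028
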