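import Vale.Agent.P028.XDefs

/-!
# Block F1b: lower bound for the sum of `μ²(q)/φ(q)` over `q ≤ y` prime to `r`
-/

namespace Vale.P028

open Finset

namespace XF1b

/-- The reciprocal as a monoid homomorphism. -/
noncomputable def invHom : ℕ →* ℝ where
  toFun n := (n : ℝ)⁻¹
  map_one' := by simp
  map_mul' a b := by push_cast; rw [mul_inv]

/-- The sum of the reciprocals of the numbers with prime factors among those of `n`. -/
theorem smooth_sum (n : ℕ) (hn : n ≠ 0) (T : Finset ℕ)
    (hT : ∀ t ∈ T, t ≠ 0 ∧ t.primeFactors ⊆ n.primeFactors) :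
    ∑ t ∈ T, (t : ℝ)⁻¹ ≤ (n : ℝ) / n.totient := by
  classical
  have hlt : ∀ {p : ℕ}, p.Prime → ‖invHom p‖ < 1 := by
    intro p hp
    have h1 : (1 : ℝ) < p := by exact_mod_cast hp.one_lt
    change ‖(p : ℝ)⁻¹‖ < 1
    rw [Real.norm_of_nonneg (by positivity)]
    exact inv_lt_one_of_one_lt₀ h1
  obtain ⟨hs, hh⟩ :=
    EulerProduct.summable_and_hasSum_factoredNumbers_prod_filter_prime_geometric
      (f := invHom) hlt n.primeFactors
  have hprod : ∏ p ∈ n.primeFactors with p.Prime, (1 - invHom p)⁻¹ = (n : ℝ) / n.totient := by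
    have hf : (n.primeFactors.filter fun p => p.Prime) = n.primeFactors := by
      apply Finset.filter_true_of_mem
      intro p hp
      exact Nat.prime_of_mem_primeFactors hp
    rw [hf]
    have htot : (n.totient : ℝ) = n * ∏ p ∈ n.primeFactors, (1 - (p : ℝ)⁻¹) := by
      have h := Nat.totient_eq_mul_prod_factors n
      have h2 : ((n.totient : ℚ) : ℝ) = ((n : ℚ) * ∏ p ∈ n.primeFactors, (1 - (p : ℚ)⁻¹) : ℚ) := by
        rw [h]
      push_cast at h2
      exact h2
    have hn0 : (n : ℝ) ≠ 0 := by exact_mod_cast hn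
    rw [htot, Finset.prod_inv_distrib, div_mul_eq_div_div, div_self hn0, one_div]
    rfl
  rw [hprod] at hh
  -- the finite sum is at most the full sum
  have hmem : ∀ t ∈ T, t ∈ Nat.factoredNumbers n.primeFactors := by
    intro t ht
    exact Nat.mem_factoredNumbers_of_primeFactors_subset (hT t ht).1 (hT t ht).2
  have hsub : ∑ t ∈ T, (t : ℝ)⁻¹ =
      ∑ m ∈ T.attach.image (fun t => (⟨t.1, hmem t.1 t.2⟩ : Nat.factoredNumbers n.primeFactors)),
        invHom m := by
    rw [Finset.sum_image]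
    · exact (Finset.sum_attach T (fun t => (t : ℝ)⁻¹)).symm
    · intro a _ b _ hab
      exact Subtype.ext (Subtype.mk.inj hab)
  rw [hsub]
  refine sum_le_hasSum _ (fun m _ => ?_) hh
  change 0 ≤ ((m : ℕ) : ℝ)⁻¹
  positivity

/-- The part of the radical of `n` prime to `r`. -/
def radr (r n : ℕ) : ℕ := ∏ p ∈ n.primeFactors.filter (fun p => ¬ p ∣ r), p

theorem radr_dvd (r n : ℕ) (_hn : n ≠ 0) : radr r n ∣ n :=
  (Finset.prod_dvd_prod_of_subset _ _ (fun p => p) (Finset.filter_subset _ _)).trans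
    (Nat.prod_primeFactors_dvd n)

theorem radr_squarefree (r n : ℕ) : Squarefree (radr r n) := by
  have h : Squarefree (∏ p ∈ n.primeFactors, p) := by
    apply Finset.squarefree_prod_of_pairwise_isCoprime
    · intro p hp q hq hpq
      exact Nat.isCoprime_iff_coprime.mp ((Nat.isCoprime_iff_coprime.mpr
        ((Nat.coprime_primes (Nat.prime_of_mem_primeFactors hp)
          (Nat.prime_of_mem_primeFactors hq)).mpr hpq))) |> Nat.coprime_iff_isRelPrime.mp
    · intro p hp
      exact (Nat.prime_of_mem_primeFactors hp).prime.squarefree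
  exact h.squarefree_of_dvd
    (Finset.prod_dvd_prod_of_subset _ _ (fun p => p) (Finset.filter_subset _ _))

theorem radr_coprime (r n : ℕ) : Nat.Coprime (radr r n) r := by
  apply Nat.Coprime.prod_left
  intro p hp
  rw [Finset.mem_filter] at hp
  exact (Nat.Prime.coprime_iff_not_dvd (Nat.prime_of_mem_primeFactors hp.1)).mpr hp.2

theorem primeFactors_subset (r n : ℕ) (hr : r ≠ 0) :
    n.primeFactors ⊆ (radr r n * r).primeFactors := by
  intro p hp
  have hpp := Nat.prime_of_mem_primeFactors hp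
  have h0 : radr r n ≠ 0 := (radr_squarefree r n).ne_zero
  rw [Nat.mem_primeFactors]
  refine ⟨hpp, ?_, mul_ne_zero h0 hr⟩
  by_cases h : p ∣ r
  · exact h.mul_left _
  · refine Dvd.dvd.mul_right ?_ _
    exact Finset.dvd_prod_of_mem _ (Finset.mem_filter.mpr ⟨hp, h⟩)

end XF1b

open XF1b in
/-- BLOCK F1b. -/
theorem blkF1b : BlkF1b := by
  classical
  intro r y hr hy
  have hr0 : r ≠ 0 := hr.ne'
  have hphi : (0 : ℝ) < r.totient := by exact_mod_cast Nat.totient_pos.mpr hr
  have hrR : (0 : ℝ) < r := by exact_mod_cast hr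
  set S := (Icc 1 y).filter (fun q => Squarefree q ∧ Nat.Coprime q r) with hS
  have hmaps : ∀ n ∈ Icc 1 y, radr r n ∈ S := by
    intro n hn
    rw [Finset.mem_Icc] at hn
    have hn0 : n ≠ 0 := by omega
    have hd := Nat.le_of_dvd (by omega) (radr_dvd r n hn0)
    have hpos : 0 < radr r n := Nat.pos_of_ne_zero (radr_squarefree r n).ne_zero
    rw [hS, Finset.mem_filter, Finset.mem_Icc]
    exact ⟨⟨hpos, hd.trans hn.2⟩, radr_squarefree r n, radr_coprime r n⟩
  have hfib : ∑ n ∈ Icc 1 y, (n : ℝ)⁻¹ =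
      ∑ q ∈ S, ∑ n ∈ (Icc 1 y).filter (fun n => radr r n = q), (n : ℝ)⁻¹ :=
    (Finset.sum_fiberwise_of_maps_to hmaps _).symm
  have hone : ∀ q ∈ S, ∑ n ∈ (Icc 1 y).filter (fun n => radr r n = q), (n : ℝ)⁻¹ ≤
      ((r : ℝ) / r.totient) * (1 / (q.totient : ℝ)) := by
    intro q hq
    rw [hS, Finset.mem_filter, Finset.mem_Icc] at hq
    obtain ⟨⟨hq1, _⟩, hsq, hcop⟩ := hq
    have hq0 : q ≠ 0 := by omega
    have hqR : (0 : ℝ) < q := by exact_mod_cast hq1
    have hqt : (0 : ℝ) < q.totient := by exact_mod_cast Nat.totient_pos.mpr hq1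
    have hdvd : ∀ n ∈ (Icc 1 y).filter (fun n => radr r n = q), q ∣ n ∧ n ≠ 0 := by
      intro n hn
      rw [Finset.mem_filter, Finset.mem_Icc] at hn
      have hn0 : n ≠ 0 := by omega
      refine ⟨?_, hn0⟩
      rw [← hn.2]
      exact radr_dvd r n hn0
    have h1 : ∑ n ∈ (Icc 1 y).filter (fun n => radr r n = q), (n : ℝ)⁻¹ =
        (q : ℝ)⁻¹ * ∑ t ∈ ((Icc 1 y).filter (fun n => radr r n = q)).image (fun n => n / q),
          (t : ℝ)⁻¹ := by
      rw [Finset.sum_image, Finset.mul_sum]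
      · apply Finset.sum_congr rfl
        intro n hn
        obtain ⟨hd, _⟩ := hdvd n hn
        obtain ⟨t, rfl⟩ := hd
        rw [Nat.mul_div_cancel_left _ (by omega)]
        push_cast
        rw [mul_inv]
      · intro a ha b hb hab
        obtain ⟨hda, _⟩ := hdvd a ha
        obtain ⟨hdb, _⟩ := hdvd b hb
        have : a / q = b / q := hab
        rw [← Nat.div_mul_cancel hda, ← Nat.div_mul_cancel hdb, this]
    rw [h1]
    have h2 : ∑ t ∈ ((Icc 1 y).filter (fun n => radr r n = q)).image (fun n => n / q),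
        (t : ℝ)⁻¹ ≤ ((q * r : ℕ) : ℝ) / (q * r).totient := by
      apply smooth_sum _ (mul_ne_zero hq0 hr0)
      intro t ht
      rw [Finset.mem_image] at ht
      obtain ⟨n, hn, rfl⟩ := ht
      obtain ⟨hd, hn0⟩ := hdvd n hn
      rw [Finset.mem_filter] at hn
      have hne : n / q ≠ 0 := by
        intro h
        apply hn0
        rw [← Nat.div_mul_cancel hd, h, zero_mul]
      refine ⟨hne, ?_⟩
      have h3 := primeFactors_subset r n hr0
      rw [hn.2] at h3
      refine (Nat.primeFactors_mono (Nat.div_dvd_of_dvd hd) hn0).trans h3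
    have h3 : ((q * r : ℕ) : ℝ) / (q * r).totient =
        ((q : ℝ) / q.totient) * ((r : ℝ) / r.totient) := by
      rw [Nat.totient_mul hcop]
      push_cast
      rw [div_mul_div_comm]
    rw [h3] at h2
    calc (q : ℝ)⁻¹ * ∑ t ∈ ((Icc 1 y).filter (fun n => radr r n = q)).image (fun n => n / q),
          (t : ℝ)⁻¹ ≤ (q : ℝ)⁻¹ * (((q : ℝ) / q.totient) * ((r : ℝ) / r.totient)) :=
          mul_le_mul_of_nonneg_left h2 (by positivity)
      _ = ((r : ℝ) / r.totient) * (1 / (q.totient : ℝ)) := by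
          field_simp
  have hlog : Real.log y ≤ ∑ n ∈ Icc 1 y, (n : ℝ)⁻¹ := by
    have h := log_add_one_le_harmonic y
    rw [harmonic_eq_sum_Icc] at h
    push_cast at h
    refine le_trans ?_ h
    apply Real.log_le_log
    · exact_mod_cast hy
    · linarith
  have hmain : ∑ n ∈ Icc 1 y, (n : ℝ)⁻¹ ≤
      ((r : ℝ) / r.totient) * ∑ q ∈ S, 1 / (q.totient : ℝ) := by
    rw [hfib, Finset.mul_sum]
    exact Finset.sum_le_sum hone
  calc ((r.totient : ℝ) / r) * Real.log y
      ≤ ((r.totient : ℝ) / r) * (((r : ℝ) / r.totient) * ∑ q ∈ S, 1 / (q.totient : ℝ)) :=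
        mul_le_mul_of_nonneg_left (hlog.trans hmain) (by positivity)
    _ = ∑ q ∈ S, 1 / (q.totient : ℝ) := by
        rw [← mul_assoc, div_mul_div_comm, mul_comm (r.totient : ℝ) r, div_self (by positivity),
          one_mul]

end Vale.P028
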