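import Vale.Agent.P028.MathlibUsed
import Vale.Agent.P028.XF2D

/-!
# Block F2, the case of a small denominator
-/

namespace Vale.P028

open Finset

/-- The set counted in block F2. -/
noncomputable def setK (s α β K : ℝ) (y : ℕ) : Finset ℕ := by
  classical
  exact (Icc 1 ⌊2 * K⌋₊).filter (fun k : ℕ => K < k ∧ (∀ p : ℕ, p.Prime → p ≤ y → ¬ p ∣ k) ∧
    distInt (k * α - β) < 2 * s)

theorem mem_setK {s α β K : ℝ} {y k : ℕ} (hK : 0 ≤ K) (h : k ∈ setK s α β K y) :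
    K < k ∧ (k : ℝ) ≤ 2 * K ∧ (∀ p : ℕ, p.Prime → p ≤ y → ¬ p ∣ k) ∧
      distInt (k * α - β) < 2 * s := by
  unfold setK at h
  simp only [mem_filter, mem_Icc] at h
  exact ⟨h.2.1, (Nat.le_floor_iff (by positivity)).1 h.1.2, h.2.2.1, h.2.2.2⟩

theorem K_nonneg {s K : ℝ} {y : ℕ} (hs : 0 < s) (h : 4 * (y : ℝ) ^ 4 ≤ s ^ 2 * K) : 0 ≤ K := by
  by_contra hK
  push Not at hK
  have : s ^ 2 * K < 0 := mul_neg_of_pos_of_neg (by positivity) hK
  have : 0 ≤ 4 * (y : ℝ) ^ 4 := by positivity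
  linarith

theorem sqrt_big {s K : ℝ} {y : ℕ} (hs : 0 < s) (h : 4 * (y : ℝ) ^ 4 ≤ s ^ 2 * K) :
    2 * (y : ℝ) ^ 2 ≤ s * √K := by
  have h1 : 0 ≤ K := K_nonneg hs h
  have h2 : (2 * (y : ℝ) ^ 2) ^ 2 ≤ (s * √K) ^ 2 := by
    rw [mul_pow s, Real.sq_sqrt h1]
    linarith [show (2 * (y : ℝ) ^ 2) ^ 2 = 4 * (y : ℝ) ^ 4 by ring]
  exact le_of_sq_le_sq h2 (by positivity)

/-- Final counting step. -/
theorem count_of_mont {C K : ℝ} {y r : ℕ} {A : Finset ℕ} {𝓗 : Finset ℕ} {x : ℕ → ℝ} {M : ℝ}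
    (hlow : ∀ h ∈ 𝓗, (A.card : ℝ) / 2 ≤ ‖expS A (x h)‖)
    (hm : (∑ h ∈ 𝓗, ‖expS A (x h)‖ ^ 2) * ∑ q ∈ Qs y r, 1 / (q.totient : ℝ) ≤ C * K * A.card)
    (hC : 0 ≤ C) (hK : 0 ≤ K)
    (hM : 0 < M) (hq : M ≤ (𝓗.card : ℝ) * ∑ q ∈ Qs y r, 1 / (q.totient : ℝ)) :
    (A.card : ℝ) ≤ 4 * C * K / M := by
  rw [le_div_iff₀ hM]
  by_cases hc : A.card = 0
  · rw [hc]; simp; positivity
  have hc' : (0 : ℝ) < A.card := by exact_mod_cast Nat.pos_of_ne_zero hc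
  have h1 : (𝓗.card : ℝ) * ((A.card : ℝ) / 2) ^ 2 ≤ ∑ h ∈ 𝓗, ‖expS A (x h)‖ ^ 2 := by
    rw [← nsmul_eq_mul, ← sum_const]
    apply sum_le_sum
    intro h hh
    have := hlow h hh
    gcongr
  have h0 : 0 ≤ ∑ q ∈ Qs y r, 1 / (q.totient : ℝ) := sum_nonneg (fun q _ => by positivity)
  have h2 : ((𝓗.card : ℝ) * ((A.card : ℝ) / 2) ^ 2) * ∑ q ∈ Qs y r, 1 / (q.totient : ℝ)
      ≤ C * K * A.card := (mul_le_mul_of_nonneg_right h1 h0).trans hm
  have h3 : M * ((A.card : ℝ) / 2) ^ 2 ≤ C * K * A.card := by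
    refine le_trans ?_ h2
    calc M * ((A.card : ℝ) / 2) ^ 2 ≤
        ((𝓗.card : ℝ) * ∑ q ∈ Qs y r, 1 / (q.totient : ℝ)) * ((A.card : ℝ) / 2) ^ 2 := by gcongr
      _ = _ := by ring
  have h4 : (A.card : ℝ) * (A.card * M) ≤ (A.card : ℝ) * (4 * C * K) := by nlinarith
  exact le_of_mul_le_mul_left h4 hc'

theorem y_bounds {y : ℝ} (hy : 2 ≤ y) :
    1 / (4 * y ^ 2) + 1 / (100 * y ^ 2) ≤ 1 / y ^ 2 ∧ 1 / (100 * y ^ 2) ≤ 1 / 100 ∧
      1 / (4 * y ^ 2) ≤ 1 / 4 := by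
  have h0 : 0 < y ^ 2 := by positivity
  have h1 : 1 ≤ y ^ 2 := by nlinarith
  refine ⟨?_, ?_, ?_⟩
  · have e1 : 1 / (4 * y ^ 2) = (1 / 4) * (1 / y ^ 2) := by rw [one_div_mul_one_div]
    have e2 : 1 / (100 * y ^ 2) = (1 / 100) * (1 / y ^ 2) := by rw [one_div_mul_one_div]
    have e3 : 0 < 1 / y ^ 2 := by positivity
    rw [e1, e2]; linarith
  · exact one_div_le_one_div_of_le (by norm_num) (by linarith)
  · exact one_div_le_one_div_of_le (by norm_num) (by linarith)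

/-- Separation of the points `x h + a / q`, abstract form: the differences `x h - x h'` are tiny,
but not too tiny. -/
theorem sep_abs {K y : ℝ} {d : ℝ} {q q' a a' : ℕ} (hy : 2 ≤ y) (hKy : 4 * y ^ 2 ≤ K)
    (hq : 0 < q) (hq' : 0 < q') (hqy : (q : ℝ) ≤ y) (hqy' : (q' : ℝ) ≤ y)
    (ha : a ∈ cop q) (ha' : a' ∈ cop q')
    (hd : |d| ≤ 1 / (100 * y ^ 2)) (hd' : q = q' → a = a' → 1 / K ≤ |d|) (n : ℤ) :
    1 / K ≤ |d + (a : ℝ) / q - a' / q' - n| := by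
  have hqR : (0 : ℝ) < q := by exact_mod_cast hq
  have hqR' : (0 : ℝ) < q' := by exact_mod_cast hq'
  obtain ⟨b1, b2, b3⟩ := y_bounds hy
  have h4 : 1 / K ≤ 1 / (4 * y ^ 2) := one_div_le_one_div_of_le (by positivity) hKy
  by_cases hqa : q ≠ q' ∨ a ≠ a'
  · have h1 := frac_sep hq hq' ha ha' hqa n
    have h2 : 1 / y ^ 2 ≤ 1 / ((q : ℝ) * q') := by
      apply one_div_le_one_div_of_le (by positivity)
      calc (q : ℝ) * q' ≤ y * y := by gcongr
        _ = y ^ 2 := by ring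
    have h3 : |(a : ℝ) / q - a' / q' - n| ≤ |d + (a : ℝ) / q - a' / q' - n| + |d| := by
      have e2 : (a : ℝ) / q - a' / q' - n = (d + (a : ℝ) / q - a' / q' - n) - d := by ring
      rw [e2]; exact abs_sub _ _
    linarith
  · push Not at hqa
    obtain ⟨h1, h2⟩ := hqa
    have hd1 := hd' h1 h2
    subst h1
    subst h2
    have e2 : d + (a : ℝ) / q - (a : ℝ) / q - n = d - n := by ring
    rw [e2]
    by_cases hn : n = 0
    · rw [hn, Int.cast_zero, sub_zero]; exact hd1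
    · have h1 : (1 : ℝ) ≤ |(n : ℝ)| := by exact_mod_cast Int.one_le_abs hn
      have h2 : |(n : ℝ)| ≤ |d - n| + |d| := by
        calc |(n : ℝ)| = |d - (d - n)| := by rw [sub_sub_cancel]
          _ ≤ |d| + |d - n| := abs_sub _ _
          _ = _ := by ring
      linarith

theorem K_big {s K : ℝ} {y : ℕ} (hs : 0 < s) (hs1 : s ≤ 1 / 1000) (hy : 2 ≤ y)
    (h : 4 * (y : ℝ) ^ 4 ≤ s ^ 2 * K) : 4 * (y : ℝ) ^ 2 ≤ K := by
  have hyR : (2 : ℝ) ≤ y := by exact_mod_cast hy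
  have h0 := K_nonneg hs h
  have h1 : s ^ 2 * K ≤ K := by
    have : s ^ 2 ≤ 1 := by nlinarith
    nlinarith
  have h2 : (y : ℝ) ^ 2 ≤ (y : ℝ) ^ 4 := pow_le_pow_right₀ (by linarith) (by norm_num)
  linarith

theorem f2_case1 (hM : MontS) (hb : BlkF1b) : ∃ C : ℝ, 0 < C ∧ ∀ (H s α β K : ℝ) (y : ℕ),
    1 ≤ H → 0 < s → s ≤ 1 / 1000 → s * H ^ 2 ≤ 1 → 2 ≤ y → 4 * (y : ℝ) ^ 4 ≤ s ^ 2 * K →
    ∀ (B : ℕ) (A : ℤ), 0 < B → (B : ℝ) ≤ H → |B * α - A| ≤ 1 / √K →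
      s * H ^ 2 < distInt (B * α) * K →
      ((setK s α β K y).card : ℝ) ≤ C * K / (H * Real.log y) := by
  obtain ⟨C, hC, hM⟩ := hM
  refine ⟨400 * C, by positivity, fun H s α β K y hH hs hs1 hsH hy hK B A hB hBH he hd => ?_⟩
  have hyR : (2 : ℝ) ≤ y := by exact_mod_cast hy
  have hlog : 0 < Real.log y := Real.log_pos (by linarith)
  have hKy : 4 * (y : ℝ) ^ 2 ≤ K := K_big hs hs1 hy hK
  have hK1 : 1 ≤ K := by nlinarith
  have hK0 : 0 < K := by linarith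
  have hsq := sqrt_big hs hK
  have hsK : 0 < √K := Real.sqrt_pos.2 hK0
  obtain ⟨e, he_def⟩ : ∃ e : ℝ, e = B * α - A := ⟨_, rfl⟩
  rw [← he_def] at he
  have hde : distInt (B * α) ≤ |e| := by rw [he_def]; exact round_le _ _
  have he1 : s * H ^ 2 < |e| * K := lt_of_lt_of_le hd (by gcongr)
  have hsH0 : 0 < s * H ^ 2 := by positivity
  obtain ⟨L, hL⟩ : ∃ L : ℕ, L = ⌈1 / (s * H ^ 2)⌉₊ := ⟨_, rfl⟩
  have hL1 : 1 / (s * H ^ 2) ≤ L := by rw [hL]; exact Nat.le_ceil _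
  have hL2 : (L : ℝ) ≤ 2 / (s * H ^ 2) := by
    have h1 : (L : ℝ) < 1 / (s * H ^ 2) + 1 := by
      rw [hL]; exact Nat.ceil_lt_add_one (by positivity)
    have h2 : 1 ≤ 1 / (s * H ^ 2) := by rw [le_div_iff₀ hsH0]; linarith
    have : (2 : ℝ) / (s * H ^ 2) = 1 / (s * H ^ 2) + 1 / (s * H ^ 2) := by ring
    linarith
  obtain ⟨T, hT⟩ : ∃ T : ℕ, T = ⌊H / 100⌋₊ := ⟨_, rfl⟩
  have hT1 : (T : ℝ) ≤ H / 100 := by rw [hT]; exact Nat.floor_le (by positivity)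
  have hT2 : H / 100 ≤ (T : ℝ) + 1 := by rw [hT]; exact (Nat.lt_floor_add_one _).le
  obtain ⟨x, hx⟩ : ∃ x : ℕ → ℝ, ∀ t, x t = L * t * e := ⟨fun t => L * t * e, fun _ => rfl⟩
  have hL0 : (0 : ℝ) ≤ L := by positivity
  have hLT : (L : ℝ) * (H / 100) ≤ 1 / (50 * (s * H)) := by
    have e1 : (2 / (s * H ^ 2)) * (H / 100) = 1 / (50 * (s * H)) := by field_simp; norm_num
    rw [← e1]
    exact mul_le_mul_of_nonneg_right hL2 (by positivity)
  have hdx : ∀ h h' : ℕ, x h - x h' = L * ((h : ℝ) - h') * e := by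
    intro h h'; rw [hx, hx]; ring
  have hdxa : ∀ h h' : ℕ, |x h - x h'| = L * |(h : ℝ) - h'| * |e| := by
    intro h h'; rw [hdx, abs_mul, abs_mul, abs_of_nonneg hL0]
  -- separation
  have hsep : ∀ h ∈ range (T + 1), ∀ h' ∈ range (T + 1), ∀ q ∈ Qs y 1, ∀ q' ∈ Qs y 1,
      ∀ a ∈ cop q, ∀ a' ∈ cop q', (h ≠ h' ∨ q ≠ q' ∨ a ≠ a') →
        1 / K ≤ distInt ((x h + (a : ℝ) / q) - (x h' + (a' : ℝ) / q')) := by
    intro h hh h' hh' q hq q' hq' a ha a' ha' hne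
    refine distInt_ge_of_forall (fun n => ?_)
    have hq1 := mem_Qs hq
    have hq2 := mem_Qs hq'
    have hq3 : (q : ℝ) ≤ y := by exact_mod_cast hq1.2.1
    have hq4 : (q' : ℝ) ≤ y := by exact_mod_cast hq2.2.1
    have hhT : (h : ℝ) ≤ T := by exact_mod_cast Nat.lt_succ_iff.1 (mem_range.1 hh)
    have hhT' : (h' : ℝ) ≤ T := by exact_mod_cast Nat.lt_succ_iff.1 (mem_range.1 hh')
    have hh0 : (0 : ℝ) ≤ h := Nat.cast_nonneg _
    have hh0' : (0 : ℝ) ≤ h' := Nat.cast_nonneg _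
    have hdiff : |(h : ℝ) - h'| ≤ H / 100 := by
      rw [abs_le]; constructor <;> linarith
    have hΔ : |x h - x h'| ≤ 1 / (100 * (y : ℝ) ^ 2) := by
      rw [hdxa]
      have i1 : (L : ℝ) * |(h : ℝ) - h'| ≤ 1 / (50 * (s * H)) :=
        (mul_le_mul_of_nonneg_left hdiff hL0).trans hLT
      have i2 : (L : ℝ) * |(h : ℝ) - h'| * |e| ≤ 1 / (50 * (s * H)) * (1 / √K) :=
        mul_le_mul i1 he (abs_nonneg _) (by positivity)
      refine i2.trans ?_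
      rw [one_div_mul_one_div]
      apply one_div_le_one_div_of_le (by positivity)
      have i3 : 2 * (y : ℝ) ^ 2 * 1 ≤ s * √K * H :=
        mul_le_mul hsq hH (by norm_num) (by positivity)
      linarith [show 50 * (s * H) * √K = 50 * (s * √K * H) by ring]
    have hΔ' : q = q' → a = a' → 1 / K ≤ |x h - x h'| := by
      intro e1 e2
      have hne' : h ≠ h' := by
        rcases hne with h1 | h1 | h1
        · exact h1
        · exact absurd e1 h1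
        · exact absurd e2 h1
      rw [hdxa]
      have h1 : (1 : ℝ) ≤ |(h : ℝ) - h'| := by
        have : (1 : ℤ) ≤ |(h : ℤ) - h'| := Int.one_le_abs (by omega)
        exact_mod_cast this
      have h2 : s * H ^ 2 / K ≤ |e| := by rw [div_le_iff₀ hK0]; exact he1.le
      have h3 : 1 / (s * H ^ 2) * 1 ≤ L * |(h : ℝ) - h'| :=
        mul_le_mul hL1 h1 (by norm_num) hL0
      have h4 : 1 / (s * H ^ 2) * 1 * (s * H ^ 2 / K) ≤ L * |(h : ℝ) - h'| * |e| :=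
        mul_le_mul h3 h2 (by positivity) (by positivity)
      have h5 : 1 / (s * H ^ 2) * 1 * (s * H ^ 2 / K) = 1 / K := by
        rw [mul_one, one_div, ← mul_div_assoc, inv_mul_cancel₀ hsH0.ne']
      rw [← h5]; exact h4
    have key := sep_abs (d := x h - x h') hyR hKy hq1.1 hq2.1 hq3 hq4 ha ha' hΔ hΔ' n
    have e3 : x h + (a : ℝ) / q - (x h' + (a' : ℝ) / q') - n
      = (x h - x h') + (a : ℝ) / q - a' / q' - n := by ring
    rw [e3]; exact key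
  have hm := hM K y 1 hK1 one_pos (range (T + 1)) x hsep (setK s α β K y)
    (fun k hk => by
      have := mem_setK hK0.le hk
      exact ⟨this.1, this.2.1, this.2.2.1⟩)
  have hlow : ∀ t ∈ range (T + 1), ((setK s α β K y).card : ℝ) / 2 ≤
      ‖expS (setK s α β K y) (x t)‖ := by
    intro t ht
    have htT : (t : ℝ) ≤ T := by exact_mod_cast Nat.lt_succ_iff.1 (mem_range.1 ht)
    apply expS_lower (c := (L * B * t : ℝ) * β)
    intro k hk
    have hk1 := (mem_setK hK0.le hk).2.2.2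
    refine ⟨(L * B * t : ℤ) * round ((k : ℝ) * α - β) - k * L * t * A, ?_⟩
    have e1 : (k : ℝ) * x t - (L * B * t : ℝ) * β -
        (((L * B * t : ℤ) * round ((k : ℝ) * α - β) - k * L * t * A : ℤ) : ℝ)
        = (L * B * t : ℝ) * ((k : ℝ) * α - β - round ((k : ℝ) * α - β)) := by
      rw [hx, he_def]
      push_cast
      ring
    rw [e1, abs_mul, abs_of_nonneg (by positivity : (0 : ℝ) ≤ L * B * t)]
    have h2 : |(k : ℝ) * α - β - round ((k : ℝ) * α - β)| ≤ 2 * s := hk1.le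
    have h3 : (L * B * t : ℝ) ≤ 1 / (50 * s) := by
      have i1 : (t : ℝ) ≤ H / 100 := htT.trans hT1
      have i2 : (L : ℝ) * B ≤ (2 / (s * H ^ 2)) * H :=
        mul_le_mul hL2 hBH (by positivity) (by positivity)
      have i3 : (L : ℝ) * B * t ≤ (2 / (s * H ^ 2)) * H * (H / 100) :=
        mul_le_mul i2 i1 (by positivity) (by positivity)
      have i4 : (2 / (s * H ^ 2)) * H * (H / 100) = 1 / (50 * s) := by field_simp; norm_num
      rw [← i4]; exact i3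
    have h4 := mul_le_mul h3 h2 (abs_nonneg _) (by positivity : (0 : ℝ) ≤ 1 / (50 * s))
    have h5 : 1 / (50 * s) * (2 * s) = 1 / 25 := by field_simp; norm_num
    rw [← h5]; exact h4
  have hq : H / 100 * Real.log y ≤
      ((range (T + 1)).card : ℝ) * ∑ q ∈ Qs y 1, 1 / (q.totient : ℝ) := by
    have h1 := hb 1 y one_pos (by omega)
    have h2 : (Real.log y) ≤ ∑ q ∈ Qs y 1, 1 / (q.totient : ℝ) := by simpa [Qs] using h1
    rw [card_range]
    push_cast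
    exact mul_le_mul hT2 h2 hlog.le (by positivity)
  have h := count_of_mont hlow hm hC.le hK0.le (by positivity) hq
  refine h.trans (le_of_eq ?_)
  field_simp
  norm_num

end Vale.P028
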