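import Vale.Agent.P028.MathlibUsed
import Vale.Agent.P028.XF2A

/-!
# Block F2: assembly of the two cases
-/

namespace Vale.P028

open Finset

/-- The second case of block F2 (large denominator). -/
def F2Case2 : Prop :=
  ∃ C : ℝ, 0 < C ∧ ∀ (H s α β K : ℝ) (y : ℕ),
    1 ≤ H → 0 < s → s ≤ 1 / 1000 → s * H ^ 2 ≤ 1 → 2 ≤ y → 4 * (y : ℝ) ^ 4 ≤ s ^ 2 * K →
    ∀ (B : ℕ) (A : ℤ), H < B → (B : ℝ) ≤ √K → |B * α - A| ≤ 1 / √K → IsCoprime A (B : ℤ) →
      ((setK s α β K y).card : ℝ) ≤ C * K / (H ^ (1 / 4 : ℝ) * Real.log y)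

theorem blkF2_of_case2 (hM : MontS) (hb : BlkF1b) (h2 : F2Case2) : BlkF2 := by
  obtain ⟨C₁, hC₁, h1⟩ := f2_case1 hM hb
  obtain ⟨C₂, hC₂, h2⟩ := h2
  refine ⟨C₁ + C₂, by positivity, fun H s α β K y hH hs hs1 hsH hy hK hno => ?_⟩
  have hyR : (2 : ℝ) ≤ y := by exact_mod_cast hy
  have hlog : 0 < Real.log y := Real.log_pos (by linarith)
  have hKy : 4 * (y : ℝ) ^ 2 ≤ K := K_big hs hs1 hy hK
  have hK1 : 1 ≤ K := by nlinarith
  have hK0 : 0 < K := by linarith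
  have hsK1 : 1 ≤ √K := Real.one_le_sqrt.2 hK1
  have hn : 0 < ⌊√K⌋₊ := Nat.floor_pos.2 hsK1
  obtain ⟨q, hq1, hq2⟩ := Real.exists_rat_abs_sub_le_and_den_le α hn
  have hqd : (0 : ℝ) < q.den := by exact_mod_cast q.den_pos
  have hn2 : √K ≤ (⌊√K⌋₊ : ℝ) + 1 := (Nat.lt_floor_add_one _).le
  have hBα : |(q.den : ℝ) * α - q.num| ≤ 1 / √K := by
    have e1 : (q.den : ℝ) * α - q.num = q.den * (α - q) := by
      have : (q : ℝ) = (q.num : ℝ) / q.den := by exact_mod_cast (Rat.num_div_den q).symm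
      rw [this]; field_simp
    rw [e1, abs_mul, abs_of_pos hqd]
    calc (q.den : ℝ) * |α - q| ≤ q.den * (1 / (((⌊√K⌋₊ : ℝ) + 1) * q.den)) := by gcongr
      _ = 1 / ((⌊√K⌋₊ : ℝ) + 1) := by field_simp
      _ ≤ 1 / √K := one_div_le_one_div_of_le (by linarith) hn2
  have hBK : (q.den : ℝ) ≤ √K :=
    (show (q.den : ℝ) ≤ (⌊√K⌋₊ : ℝ) by exact_mod_cast hq2).trans (Nat.floor_le (by positivity))
  have hcop : IsCoprime q.num (q.den : ℤ) := by
    rw [Int.isCoprime_iff_nat_coprime]; simpa using q.reduced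
  have hH14 : H ^ (1 / 4 : ℝ) ≤ H := by
    calc H ^ (1 / 4 : ℝ) ≤ H ^ (1 : ℝ) := Real.rpow_le_rpow_of_exponent_le hH (by norm_num)
      _ = H := Real.rpow_one H
  have hHp : 0 < H ^ (1 / 4 : ℝ) := Real.rpow_pos_of_pos (by linarith) _
  have hgoal : ((setK s α β K y).card : ℝ) ≤ (C₁ + C₂) * K / (H ^ (1 / 4 : ℝ) * Real.log y) := by
    rcases le_or_gt (q.den : ℝ) H with hle | hgt
    · have := h1 H s α β K y hH hs hs1 hsH hy hK q.den q.num q.den_pos hle hBα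
        (hno q.den q.den_pos hle)
      refine this.trans ?_
      have hpos : 0 < H ^ (1 / 4 : ℝ) * Real.log y := by positivity
      apply div_le_div₀ (by positivity) _ hpos _
      · nlinarith
      · exact mul_le_mul_of_nonneg_right hH14 hlog.le
    · have := h2 H s α β K y hH hs hs1 hsH hy hK q.den q.num hgt hBK hBα hcop
      refine this.trans ?_
      have hpos : 0 < H ^ (1 / 4 : ℝ) * Real.log y := by positivity
      apply div_le_div_of_nonneg_right _ hpos.le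
      nlinarith
  unfold setK at hgoal
  exact hgoal

end Vale.P028
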