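import Vale.Agent.P028.MathlibUsed
import Vale.Agent.P028.XF2A

/-!
# Block F2, the case of a large denominator
-/

namespace Vale.P028

open Finset

/-- `∏ (1 - 1/m)²` over odd `m` between `3` and `2k+1`. -/
theorem odd_prod_lower (k : ℕ) :
    1 / (2 * (k : ℝ) + 1) ≤ ∏ i ∈ range k, (1 - 1 / (2 * (i : ℝ) + 3)) ^ 2 := by
  induction k with
  | zero => simp
  | succ k ih =>
    rw [prod_range_succ]
    have h0 : (0 : ℝ) ≤ k := Nat.cast_nonneg k
    have h1 : 1 / (2 * ((k + 1 : ℕ) : ℝ) + 1) ≤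
        1 / (2 * (k : ℝ) + 1) * (1 - 1 / (2 * (k : ℝ) + 3)) ^ 2 := by
      have e : 1 - 1 / (2 * (k : ℝ) + 3) = (2 * (k : ℝ) + 2) / (2 * k + 3) := by
        field_simp; ring
      rw [e, div_pow, div_mul_div_comm, div_le_div_iff₀ (by positivity) (by positivity)]
      push_cast
      nlinarith [sq_nonneg ((k : ℝ))]
    exact h1.trans (mul_le_mul_of_nonneg_right ih (by positivity))

/-- Lower bound of `φ(n)/n` when all prime factors of `n` are at most `z`. -/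
theorem xf_totient_lower {n N : ℕ} (hn : 0 < n) (hN : 1 ≤ N)
    (h : ∀ p : ℕ, p.Prime → p ∣ n → p ≤ N) :
    1 / (2 * √(N : ℝ)) ≤ (n.totient : ℝ) / n := by
  have hnR : (0 : ℝ) < n := by exact_mod_cast hn
  have hNR : (1 : ℝ) ≤ N := by exact_mod_cast hN
  have h1 : ((n.totient : ℚ) : ℝ) = ((n : ℚ) * ∏ p ∈ n.primeFactors, (1 - (p : ℚ)⁻¹) : ℚ) := by
    rw [Nat.totient_eq_mul_prod_factors n]
  push_cast at h1
  have h2 : (n.totient : ℝ) / n = ∏ p ∈ n.primeFactors, (1 - (p : ℝ)⁻¹) := by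
    rw [h1]; field_simp
  rw [h2]
  obtain ⟨k, hk⟩ : ∃ k, k = (N - 1) / 2 := ⟨_, rfl⟩
  have hsub : n.primeFactors ⊆ insert 2 ((range k).image (fun i => 2 * i + 3)) := by
    intro p hp
    have hp1 := Nat.prime_of_mem_primeFactors hp
    have hp2 := Nat.dvd_of_mem_primeFactors hp
    have hp3 := h p hp1 hp2
    rw [mem_insert]
    by_cases hp4 : p = 2
    · exact Or.inl hp4
    · right
      have hodd := hp1.odd_of_ne_two hp4
      obtain ⟨j, hj⟩ := hodd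
      have : 2 ≤ p := hp1.two_le
      rw [mem_image]
      exact ⟨j - 1, by rw [mem_range]; omega, by omega⟩
  have hfac : ∀ m : ℕ, 1 ≤ m → 0 ≤ 1 - ((m : ℝ))⁻¹ ∧ 1 - ((m : ℝ))⁻¹ ≤ 1 := by
    intro m hm
    have hmR : (1 : ℝ) ≤ m := by exact_mod_cast hm
    have h3 : ((m : ℝ))⁻¹ ≤ 1 := inv_le_one_of_one_le₀ hmR
    have h4 : 0 ≤ ((m : ℝ))⁻¹ := by positivity
    constructor <;> linarith
  have hU : ∀ m ∈ insert 2 ((range k).image (fun i => 2 * i + 3)), 1 ≤ m := by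
    intro m hm
    rw [mem_insert, mem_image] at hm
    rcases hm with hm | ⟨i, _, hm⟩ <;> omega
  have h3 : ∏ p ∈ insert 2 ((range k).image (fun i => 2 * i + 3)), (1 - ((p : ℕ) : ℝ)⁻¹) ≤
      ∏ p ∈ n.primeFactors, (1 - (p : ℝ)⁻¹) := by
    rw [← prod_sdiff hsub]
    apply mul_le_of_le_one_left
    · exact prod_nonneg (fun p hp => (hfac p (hU p (hsub hp))).1)
    · exact prod_le_one (fun p hp => (hfac p (hU p (mem_sdiff.1 hp).1)).1)
        (fun p hp => (hfac p (hU p (mem_sdiff.1 hp).1)).2)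
  refine le_trans ?_ h3
  rw [prod_insert (by simp), prod_image (by intro a _ b _ hab; simp at hab; omega)]
  have h4 := odd_prod_lower k
  have h5 : (1 : ℝ) / N ≤ 1 / (2 * (k : ℝ) + 1) := by
    apply one_div_le_one_div_of_le (by positivity)
    have : 2 * k + 1 ≤ N := by omega
    exact_mod_cast this
  have h6 : (1 / √(N : ℝ)) ^ 2 ≤ (∏ i ∈ range k, (1 - (((2 * i + 3 : ℕ)) : ℝ)⁻¹)) ^ 2 := by
    rw [← prod_pow, div_pow, one_pow, Real.sq_sqrt (by linarith)]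
    refine (h5.trans h4).trans (le_of_eq ?_)
    apply prod_congr rfl
    intro i _
    push_cast
    rw [one_div]
  have h7 : 0 ≤ ∏ i ∈ range k, (1 - (((2 * i + 3 : ℕ)) : ℝ)⁻¹) :=
    prod_nonneg (fun i _ => (hfac _ (by omega)).1)
  have h8 := le_of_sq_le_sq h6 h7
  have h9 : 1 / (2 * √(N : ℝ)) = (1 - ((2 : ℕ) : ℝ)⁻¹) * (1 / √(N : ℝ)) := by
    have : 0 < √(N : ℝ) := Real.sqrt_pos.2 (by linarith)
    push_cast
    field_simp
    norm_num
  rw [h9]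
  exact mul_le_mul_of_nonneg_left h8 (hfac 2 (by omega)).1

/-- The choice of the auxiliary modulus `r`. -/
theorem exists_modulus {H : ℝ} {B : ℕ} (hH : 1 ≤ H) (hB : H < B) :
    ∃ r : ℕ, 0 < r ∧ 1 / (2 * H ^ (1 / 4 : ℝ)) ≤ (r.totient : ℝ) / r ∧
      ∀ j : ℤ, j ≠ 0 → |(j : ℝ)| < √H → ∃ p k : ℕ, p.Prime ∧ p ∣ r ∧ p ^ k ∣ B ∧
        ¬ ((p ^ k : ℕ) : ℤ) ∣ j := by
  have hH0 : (0 : ℝ) < H := by linarith
  have hB0 : 0 < B := by
    have : (0 : ℝ) < B := by linarith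
    exact_mod_cast this
  have hsq1 : 1 ≤ √H := Real.one_le_sqrt.2 hH
  have hq1 : (1 : ℝ) ≤ H ^ (1 / 4 : ℝ) := Real.one_le_rpow hH (by norm_num)
  have hsqH : √H ≤ H := by
    rw [Real.sqrt_le_left hH0.le]; nlinarith
  by_cases hc : ∃ p : ℕ, p.Prime ∧ p ∣ B ∧ √H ≤ p
  · obtain ⟨p, hp, hpB, hpH⟩ := hc
    have hp2 : (2 : ℝ) ≤ p := by exact_mod_cast hp.two_le
    refine ⟨p, hp.pos, ?_, ?_⟩
    · have h1 : 1 / (2 * H ^ (1 / 4 : ℝ)) ≤ 1 / 2 := by
        apply one_div_le_one_div_of_le (by norm_num); linarith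
      refine h1.trans ?_
      rw [Nat.totient_prime hp, Nat.cast_sub hp.one_le, le_div_iff₀ (by linarith)]
      push_cast; linarith
    · intro j hj hjH
      refine ⟨p, 1, hp, dvd_refl p, by simpa using hpB, ?_⟩
      intro hd
      rw [pow_one] at hd
      have h1 := Int.le_of_dvd (abs_pos.2 hj) ((dvd_abs _ _).2 hd)
      have h2 : ((p : ℕ) : ℝ) ≤ |(j : ℝ)| := by exact_mod_cast h1
      linarith
  · push Not at hc
    obtain ⟨N, hN⟩ : ∃ N : ℕ, N = ⌊√H⌋₊ := ⟨_, rfl⟩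
    have hN1 : 1 ≤ N := by rw [hN]; exact Nat.le_floor (by simpa using hsq1)
    have hN2 : (N : ℝ) ≤ √H := by rw [hN]; exact Nat.floor_le (by positivity)
    refine ⟨B, hB0, ?_, ?_⟩
    · have h1 := xf_totient_lower hB0 hN1 (fun p hp hpB => by
        rw [hN]; exact Nat.le_floor (hc p hp hpB).le)
      refine le_trans ?_ h1
      have hN3 : (1 : ℝ) ≤ N := by exact_mod_cast hN1
      have h2 : 0 < √(N : ℝ) := Real.sqrt_pos.2 (by linarith)
      apply one_div_le_one_div_of_le (by positivity)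
      have h3 : √(N : ℝ) ≤ √(√H) := Real.sqrt_le_sqrt hN2
      have h4 : √(√H) = H ^ (1 / 4 : ℝ) := by
        rw [Real.sqrt_eq_rpow, Real.sqrt_eq_rpow, ← Real.rpow_mul hH0.le]; norm_num
      rw [h4] at h3
      linarith
    · intro j hj hjH
      have h1 : ¬ B ∣ j.natAbs := by
        intro hd
        have h2 := Nat.le_of_dvd (Int.natAbs_pos.2 hj) hd
        have h3 : (B : ℝ) ≤ |(j : ℝ)| := by
          have : (B : ℤ) ≤ |j| := by rw [Int.abs_eq_natAbs]; exact_mod_cast h2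
          exact_mod_cast this
        linarith
      rw [Nat.dvd_iff_prime_pow_dvd_dvd] at h1
      push Not at h1
      obtain ⟨p, k, hp, hpk, hpj⟩ := h1
      refine ⟨p, k, hp, ?_, hpk, ?_⟩
      · have hk : k ≠ 0 := by
          rintro rfl
          simp at hpj
        exact (dvd_pow_self p hk).trans hpk
      · intro hd
        exact hpj (Int.natCast_dvd.1 hd)

/-- The shifted differences do not vanish. -/
theorem shift_ne {A j : ℤ} {B r q q' p k : ℕ} (hA : IsCoprime A (B : ℤ)) (_hp : p.Prime)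
    (hpr : p ∣ r) (hpB : p ^ k ∣ B) (hpj : ¬ ((p ^ k : ℕ) : ℤ) ∣ j)
    (hq : Nat.Coprime q r) (hq' : Nat.Coprime q' r) (m : ℤ) :
    j * A * (q * q') + B * m ≠ 0 := by
  intro h0
  have hk : k ≠ 0 := by
    rintro rfl
    simp at hpj
  have hpB1 : p ∣ B := (dvd_pow_self p hk).trans hpB
  have hpB' : ((p ^ k : ℕ) : ℤ) ∣ (B : ℤ) := by exact_mod_cast hpB
  have h1 : ((p ^ k : ℕ) : ℤ) ∣ j * (A * (q * q')) := by
    have e : j * (A * (q * q')) = -(B * m) := by linarith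
    rw [e]
    exact (dvd_neg).2 (hpB'.mul_right m)
  have hcA : IsCoprime ((p ^ k : ℕ) : ℤ) A := by
    exact (hA.symm).of_isCoprime_of_dvd_left hpB'
  have hcq : IsCoprime ((p ^ k : ℕ) : ℤ) (q : ℤ) := by
    rw [Nat.isCoprime_iff_coprime]
    exact Nat.Coprime.pow_left k ((hq.symm).coprime_dvd_left hpr)
  have hcq' : IsCoprime ((p ^ k : ℕ) : ℤ) (q' : ℤ) := by
    rw [Nat.isCoprime_iff_coprime]
    exact Nat.Coprime.pow_left k ((hq'.symm).coprime_dvd_left hpr)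
  exact hpj ((hcA.mul_right (hcq.mul_right hcq')).dvd_of_dvd_mul_right h1)

theorem sqrtH_small {H s : ℝ} (hH : 1 ≤ H) (hs : 0 < s) (hs1 : s ≤ 1 / 1000)
    (hsH : s * H ^ 2 ≤ 1) : s * √H ≤ 1 / 100 := by
  have h1 : (s ^ 2 * H) ^ 2 ≤ (1 / 10000) ^ 2 := by
    have e : (s ^ 2 * H) ^ 2 = s ^ 3 * (s * H ^ 2) := by ring
    have h2 : s ^ 3 ≤ (1 / 1000) ^ 3 := by gcongr
    have h3 : s ^ 3 * (s * H ^ 2) ≤ (1 / 1000) ^ 3 * 1 :=
      mul_le_mul h2 hsH (by positivity) (by positivity)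
    rw [e]
    refine h3.trans (by norm_num)
  have h2 : s ^ 2 * H ≤ 1 / 10000 := le_of_sq_le_sq h1 (by norm_num)
  have h4 : (s * √H) ^ 2 ≤ (1 / 100) ^ 2 := by
    rw [mul_pow, Real.sq_sqrt (by linarith)]
    refine h2.trans (by norm_num)
  exact le_of_sq_le_sq h4 (by norm_num)

theorem err_bound {B Y j e R h s : ℝ} (hB : 0 < B) (hR : 0 < R) (hh : 0 ≤ h)
    (hj : |j| ≤ h) (he : |e| ≤ 1 / R) (hsq : 2 * Y ^ 2 ≤ s * R) (hsh : s * h ≤ 1) (hY : 0 < Y) :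
    |j * e / B| ≤ 1 / (2 * (B * Y ^ 2)) := by
  rw [abs_div, abs_mul, abs_of_pos hB, div_le_div_iff₀ hB (by positivity)]
  have i1 : |j| * |e| ≤ h * (1 / R) := mul_le_mul hj he (abs_nonneg _) hh
  have i2 : h * (1 / R) * (2 * Y ^ 2) ≤ 1 := by
    have e1 : h * (1 / R) * (2 * Y ^ 2) = h * (2 * Y ^ 2) / R := by ring
    rw [e1, div_le_one hR]
    calc h * (2 * Y ^ 2) ≤ h * (s * R) := mul_le_mul_of_nonneg_left hsq hh
      _ = (s * h) * R := by ring
      _ ≤ 1 * R := mul_le_mul_of_nonneg_right hsh hR.le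
      _ = R := one_mul _
  have i3 : |j| * |e| * (2 * Y ^ 2) ≤ 1 :=
    (mul_le_mul_of_nonneg_right i1 (by positivity)).trans i2
  calc |j| * |e| * (2 * (B * Y ^ 2)) = B * (|j| * |e| * (2 * Y ^ 2)) := by ring
    _ ≤ B * 1 := mul_le_mul_of_nonneg_left i3 hB.le
    _ = 1 * B := by ring

theorem sep_final {B Y R K W s u v : ℝ} (hB : 0 < B) (hR : 0 < R) (hK : R * R = K)
    (hs1 : s ≤ 1) (hBR : B ≤ R) (hsq : 2 * Y ^ 2 ≤ s * R) (hY : 0 < Y) (hu : 0 < u) (huY : u ≤ Y ^ 2)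
    (hW : 1 / (B * u) ≤ |W|) (hv : |v| ≤ 1 / (2 * (B * Y ^ 2))) : 1 / K ≤ |W + v| := by
  have h2 : 1 / (B * Y ^ 2) ≤ 1 / (B * u) :=
    one_div_le_one_div_of_le (by positivity) (mul_le_mul_of_nonneg_left huY hB.le)
  have h4 : 1 / K ≤ 1 / (2 * (B * Y ^ 2)) := by
    apply one_div_le_one_div_of_le (by positivity)
    have hs' : s * R ≤ R := by nlinarith
    calc 2 * (B * Y ^ 2) = B * (2 * Y ^ 2) := by ring
      _ ≤ R * R := mul_le_mul hBR (hsq.trans hs') (by positivity) hR.le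
      _ = K := hK
  have h5 : |W| ≤ |W + v| + |v| := by
    calc |W| = |(W + v) - v| := by rw [add_sub_cancel_right]
      _ ≤ _ := abs_sub _ _
  have h6 : 1 / (B * Y ^ 2) = 2 * (1 / (2 * (B * Y ^ 2))) := by
    field_simp
  linarith

/-- Separation of the points `h α + a / q` when the denominator of the approximation is large. -/
theorem sep_large {H s α K : ℝ} {y B r : ℕ} {A : ℤ} (hH : 1 ≤ H) (hs : 0 < s)
    (hs1 : s ≤ 1 / 1000) (hsH : s * H ^ 2 ≤ 1) (hy : 2 ≤ y)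
    (hK : 4 * (y : ℝ) ^ 4 ≤ s ^ 2 * K) (hB : H < B) (hBK : (B : ℝ) ≤ √K)
    (he : |B * α - A| ≤ 1 / √K) (hA : IsCoprime A (B : ℤ))
    (hr : ∀ j : ℤ, j ≠ 0 → |(j : ℝ)| < √H → ∃ p k : ℕ, p.Prime ∧ p ∣ r ∧ p ^ k ∣ B ∧
        ¬ ((p ^ k : ℕ) : ℤ) ∣ j)
    {q q' a a' : ℕ} (hq : q ∈ Qs y r) (hq' : q' ∈ Qs y r) (j : ℤ) (hj : j ≠ 0)
    (hjH : |(j : ℝ)| < √H) (n : ℤ) :
    1 / K ≤ |j * α + (a : ℝ) / q - a' / q' - n| := by
  have hyR : (2 : ℝ) ≤ y := by exact_mod_cast hy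
  have hKy : 4 * (y : ℝ) ^ 2 ≤ K := K_big hs hs1 hy hK
  have hK0 : 0 < K := by nlinarith
  have hsK : 0 < √K := Real.sqrt_pos.2 hK0
  have hsq := sqrt_big hs hK
  have hB0 : (0 : ℝ) < B := by linarith
  obtain ⟨hq0, hqy, -, hqr⟩ := mem_Qs hq
  obtain ⟨hq0', hqy', -, hqr'⟩ := mem_Qs hq'
  have hqR : (0 : ℝ) < q := by exact_mod_cast hq0
  have hqR' : (0 : ℝ) < q' := by exact_mod_cast hq0'
  have hqyR : (q : ℝ) ≤ y := by exact_mod_cast hqy
  have hqyR' : (q' : ℝ) ≤ y := by exact_mod_cast hqy'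
  obtain ⟨p, k, hp, hpr, hpB, hpj⟩ := hr j hj hjH
  have hne := shift_ne hA hp hpr hpB hpj hqr hqr' ((a : ℤ) * q' - a' * q - n * (q * q'))
  obtain ⟨W, hW⟩ : ∃ W : ℤ, W = j * A * (q * q') + B * ((a : ℤ) * q' - a' * q - n * (q * q')) :=
    ⟨_, rfl⟩
  rw [← hW] at hne
  obtain ⟨e, he_def⟩ : ∃ e : ℝ, e = B * α - A := ⟨_, rfl⟩
  rw [← he_def] at he
  have hα : α = A / B + e / B := by
    rw [he_def]; field_simp; ring
  have e1 : j * α + (a : ℝ) / q - a' / q' - n = (W : ℝ) / (B * (q * q')) + j * e / B := by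
    rw [hα, hW]
    push_cast
    field_simp
    ring
  have h1 : 1 / ((B : ℝ) * (q * q')) ≤ |(W : ℝ) / (B * (q * q'))| :=
    one_div_le_abs_int hne (by positivity)
  have h2 : (q : ℝ) * q' ≤ (y : ℝ) ^ 2 := by
    calc (q : ℝ) * q' ≤ y * y := mul_le_mul hqyR hqyR' hqR'.le (by linarith)
      _ = (y : ℝ) ^ 2 := by ring
  have hsH1 := sqrtH_small hH hs hs1 hsH
  have h3 := err_bound (j := (j : ℝ)) (e := e) hB0 hsK (Real.sqrt_nonneg H) hjH.le he hsq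
    (by linarith) (by linarith : (0 : ℝ) < y)
  rw [e1]
  exact sep_final hB0 hsK (Real.mul_self_sqrt hK0.le) (by linarith) hBK hsq (by linarith)
    (by positivity) h2 h1 h3

/-- BLOCK F2 for a large denominator. -/
theorem f2_case2 (hM : MontS) (hb : BlkF1b) : ∃ C : ℝ, 0 < C ∧ ∀ (H s α β K : ℝ) (y : ℕ),
    1 ≤ H → 0 < s → s ≤ 1 / 1000 → s * H ^ 2 ≤ 1 → 2 ≤ y → 4 * (y : ℝ) ^ 4 ≤ s ^ 2 * K →
    ∀ (B : ℕ) (A : ℤ), H < B → (B : ℝ) ≤ √K → |B * α - A| ≤ 1 / √K → IsCoprime A (B : ℤ) →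
      ((setK s α β K y).card : ℝ) ≤ C * K / (H ^ (1 / 4 : ℝ) * Real.log y) := by
  obtain ⟨C, hC, hM⟩ := hM
  refine ⟨8 * C, by positivity, fun H s α β K y hH hs hs1 hsH hy hK B A hB hBK he hA => ?_⟩
  have hyR : (2 : ℝ) ≤ y := by exact_mod_cast hy
  have hlog : 0 < Real.log y := Real.log_pos (by linarith)
  have hKy : 4 * (y : ℝ) ^ 2 ≤ K := K_big hs hs1 hy hK
  have hK1 : 1 ≤ K := by nlinarith
  have hK0 : 0 < K := by linarith
  have hH0 : (0 : ℝ) < H := by linarith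
  obtain ⟨r, hr0, hr1, hr2⟩ := exists_modulus hH hB
  obtain ⟨T, hT⟩ : ∃ T : ℕ, T = ⌈√H⌉₊ := ⟨_, rfl⟩
  have hT1 : √H ≤ T := by rw [hT]; exact Nat.le_ceil _
  have hT2 : ∀ h ∈ range T, (h : ℝ) < √H := by
    intro h hh
    rw [mem_range, hT, Nat.lt_ceil] at hh
    exact hh
  have hsq1 : s * √H ≤ 1 / 100 := sqrtH_small hH hs hs1 hsH
  have hsep : ∀ h ∈ range T, ∀ h' ∈ range T, ∀ q ∈ Qs y r, ∀ q' ∈ Qs y r,
      ∀ a ∈ cop q, ∀ a' ∈ cop q', (h ≠ h' ∨ q ≠ q' ∨ a ≠ a') →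
        1 / K ≤ distInt (((fun h : ℕ => (h : ℝ) * α) h + (a : ℝ) / q) -
          ((fun h : ℕ => (h : ℝ) * α) h' + (a' : ℝ) / q')) := by
    intro h hh h' hh' q hq q' hq' a ha a' ha' hne
    refine distInt_ge_of_forall (fun n => ?_)
    by_cases hhh : h = h'
    · subst hhh
      have hne' : q ≠ q' ∨ a ≠ a' := by
        rcases hne with h1 | h1
        · exact absurd rfl h1
        · exact h1
      obtain ⟨hq0, hqy, -, -⟩ := mem_Qs hq
      obtain ⟨hq0', hqy', -, -⟩ := mem_Qs hq'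
      have hqyR : (q : ℝ) ≤ y := by exact_mod_cast hqy
      have hqyR' : (q' : ℝ) ≤ y := by exact_mod_cast hqy'
      have key := sep_abs (d := 0) hyR hKy hq0 hq0' hqyR hqyR' ha ha'
        (by rw [abs_zero]; positivity) (fun e1 e2 => by
          rcases hne' with h1 | h1
          · exact absurd e1 h1
          · exact absurd e2 h1) n
      have e3 : (h : ℝ) * α + (a : ℝ) / q - ((h : ℝ) * α + (a' : ℝ) / q') - n
        = 0 + (a : ℝ) / q - a' / q' - n := by ring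
      simp only [e3]; exact key
    · have hj : ((h : ℤ) - h') ≠ 0 := by omega
      have h1 := hT2 h hh
      have h2 := hT2 h' hh'
      have hjH : |(((h : ℤ) - h' : ℤ) : ℝ)| < √H := by
        push_cast
        rw [abs_lt]
        have h3 : (0 : ℝ) ≤ h := Nat.cast_nonneg _
        have h4 : (0 : ℝ) ≤ h' := Nat.cast_nonneg _
        constructor <;> linarith
      have key := sep_large (a := a) (a' := a') hH hs hs1 hsH hy hK hB hBK he hA hr2 hq hq'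
        ((h : ℤ) - h') hj hjH n
      have e3 : (h : ℝ) * α + (a : ℝ) / q - ((h' : ℝ) * α + (a' : ℝ) / q') - n
        = (((h : ℤ) - h' : ℤ) : ℝ) * α + (a : ℝ) / q - a' / q' - n := by push_cast; ring
      simp only [e3]; exact key
  have hm := hM K y r hK1 hr0 (range T) (fun h : ℕ => (h : ℝ) * α) hsep (setK s α β K y)
    (fun k hk => by
      have := mem_setK hK0.le hk
      exact ⟨this.1, this.2.1, this.2.2.1⟩)
  have hlow : ∀ t ∈ range T, ((setK s α β K y).card : ℝ) / 2 ≤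
      ‖expS (setK s α β K y) ((fun h : ℕ => (h : ℝ) * α) t)‖ := by
    intro t ht
    have htT := hT2 t ht
    apply expS_lower (c := (t : ℝ) * β)
    intro k hk
    have hk1 := (mem_setK hK0.le hk).2.2.2
    refine ⟨(t : ℤ) * round ((k : ℝ) * α - β), ?_⟩
    have e1 : (k : ℝ) * ((t : ℝ) * α) - (t : ℝ) * β -
        (((t : ℤ) * round ((k : ℝ) * α - β) : ℤ) : ℝ)
        = (t : ℝ) * ((k : ℝ) * α - β - round ((k : ℝ) * α - β)) := by
      push_cast
      ring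
    simp only [e1]
    rw [abs_mul, abs_of_nonneg (by positivity : (0 : ℝ) ≤ t)]
    have h2 : |(k : ℝ) * α - β - round ((k : ℝ) * α - β)| ≤ 2 * s := hk1.le
    calc (t : ℝ) * |(k : ℝ) * α - β - round ((k : ℝ) * α - β)| ≤ √H * (2 * s) :=
          mul_le_mul htT.le h2 (abs_nonneg _) (by positivity)
      _ = 2 * (s * √H) := by ring
      _ ≤ 1 / 25 := by linarith
  have hH4 : (0 : ℝ) < H ^ (1 / 4 : ℝ) := Real.rpow_pos_of_pos hH0 _
  have hq : H ^ (1 / 4 : ℝ) / 2 * Real.log y ≤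
      ((range T).card : ℝ) * ∑ q ∈ Qs y r, 1 / (q.totient : ℝ) := by
    have h1 := hb r y hr0 (by omega)
    have h2 : ((r.totient : ℝ) / r) * Real.log y ≤ ∑ q ∈ Qs y r, 1 / (q.totient : ℝ) := by
      simpa [Qs] using h1
    have h3 : 1 / (2 * H ^ (1 / 4 : ℝ)) * Real.log y ≤ ∑ q ∈ Qs y r, 1 / (q.totient : ℝ) :=
      (mul_le_mul_of_nonneg_right hr1 hlog.le).trans h2
    rw [card_range]
    have h4 : √H = H ^ (1 / 4 : ℝ) * H ^ (1 / 4 : ℝ) := by
      rw [Real.sqrt_eq_rpow, ← Real.rpow_add hH0]; norm_num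
    calc H ^ (1 / 4 : ℝ) / 2 * Real.log y
        = √H * (1 / (2 * H ^ (1 / 4 : ℝ)) * Real.log y) := by
          rw [h4]; field_simp
      _ ≤ T * ∑ q ∈ Qs y r, 1 / (q.totient : ℝ) := mul_le_mul hT1 h3 (by positivity) (by positivity)
  have h := count_of_mont hlow hm hC.le hK0.le (by positivity) hq
  refine h.trans (le_of_eq ?_)
  field_simp
  norm_num

end Vale.P028
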