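import Vale.Agent.P028.MathlibUsed
import Vale.Agent.P028.XDefs
import Vale.Agent.P028.XF0

/-!
# Block F3: the bad smooth parts
-/

namespace Vale.P028

open Finset

/-- the block F3 -/
theorem blkF3 : BlkF3 := by
  classical
  intro H s α R N hH hs hsH hR hN hns
  have hH0 : 0 < H := by linarith only [hH]
  have hH1 : 1 ≤ H := by linarith only [hH]
  have hR0 : 0 < R := by linarith only [hR]
  set h₁ : ℝ := H ^ (1 / 3 : ℝ) with hh₁
  have hh₁0 : 0 < h₁ := Real.rpow_pos_of_pos hH0 _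
  have hcube : h₁ ^ 3 = H := by
    rw [hh₁, ← Real.rpow_natCast, ← Real.rpow_mul hH0.le]; norm_num
  have hh2 : 2 < h₁ := by
    by_contra hcon
    rw [not_lt] at hcon
    have : h₁ ^ 3 ≤ 2 ^ 3 := by gcongr
    rw [hcube] at this
    norm_num at this
    linarith only [this, hH]
  have hsq : H ^ (2 / 3 : ℝ) = h₁ ^ 2 := by
    rw [hh₁, ← Real.rpow_natCast, ← Real.rpow_mul hH0.le]; norm_num
  have hinv : H ^ (-(1 / 3) : ℝ) = 1 / h₁ := by
    rw [hh₁, Real.rpow_neg hH0.le, one_div, one_div]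
  rw [hsq, hinv]
  set Bad : ℕ → Prop := fun m : ℕ => (m : ℝ) ^ 2 ≤ R ∧
        ∃ d : ℕ, 0 < d ∧ (d : ℝ) ≤ h₁ ∧
          distInt (d * (m * α)) * (R / m) ≤ s * h₁ ^ 2 with hBad
  rcases (N.divisors.filter Bad).eq_empty_or_nonempty with he | ⟨m₀, hm₀⟩
  · rw [he, sum_empty]; positivity
  rw [mem_filter] at hm₀
  obtain ⟨hm₀N, hm₀R, d₀, hd₀, hd₀h, hdist₀⟩ := hm₀
  have hm₀0 : 0 < m₀ := Nat.pos_of_mem_divisors hm₀N
  have hm₀' : (0 : ℝ) < m₀ := by exact_mod_cast hm₀0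
  have hd₀' : (0 : ℝ) < d₀ := by exact_mod_cast hd₀
  -- the distance of a bad pair
  have hbd : ∀ m d : ℕ, 0 < m → distInt (d * (m * α)) * (R / m) ≤ s * h₁ ^ 2 →
      |(d : ℝ) * (m * α) - round ((d : ℝ) * (m * α))| ≤ s * h₁ ^ 2 * m / R := by
    intro m d hm h
    have hm' : (0 : ℝ) < m := by exact_mod_cast hm
    rw [le_div_iff₀ hR0]
    unfold distInt at h
    have h1 : |(d : ℝ) * (m * α) - round ((d : ℝ) * (m * α))| * R =
        |(d : ℝ) * (m * α) - round ((d : ℝ) * (m * α))| * (R / m) * m := by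
      field_simp
    rw [h1]
    exact mul_le_mul_of_nonneg_right h hm'.le
  set k₀ : ℤ := round ((d₀ : ℝ) * (m₀ * α)) with hk₀
  have hb₀ := hbd m₀ d₀ hm₀0 hdist₀
  rw [← hk₀] at hb₀
  set q₀ : ℚ := (k₀ : ℚ) / ((d₀ * m₀ : ℕ) : ℚ) with hq₀
  set D : ℕ := q₀.den with hD
  have hDpos : 0 < D := q₀.den_pos
  -- the fractions of all bad pairs coincide
  have hdvd : ∀ m d : ℕ, 0 < m → 0 < d → (m : ℝ) ^ 2 ≤ R → (d : ℝ) ≤ h₁ →
      distInt (d * (m * α)) * (R / m) ≤ s * h₁ ^ 2 → D ∣ d * m := by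
    intro m d hm hd hmR hdh hdist
    have hm' : (0 : ℝ) < m := by exact_mod_cast hm
    have hd' : (0 : ℝ) < d := by exact_mod_cast hd
    set k : ℤ := round ((d : ℝ) * (m * α)) with hk
    have hb := hbd m d hm hdist
    rw [← hk] at hb
    have hmm : (m : ℝ) * m₀ ≤ R := by
      nlinarith only [hmR, hm₀R, sq_nonneg ((m : ℝ) - m₀)]
    have hdet : |(k : ℝ) * (d₀ * m₀) - k₀ * (d * m)| < 1 := by
      have h1 : (k : ℝ) * (d₀ * m₀) - k₀ * (d * m) =
          -((d : ℝ) * (m * α) - k) * (d₀ * m₀) + ((d₀ : ℝ) * (m₀ * α) - k₀) * (d * m) := by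
        ring
      rw [h1]
      have h2 : |-((d : ℝ) * (m * α) - k) * (d₀ * m₀) + ((d₀ : ℝ) * (m₀ * α) - k₀) * (d * m)| ≤
          s * h₁ ^ 2 * m / R * (d₀ * m₀) + s * h₁ ^ 2 * m₀ / R * (d * m) := by
        refine (abs_add_le _ _).trans ?_
        rw [abs_mul, abs_mul (((d₀ : ℝ) * (m₀ * α) - k₀)), abs_neg,
          abs_of_pos (show (0 : ℝ) < d₀ * m₀ by positivity),
          abs_of_pos (show (0 : ℝ) < d * m by positivity)]
        gcongr
      refine h2.trans_lt ?_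
      have h3 : s * h₁ ^ 2 * m / R * (d₀ * m₀) + s * h₁ ^ 2 * m₀ / R * (d * m) =
          s * h₁ ^ 2 * (d₀ + d) * (m * m₀ / R) := by
        field_simp
      rw [h3]
      have h4 : (m : ℝ) * m₀ / R ≤ 1 := by rw [div_le_one hR0]; exact hmm
      have h5 : s * h₁ ^ 2 * (d₀ + d) * (m * m₀ / R) ≤ s * h₁ ^ 2 * (h₁ + h₁) * 1 := by
        gcongr
      refine h5.trans_lt ?_
      have h6 : s * h₁ ^ 2 * (h₁ + h₁) * 1 = 2 * s * H := by rw [← hcube]; ring
      rw [h6]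
      nlinarith only [hsH, hH, hs]
    have hdet0 : k * (d₀ * m₀) - k₀ * (d * m) = 0 := by
      have h1 : |((k * (d₀ * m₀) - k₀ * (d * m) : ℤ) : ℝ)| < 1 := by
        push_cast
        exact hdet
      have h2 : |(k * (d₀ * m₀) - k₀ * (d * m) : ℤ)| < 1 := by exact_mod_cast h1
      exact Int.abs_lt_one_iff.mp h2
    have hq : q₀ = (k : ℚ) / ((d * m : ℕ) : ℚ) := by
      rw [hq₀, div_eq_div_iff]
      · have : k₀ * (d * m : ℤ) = k * (d₀ * m₀) := by linarith only [hdet0]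
        push_cast
        exact_mod_cast this
      · have : 0 < d₀ * m₀ := Nat.mul_pos hd₀ hm₀0
        exact_mod_cast this.ne'
      · have : 0 < d * m := Nat.mul_pos hd hm
        exact_mod_cast this.ne'
    have h7 : ((q₀.den : ℤ)) ∣ ((d * m : ℕ) : ℤ) := by
      rw [hq]
      have := Rat.den_dvd k ((d * m : ℕ) : ℤ)
      rw [Rat.divInt_eq_div] at this
      push_cast at this ⊢
      exact this
    rw [hD]
    exact_mod_cast h7
  -- the common denominator is large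
  have hDH : H < D := by
    by_contra hcon
    rw [not_lt] at hcon
    have h1 := hns D hDpos hcon
    have h2 : distInt (D * α) ≤ s * h₁ ^ 2 / R * D := by
      have h3 : distInt (D * α) ≤ |(D : ℝ) * α - q₀.num| := round_le _ _
      refine h3.trans ?_
      have h4 : (q₀.num : ℝ) = D * (k₀ / (d₀ * m₀)) := by
        have h5 : (q₀ : ℝ) = (k₀ : ℝ) / (d₀ * m₀) := by rw [hq₀]; push_cast; ring
        rw [← h5]
        have h6 : q₀ * q₀.den = q₀.num := Rat.mul_den_eq_num q₀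
        have h7 : ((q₀ * q₀.den : ℚ) : ℝ) = ((q₀.num : ℚ) : ℝ) := by rw [h6]
        push_cast at h7
        rw [← h7, hD]
        ring
      rw [h4]
      have h8 : (D : ℝ) * α - D * (k₀ / (d₀ * m₀)) =
          D / (d₀ * m₀) * ((d₀ : ℝ) * (m₀ * α) - k₀) := by
        field_simp
      rw [h8, abs_mul, abs_of_pos (show (0 : ℝ) < D / (d₀ * m₀) by positivity)]
      calc (D : ℝ) / (d₀ * m₀) * |(d₀ : ℝ) * (m₀ * α) - k₀| ≤
          D / (d₀ * m₀) * (s * h₁ ^ 2 * m₀ / R) := by gcongr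
        _ = s * h₁ ^ 2 / R * D * (1 / d₀) := by field_simp
        _ ≤ s * h₁ ^ 2 / R * D * 1 := by
            apply mul_le_mul_of_nonneg_left _ (by positivity)
            rw [div_le_one hd₀']
            exact_mod_cast hd₀
        _ = _ := by ring
    have h9 : distInt (D * α) * (2 * R) ≤ 2 * s * h₁ ^ 2 * H := by
      calc distInt (D * α) * (2 * R) ≤ s * h₁ ^ 2 / R * D * (2 * R) := by gcongr
        _ = 2 * s * h₁ ^ 2 * D := by field_simp
        _ ≤ _ := by gcongr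
    have h10 : s * H ^ 2 < 2 * s * h₁ ^ 2 * H := h1.trans_le h9
    have h11 : s * H ^ 2 = s * h₁ ^ 2 * H * h₁ := by rw [← hcube]; ring
    rw [h11] at h10
    have h12 : 0 < s * h₁ ^ 2 * H := by positivity
    nlinarith only [h10, h12, hh2]
  -- sum over the bad `m`
  have hpt : ∀ m ∈ N.divisors.filter Bad, wdv N m ≤ ∑ d ∈ Icc 1 ⌊h₁⌋₊,
      (if D / Nat.gcd D d ∣ m then wdv N m else 0) := by
    intro m hm
    rw [mem_filter] at hm
    obtain ⟨hmN, hmR, d, hd, hdh, hdist⟩ := hm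
    have hm0 : 0 < m := Nat.pos_of_mem_divisors hmN
    have h1 := hdvd m d hm0 hd hmR hdh hdist
    have h2 : D / Nat.gcd D d ∣ m := by
      have h3 : D ∣ Nat.gcd D d * m := by
        have h4 : D ∣ Nat.gcd (D * m) (d * m) := Nat.dvd_gcd (Dvd.intro m rfl) h1
        rwa [Nat.gcd_mul_right] at h4
      have hg : 0 < Nat.gcd D d := Nat.gcd_pos_of_pos_left _ hDpos
      rw [← Nat.mul_dvd_mul_iff_left hg, Nat.mul_div_cancel' (Nat.gcd_dvd_left D d)]
      exact h3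
    have h5 : d ∈ Icc 1 ⌊h₁⌋₊ := by
      rw [mem_Icc]
      exact ⟨hd, Nat.le_floor hdh⟩
    refine le_trans (le_of_eq ?_) (single_le_sum (f := fun d => if D / Nat.gcd D d ∣ m then
      wdv N m else 0) (fun i _ => ?_) h5)
    · rw [if_pos h2]
    · split_ifs
      · exact wdv_nonneg _ _
      · exact le_rfl
  have hfin : ∀ d ∈ Icc 1 ⌊h₁⌋₊, ∑ m ∈ N.divisors.filter Bad,
      (if D / Nat.gcd D d ∣ m then wdv N m else 0) ≤ 1 / h₁ ^ 2 := by
    intro d hd
    rw [mem_Icc] at hd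
    have hg : 0 < Nat.gcd D d := Nat.gcd_pos_of_pos_left _ hDpos
    have hD'pos : 0 < D / Nat.gcd D d :=
      Nat.div_pos (Nat.le_of_dvd hDpos (Nat.gcd_dvd_left D d)) hg
    have h1 : ∑ m ∈ N.divisors.filter Bad, (if D / Nat.gcd D d ∣ m then wdv N m else 0) ≤
        ∑ m ∈ N.divisors.filter (fun m => D / Nat.gcd D d ∣ m), wdv N m := by
      rw [sum_filter (fun m => D / Nat.gcd D d ∣ m)]
      apply sum_le_sum_of_subset_of_nonneg (filter_subset _ _)
      intro m _ _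
      split_ifs
      · exact wdv_nonneg _ _
      · exact le_rfl
    refine h1.trans ((wdv_sum_dvd N _ hN hD'pos).trans ?_)
    apply one_div_le_one_div_of_le (by positivity)
    have h2 : ((D / Nat.gcd D d : ℕ) : ℝ) = (D : ℝ) / (Nat.gcd D d : ℕ) :=
      Nat.cast_div (Nat.gcd_dvd_left D d) (by exact_mod_cast hg.ne')
    rw [h2]
    have hg' : (0 : ℝ) < (Nat.gcd D d : ℕ) := by exact_mod_cast hg
    rw [le_div_iff₀ hg']
    have h3 : ((Nat.gcd D d : ℕ) : ℝ) ≤ h₁ := by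
      have h4 : Nat.gcd D d ≤ d := Nat.gcd_le_right _ (by omega)
      have h5 : (d : ℝ) ≤ h₁ := by
        have h6 : (d : ℝ) ≤ (⌊h₁⌋₊ : ℝ) := by exact_mod_cast hd.2
        exact h6.trans (Nat.floor_le hh₁0.le)
      exact le_trans (by exact_mod_cast h4) h5
    calc h₁ ^ 2 * (Nat.gcd D d : ℕ) ≤ h₁ ^ 2 * h₁ := by gcongr
      _ = H := by rw [← hcube]; ring
      _ ≤ D := hDH.le
  calc ∑ m ∈ N.divisors.filter Bad, wdv N m ≤
      ∑ m ∈ N.divisors.filter Bad, ∑ d ∈ Icc 1 ⌊h₁⌋₊,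
        (if D / Nat.gcd D d ∣ m then wdv N m else 0) := sum_le_sum hpt
    _ = ∑ d ∈ Icc 1 ⌊h₁⌋₊, ∑ m ∈ N.divisors.filter Bad,
        (if D / Nat.gcd D d ∣ m then wdv N m else 0) := sum_comm
    _ ≤ ∑ d ∈ Icc 1 ⌊h₁⌋₊, 1 / h₁ ^ 2 := sum_le_sum hfin
    _ = (⌊h₁⌋₊ : ℝ) * (1 / h₁ ^ 2) := by
        rw [sum_const, nsmul_eq_mul, Nat.card_Icc, Nat.add_sub_cancel]
    _ ≤ h₁ * (1 / h₁ ^ 2) := by
        apply mul_le_mul_of_nonneg_right (Nat.floor_le hh₁0.le) (by positivity)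
    _ = 1 / h₁ := by field_simp

end Vale.P028
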