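import Vale.Agent.P028.MathlibUsed
import Vale.Agent.P028.XDefs
import Vale.Agent.P028.MSums

/-!
# Block F4 of the `X` family: large smooth divisors (Rankin's trick)
-/

namespace Vale.P028

open Finset

/-- `BlkF4` with `3 ≤ y` (for `y = 2` the bound with exponent `1 / log y` is false). -/
def BlkF4' : Prop :=
  ∃ C : ℝ, 0 < C ∧ ∀ (y : ℕ) (M : ℝ) (N : ℕ), 3 ≤ y → 1 ≤ M → 0 < N →
    (∀ p : ℕ, p.Prime → p ∣ N → p ≤ y) →
    ∑ m ∈ N.divisors.filter (fun m : ℕ => M < m), wdv N m ≤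
      C * Real.exp (-(Real.log M / Real.log y))

/-- `BlkF4` for all `y ≥ 2` with half of the exponent. -/
def BlkF4h : Prop :=
  ∃ C : ℝ, 0 < C ∧ ∀ (y : ℕ) (M : ℝ) (N : ℕ), 2 ≤ y → 1 ≤ M → 0 < N →
    (∀ p : ℕ, p.Prime → p ∣ N → p ≤ y) →
    ∑ m ∈ N.divisors.filter (fun m : ℕ => M < m), wdv N m ≤
      C * Real.exp (-(Real.log M / (2 * Real.log y)))

theorem f4_wdv_nonneg (N m : ℕ) : 0 ≤ wdv N m := by
  unfold wdv
  split_ifs
  · refine mul_nonneg (by positivity) (prod_nonneg fun p hp => ?_)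
    have hp1 : (1 : ℝ) ≤ p := by
      exact_mod_cast (Nat.prime_of_mem_primeFactors (mem_filter.mp hp).1).one_lt.le
    have : (1 : ℝ) / p ≤ 1 := by
      rw [div_le_one (by linarith only [hp1])]; exact hp1
    linarith only [this]
  · exact le_rfl

theorem f4_wdv_mul {N₁ N₂ m₁ m₂ : ℕ} (h1 : 0 < N₁) (h2 : 0 < N₂) (hc : Nat.Coprime N₁ N₂)
    (d1 : m₁ ∣ N₁) (d2 : m₂ ∣ N₂) : wdv (N₁ * N₂) (m₁ * m₂) = wdv N₁ m₁ * wdv N₂ m₂ := by
  have hm1 : m₁ ≠ 0 := fun h => by subst h; exact h1.ne' (Nat.eq_zero_of_zero_dvd d1)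
  have hm2 : m₂ ≠ 0 := fun h => by subst h; exact h2.ne' (Nat.eq_zero_of_zero_dvd d2)
  unfold wdv
  rw [if_pos (mul_dvd_mul d1 d2), if_pos d1, if_pos d2]
  rw [Nat.primeFactors_mul h1.ne' h2.ne', filter_union, prod_union
    (disjoint_filter_filter hc.disjoint_primeFactors)]
  have e1 : N₁.primeFactors.filter
      (fun p => (m₁ * m₂).factorization p < (N₁ * N₂).factorization p) =
      N₁.primeFactors.filter (fun p => m₁.factorization p < N₁.factorization p) := by
    refine filter_congr fun p hp => ?_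
    have hpp := Nat.prime_of_mem_primeFactors hp
    have hpd := Nat.dvd_of_mem_primeFactors hp
    have hn : ¬ p ∣ N₂ := fun h => hpp.one_lt.ne' (Nat.eq_one_of_dvd_coprimes hc hpd h)
    rw [Nat.factorization_mul hm1 hm2, Nat.factorization_mul h1.ne' h2.ne']
    simp only [Finsupp.add_apply, Nat.factorization_eq_zero_of_not_dvd hn,
      Nat.factorization_eq_zero_of_not_dvd (fun h => hn (h.trans d2)), add_zero]
  have e2 : N₂.primeFactors.filter
      (fun p => (m₁ * m₂).factorization p < (N₁ * N₂).factorization p) =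
      N₂.primeFactors.filter (fun p => m₂.factorization p < N₂.factorization p) := by
    refine filter_congr fun p hp => ?_
    have hpp := Nat.prime_of_mem_primeFactors hp
    have hpd := Nat.dvd_of_mem_primeFactors hp
    have hn : ¬ p ∣ N₁ := fun h => hpp.one_lt.ne' (Nat.eq_one_of_dvd_coprimes hc h hpd)
    rw [Nat.factorization_mul hm1 hm2, Nat.factorization_mul h1.ne' h2.ne']
    simp only [Finsupp.add_apply, Nat.factorization_eq_zero_of_not_dvd hn,
      Nat.factorization_eq_zero_of_not_dvd (fun h => hn (h.trans d1)), zero_add]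
  rw [e1, e2]
  push_cast
  have hm : (1 : ℝ) / (m₁ * m₂) = 1 / m₁ * (1 / m₂) := by
    rw [one_div_mul_one_div]
  rw [hm]
  ring

/-- The Rankin sum. -/
noncomputable def f4S (η : ℝ) (N : ℕ) : ℝ := ∑ m ∈ N.divisors, wdv N m * (m : ℝ) ^ η

theorem f4S_nonneg (η : ℝ) (N : ℕ) : 0 ≤ f4S η N :=
  sum_nonneg fun m _ => mul_nonneg (f4_wdv_nonneg N m) (by positivity)

theorem f4S_mul (η : ℝ) {N₁ N₂ : ℕ} (h1 : 0 < N₁) (h2 : 0 < N₂) (hc : Nat.Coprime N₁ N₂) :
    f4S η (N₁ * N₂) = f4S η N₁ * f4S η N₂ := by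
  unfold f4S
  rw [Nat.divisors_mul, Finset.mul_def, sum_image hc.mul_injOn_divisors, sum_mul_sum,
    ← sum_product']
  refine sum_congr rfl fun x hx => ?_
  obtain ⟨hx1, hx2⟩ := mem_product.mp hx
  rw [f4_wdv_mul h1 h2 hc (Nat.dvd_of_mem_divisors hx1) (Nat.dvd_of_mem_divisors hx2)]
  push_cast
  rw [Real.mul_rpow (by positivity) (by positivity)]
  ring

theorem f4_wdv_prime_pow {p : ℕ} (hp : p.Prime) {a j : ℕ} (ha : a ≠ 0) (hj : j ≤ a) :
    wdv (p ^ a) (p ^ j) = (1 / (p : ℝ)) ^ j * (if j < a then 1 - 1 / (p : ℝ) else 1) := by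
  unfold wdv
  rw [if_pos (Nat.pow_dvd_pow p hj), Nat.primeFactors_prime_pow ha hp, filter_singleton]
  simp only [Nat.factorization_pow, Finsupp.smul_apply, hp.factorization_self, smul_eq_mul,
    mul_one]
  split_ifs with h
  · simp
  · simp

theorem f4S_prime_pow (η : ℝ) {p : ℕ} (hp : p.Prime) {a : ℕ} (ha : a ≠ 0) :
    f4S η (p ^ a) = 1 + ((p : ℝ) ^ η - 1) / p * ∑ j ∈ range a, ((p : ℝ) ^ η / p) ^ j := by
  have hp0 : (0 : ℝ) < p := by exact_mod_cast hp.pos
  have h1 : f4S η (p ^ a) =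
      ∑ j ∈ range a, (1 - 1 / (p : ℝ)) * ((p : ℝ) ^ η / p) ^ j + ((p : ℝ) ^ η / p) ^ a := by
    unfold f4S
    rw [Nat.sum_divisors_prime_pow hp, sum_range_succ]
    congr 1
    · refine sum_congr rfl fun j hj => ?_
      have hj' := mem_range.mp hj
      rw [f4_wdv_prime_pow hp ha hj'.le, if_pos hj']
      push_cast
      rw [← Real.rpow_natCast (p : ℝ) j, ← Real.rpow_mul hp0.le, mul_comm (j : ℝ) η,
        Real.rpow_mul hp0.le, Real.rpow_natCast, div_pow, div_pow, one_pow]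
      ring
    · rw [f4_wdv_prime_pow hp ha le_rfl, if_neg (lt_irrefl _)]
      push_cast
      rw [← Real.rpow_natCast (p : ℝ) a, ← Real.rpow_mul hp0.le, mul_comm (a : ℝ) η,
        Real.rpow_mul hp0.le, Real.rpow_natCast, div_pow, div_pow, one_pow]
      ring
  rw [h1]
  clear h1 ha
  generalize ht : (p : ℝ) ^ η = u
  induction a with
  | zero => simp
  | succ a ih =>
    rw [sum_range_succ, sum_range_succ, mul_add, ← add_assoc, ← ih, pow_succ]
    field_simp
    ring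

theorem f4S_one (η : ℝ) : f4S η 1 = 1 := by
  unfold f4S wdv
  simp

theorem f4S_le (η : ℝ) (hη : 0 ≤ η) (hη1 : η ≤ 11 / 12) (N : ℕ) (hN : 0 < N) :
    f4S η N ≤ ∏ p ∈ N.primeFactors,
      (1 + (1 / (1 - (2 : ℝ) ^ (-(1 / 12) : ℝ))) * (((p : ℝ) ^ η - 1) / p)) := by
  induction N using Nat.recOnPosPrimePosCoprime with
  | zero => exact absurd hN (lt_irrefl 0)
  | one => rw [f4S_one]; simp
  | prime_pow p a hp ha =>
    rw [f4S_prime_pow η hp ha.ne', Nat.primeFactors_prime_pow ha.ne' hp, prod_singleton]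
    have hp2 : (2 : ℝ) ≤ p := by exact_mod_cast hp.two_le
    have hp0 : (0 : ℝ) < p := by linarith only [hp2]
    have hpη : 1 ≤ (p : ℝ) ^ η := Real.one_le_rpow (by linarith only [hp2]) hη
    have ht : (p : ℝ) ^ η / p ≤ (2 : ℝ) ^ (-(1 / 12) : ℝ) := by
      calc (p : ℝ) ^ η / p = (p : ℝ) ^ (η - 1) := by rw [Real.rpow_sub_one hp0.ne']
        _ ≤ (p : ℝ) ^ (-(1 / 12) : ℝ) :=
          Real.rpow_le_rpow_of_exponent_le (by linarith only [hp2]) (by linarith only [hη1])
        _ ≤ (2 : ℝ) ^ (-(1 / 12) : ℝ) :=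
          Real.rpow_le_rpow_of_nonpos (by norm_num) hp2 (by norm_num)
    have ht1 : (2 : ℝ) ^ (-(1 / 12) : ℝ) < 1 :=
      Real.rpow_lt_one_of_one_lt_of_neg (by norm_num) (by norm_num)
    have ht0 : 0 ≤ (p : ℝ) ^ η / p := by positivity
    generalize (p : ℝ) ^ η / p = t at ht ht0 ⊢
    generalize (2 : ℝ) ^ (-(1 / 12) : ℝ) = t₀ at ht ht1 ⊢
    have hg : ∑ j ∈ range a, t ^ j ≤ 1 / (1 - t₀) := by
      rw [le_div_iff₀ (by linarith only [ht1])]
      have h3 : (∑ j ∈ range a, t ^ j) * (1 - t) = 1 - t ^ a := geom_sum_mul_neg t a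
      have h4 : 0 ≤ ∑ j ∈ range a, t ^ j := sum_nonneg fun j _ => pow_nonneg ht0 j
      have h5 : 0 ≤ t ^ a := pow_nonneg ht0 a
      nlinarith only [h3, h4, h5, ht, ht0]
    have h6 : 0 ≤ ((p : ℝ) ^ η - 1) / p := div_nonneg (by linarith only [hpη]) hp0.le
    have := mul_le_mul_of_nonneg_left hg h6
    linarith only [this]
  | coprime a b ha hb hc iha ihb =>
    have ha0 : 0 < a := by omega
    have hb0 : 0 < b := by omega
    rw [f4S_mul η ha0 hb0 hc, Nat.primeFactors_mul ha0.ne' hb0.ne',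
      prod_union hc.disjoint_primeFactors]
    exact mul_le_mul (iha ha0) (ihb hb0) (f4S_nonneg η b) ((f4S_nonneg η a).trans (iha ha0))

/-- The general form. -/
theorem f4_general : ∃ C : ℝ, 0 < C ∧ ∀ (η : ℝ) (y : ℕ) (M : ℝ) (N : ℕ), 0 ≤ η → η ≤ 11 / 12 →
    1 ≤ y → η * Real.log y ≤ 1 → 0 < M → 0 < N → (∀ p : ℕ, p.Prime → p ∣ N → p ≤ y) →
    ∑ m ∈ N.divisors.filter (fun m : ℕ => M < m), wdv N m ≤ C * M ^ (-η) := by
  obtain ⟨C₁, hC₁, hsum⟩ := sum_log_div_prime_le
  have ht1 : (2 : ℝ) ^ (-(1 / 12) : ℝ) < 1 :=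
    Real.rpow_lt_one_of_one_lt_of_neg (by norm_num) (by norm_num)
  set c₀ : ℝ := 1 / (1 - (2 : ℝ) ^ (-(1 / 12) : ℝ)) with hc₀
  have hc₀0 : 0 < c₀ := by
    rw [hc₀]; exact one_div_pos.mpr (by linarith only [ht1])
  refine ⟨Real.exp (c₀ * (2 * (1 + C₁))), Real.exp_pos _, ?_⟩
  intro η y M N hη hη1 hy hηy hM hN hsm
  have hS : f4S η N ≤ Real.exp (c₀ * (2 * (1 + C₁))) := by
    refine (f4S_le η hη hη1 N hN).trans ?_
    rw [← hc₀]
    have hpp : ∀ p ∈ (Icc 1 y).filter Nat.Prime, 0 ≤ ((p : ℝ) ^ η - 1) / p ∧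
        ((p : ℝ) ^ η - 1) / p ≤ 2 * η * (Real.log p / p) := by
      intro p hp
      obtain ⟨hp1, hp2⟩ := mem_filter.mp hp
      obtain ⟨hp3, hp4⟩ := mem_Icc.mp hp1
      have hp0 : (0 : ℝ) < p := by exact_mod_cast hp2.pos
      have hp1' : (1 : ℝ) ≤ p := by exact_mod_cast hp3
      have hly : Real.log p ≤ Real.log y :=
        Real.log_le_log hp0 (by exact_mod_cast hp4)
      have hlp : 0 ≤ Real.log p := Real.log_nonneg hp1'
      have hx1 : η * Real.log p ≤ 1 := (mul_le_mul_of_nonneg_left hly hη).trans hηy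
      have hx0 : 0 ≤ η * Real.log p := mul_nonneg hη hlp
      have hpe : (p : ℝ) ^ η = Real.exp (η * Real.log p) := by
        rw [Real.rpow_def_of_pos hp0, mul_comm]
      have h1 := Real.abs_exp_sub_one_le (x := η * Real.log p) (by rw [abs_of_nonneg hx0]; exact hx1)
      rw [abs_of_nonneg hx0, ← hpe] at h1
      have h2 := (abs_le.mp h1).2
      have h3 : 1 ≤ (p : ℝ) ^ η := Real.one_le_rpow hp1' hη
      constructor
      · exact div_nonneg (by linarith only [h3]) hp0.le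
      · rw [← mul_div_assoc, div_le_div_iff_of_pos_right hp0]
        linarith only [h2]
    have hsub : N.primeFactors ⊆ (Icc 1 y).filter Nat.Prime := by
      intro p hp
      have hpp := Nat.prime_of_mem_primeFactors hp
      exact mem_filter.mpr ⟨mem_Icc.mpr ⟨hpp.one_lt.le,
        hsm p hpp (Nat.dvd_of_mem_primeFactors hp)⟩, hpp⟩
    calc ∏ p ∈ N.primeFactors, (1 + c₀ * (((p : ℝ) ^ η - 1) / p))
        ≤ ∏ p ∈ N.primeFactors, Real.exp (c₀ * (((p : ℝ) ^ η - 1) / p)) := by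
          refine prod_le_prod (fun p hp => ?_) (fun p hp => ?_)
          · have := (hpp p (hsub hp)).1
            have := mul_nonneg hc₀0.le this
            linarith only [this]
          · have := Real.add_one_le_exp (c₀ * (((p : ℝ) ^ η - 1) / p))
            linarith only [this]
      _ = Real.exp (c₀ * ∑ p ∈ N.primeFactors, (((p : ℝ) ^ η - 1) / p)) := by
          rw [← Real.exp_sum, mul_sum]
      _ ≤ Real.exp (c₀ * (2 * (1 + C₁))) := by
          apply Real.exp_le_exp.mpr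
          apply mul_le_mul_of_nonneg_left _ hc₀0.le
          calc ∑ p ∈ N.primeFactors, (((p : ℝ) ^ η - 1) / p)
              ≤ ∑ p ∈ (Icc 1 y).filter Nat.Prime, (((p : ℝ) ^ η - 1) / p) :=
                sum_le_sum_of_subset_of_nonneg hsub fun p hp _ => (hpp p hp).1
            _ ≤ ∑ p ∈ (Icc 1 y).filter Nat.Prime, 2 * η * (Real.log p / p) :=
                sum_le_sum fun p hp => (hpp p hp).2
            _ = 2 * η * ∑ p ∈ (Icc 1 y).filter Nat.Prime, (Real.log p / p) := by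
                rw [mul_sum]
            _ ≤ 2 * η * (Real.log y + C₁) :=
                mul_le_mul_of_nonneg_left (hsum y hy) (by linarith only [hη])
            _ ≤ 2 * (1 + C₁) := by nlinarith only [hηy, hη, hη1, hC₁]
  calc ∑ m ∈ N.divisors.filter (fun m : ℕ => M < m), wdv N m
      ≤ ∑ m ∈ N.divisors.filter (fun m : ℕ => M < m), M ^ (-η) * (wdv N m * (m : ℝ) ^ η) := by
        refine sum_le_sum fun m hm => ?_
        have hMm := (mem_filter.mp hm).2
        have h1 : 1 ≤ M ^ (-η) * (m : ℝ) ^ η := by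
          rw [Real.rpow_neg hM.le, inv_mul_eq_div, one_le_div (by positivity)]
          exact Real.rpow_le_rpow hM.le hMm.le hη
        have h2 := mul_le_mul_of_nonneg_left h1 (f4_wdv_nonneg N m)
        linarith only [h2]
    _ ≤ ∑ m ∈ N.divisors, M ^ (-η) * (wdv N m * (m : ℝ) ^ η) :=
        sum_le_sum_of_subset_of_nonneg (filter_subset _ _) fun m _ _ =>
          mul_nonneg (by positivity) (mul_nonneg (f4_wdv_nonneg N m) (by positivity))
    _ = M ^ (-η) * f4S η N := by rw [f4S, mul_sum]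
    _ ≤ M ^ (-η) * Real.exp (c₀ * (2 * (1 + C₁))) :=
        mul_le_mul_of_nonneg_left hS (by positivity)
    _ = Real.exp (c₀ * (2 * (1 + C₁))) * M ^ (-η) := mul_comm _ _

theorem f4_log_three : (12 : ℝ) / 11 ≤ Real.log 3 := by
  rw [Real.le_log_iff_exp_le (by norm_num)]
  have h1 : Real.exp (12 / 11) ^ 11 ≤ (3 : ℝ) ^ 11 := by
    rw [← Real.exp_nat_mul]
    have : ((11 : ℕ) : ℝ) * (12 / 11) = ((12 : ℕ) : ℝ) * 1 := by norm_num
    rw [this, Real.exp_nat_mul]
    have h2 := Real.exp_one_lt_d9.le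
    calc Real.exp 1 ^ 12 ≤ 2.7182818286 ^ 12 := pow_le_pow_left₀ (Real.exp_pos 1).le h2 12
      _ ≤ 3 ^ 11 := by norm_num
  exact le_of_pow_le_pow_left₀ (by norm_num) (by norm_num) h1

theorem blkF4' : BlkF4' := by
  obtain ⟨C, hC, h⟩ := f4_general
  refine ⟨C, hC, fun y M N hy hM hN hsm => ?_⟩
  have hy3 : (3 : ℝ) ≤ y := by exact_mod_cast hy
  have hl : (12 : ℝ) / 11 ≤ Real.log y := f4_log_three.trans (Real.log_le_log (by norm_num) hy3)
  have hl0 : 0 < Real.log y := by linarith only [hl]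
  have hM0 : 0 < M := by linarith only [hM]
  have := h (1 / Real.log y) y M N (by positivity)
    (by rw [div_le_iff₀ hl0]; linarith only [hl]) (by omega)
    (by rw [one_div, inv_mul_cancel₀ hl0.ne']) hM0 hN hsm
  rw [Real.rpow_def_of_pos hM0] at this
  convert this using 4
  ring

theorem blkF4h : BlkF4h := by
  obtain ⟨C, hC, h⟩ := f4_general
  refine ⟨C, hC, fun y M N hy hM hN hsm => ?_⟩
  have hy2 : (2 : ℝ) ≤ y := by exact_mod_cast hy
  have hl : (0.6931471803 : ℝ) ≤ Real.log y :=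
    Real.log_two_gt_d9.le.trans (Real.log_le_log (by norm_num) hy2)
  have hl0 : 0 < Real.log y := by linarith only [hl]
  have hM0 : 0 < M := by linarith only [hM]
  have := h (1 / (2 * Real.log y)) y M N (by positivity)
    (by rw [div_le_iff₀ (by positivity)]; linarith only [hl]) (by omega)
    (by rw [one_div, mul_inv, mul_assoc, inv_mul_cancel₀ hl0.ne']; norm_num) hM0 hN hsm
  rw [Real.rpow_def_of_pos hM0] at this
  convert this using 4
  ring

end Vale.P028
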