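import Vale.Agent.P028.MathlibUsed
import Vale.Agent.P028.XDefs
import Vale.Agent.P028.R764.SPX

/-!
# Block A of the second near part: the single prime inequality
-/

namespace Vale.P028

open Finset

theorem SPX_of_SPXe {θ b c : ℝ} (h : SPXe θ b c) : SPX θ b c := by
  intro N φ χ hφ hχ
  rcases h N φ χ hφ hχ with h1 | ⟨k, hk, h1⟩
  · exact Or.inl h1
  · refine Or.inr ⟨k, hk, le_trans (le_of_eq ?_) h1⟩
    congr 1
    have hk' : k ∈ range (N + 1) := mem_range.2 (Nat.lt_succ_of_le hk)
    have hin : ∀ i ≠ k, ∑ j ∈ range (N + 1),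
        (if i = k ∨ j = k then 0 else b ^ ad i j * (φ i * χ j) ^ θ) =
        ∑ j ∈ (range (N + 1)).erase k, b ^ ad i j * (φ i * χ j) ^ θ := by
      intro i hi
      rw [← Finset.add_sum_erase _ _ hk', if_pos (Or.inr rfl), zero_add]
      refine Finset.sum_congr rfl fun j hj => ?_
      rw [if_neg]
      rintro (h | h)
      · exact hi h
      · exact (Finset.mem_erase.1 hj).1 h
    rw [← Finset.add_sum_erase _ _ hk']
    have h0 : ∑ j ∈ range (N + 1),
        (if k = k ∨ j = k then 0 else b ^ ad k j * (φ k * χ j) ^ θ) = 0 :=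
      Finset.sum_eq_zero fun j _ => if_pos (Or.inl rfl)
    rw [h0, zero_add]
    exact Finset.sum_congr rfl fun i hi => hin i (Finset.mem_erase.1 hi).1

/-- BLOCK A -/
theorem blkA : BlkA := by
  intro θ hθ hθ1
  have h1 : 1 / (2 * θ) < 1 := by
    rw [div_lt_one (by linarith)]
    linarith
  have h0 : 0 < 1 / (2 * θ) := by positivity
  obtain ⟨C, hC, c, hc, h⟩ := SPX_all (κ := (1 - 1 / (2 * θ)) / 4) hθ hθ1
    (by linarith) (by linarith)
  exact ⟨(1 - 1 / (2 * θ)) / 4, c, C, by linarith, by linarith, hc, hC,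
    fun p hp => SPX_of_SPXe (h p hp.two_le)⟩

end Vale.P028
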