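import Vale.Agent.P028.MathlibUsed
import Vale.Agent.P028.XDefs

/-!
# Block B of the second near part: the induction over the primes
-/

namespace Vale.P028

open Finset

theorem xb_comm {A B : Finset ℕ} (G : ℕ → ℕ → ℕ → ℕ → ℝ) :
    ∑ i ∈ A, ∑ j ∈ A, ∑ q ∈ B, ∑ r ∈ B, G i j q r =
      ∑ q ∈ B, ∑ r ∈ B, ∑ i ∈ A, ∑ j ∈ A, G i j q r := by
  have h1 : ∀ (A B : Finset ℕ) (G : ℕ → ℕ → ℕ → ℕ → ℝ),
      ∑ i ∈ A, ∑ j ∈ A, ∑ q ∈ B, ∑ r ∈ B, G i j q r =
        ∑ x ∈ A ×ˢ A, ∑ y ∈ B ×ˢ B, G x.1 x.2 y.1 y.2 := by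
    intro A B G
    rw [sum_product]
    refine sum_congr rfl fun i _ => sum_congr rfl fun j _ => ?_
    rw [sum_product]
  rw [h1 A B G, h1 B A (fun q r i j => G i j q r), sum_comm]

theorem fac_mem_range {N q : ℕ} (p : ℕ) (hq : q ∈ Icc 1 N) :
    q.factorization p ∈ range (N + 1) := by
  obtain ⟨h1, h2⟩ := mem_Icc.1 hq
  have h3 : q.factorization p < q := Nat.factorization_lt p (by omega)
  exact mem_range.2 (by omega)

/-- Sum over the fibres of the valuation. -/
theorem sum_fib (N p : ℕ) (f : ℕ → ℝ) :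
    ∑ i ∈ range (N + 1), (∑ q ∈ Icc 1 N, if q.factorization p = i then f q else 0) =
      ∑ q ∈ Icc 1 N, f q := by
  rw [sum_comm]
  refine sum_congr rfl fun q hq => ?_
  rw [sum_ite_eq, if_pos (fac_mem_range p hq)]

/-- Splitting into exact cells. -/
theorem xb_psum_split (R : ℕ → ℕ → Prop) (N p : ℕ) (f h : ℕ → ℝ) :
    psum R N f h = ∑ i ∈ range (N + 1), ∑ j ∈ range (N + 1),
      psum (fun q r => R q r ∧ q.factorization p = i ∧ r.factorization p = j) N f h := by
  classical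
  unfold psum
  rw [xb_comm]
  refine sum_congr rfl fun q hq => sum_congr rfl fun r hr => ?_
  rw [sum_eq_single (q.factorization p), sum_eq_single (r.factorization p)]
  · by_cases h1 : R q r
    · rw [if_pos h1, if_pos ⟨h1, rfl, rfl⟩]
    · rw [if_neg h1, if_neg (fun h2 => h1 h2.1)]
  · intro j _ hj
    exact if_neg (fun h2 => hj h2.2.2.symm)
  · intro h2
    exact absurd (fac_mem_range p hr) h2
  · intro i _ hi
    exact sum_eq_zero fun j _ => if_neg (fun h2 => hi h2.2.1.symm)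
  · intro h2
    exact absurd (fac_mem_range p hq) h2

/-- Splitting into a cross and the remaining exact cells. -/
theorem psum_split_cross (R : ℕ → ℕ → Prop) (N p k : ℕ) (f h : ℕ → ℝ) :
    psum R N f h =
      psum (fun q r => R q r ∧ (q.factorization p = k ∨ r.factorization p = k)) N f h +
      ∑ i ∈ range (N + 1), ∑ j ∈ range (N + 1), (if i = k ∨ j = k then 0 else
      psum (fun q r => R q r ∧ q.factorization p = i ∧ r.factorization p = j) N f h) := by
  classical
  have h0 : ∀ i j : ℕ, (if i = k ∨ j = k then 0 else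
      psum (fun q r => R q r ∧ q.factorization p = i ∧ r.factorization p = j) N f h) =
      ∑ q ∈ Icc 1 N, ∑ r ∈ Icc 1 N, (if i = k ∨ j = k then 0 else
        if R q r ∧ q.factorization p = i ∧ r.factorization p = j then f q * h r else 0) := by
    intro i j
    split_ifs with h1
    · simp only [sum_const_zero]
    · unfold psum
      refine sum_congr rfl fun q hq => sum_congr rfl fun r hr => ?_
      congr 1
  simp only [h0]
  rw [xb_comm]
  unfold psum
  rw [← sum_add_distrib]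
  refine sum_congr rfl fun q hq => ?_
  rw [← sum_add_distrib]
  refine sum_congr rfl fun r hr => ?_
  rw [sum_eq_single (q.factorization p), sum_eq_single (r.factorization p)]
  · by_cases h1 : R q r
    · by_cases h2 : q.factorization p = k ∨ r.factorization p = k
      · rw [if_pos h1, if_pos ⟨h1, h2⟩, if_pos h2, add_zero]
      · rw [if_pos h1, if_neg (fun h3 => h2 h3.2), if_neg h2, if_pos ⟨h1, rfl, rfl⟩, zero_add]
    · rw [if_neg h1, if_neg (fun h2 => h1 h2.1), zero_add]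
      split_ifs with h2 h3
      · rfl
      · exact absurd h3.1 h1
      · rfl
  · intro j _ hj
    split_ifs with h2 h3
    · rfl
    · exact absurd h3.2.2.symm hj
    · rfl
  · intro h2
    exact absurd (fac_mem_range p hr) h2
  · intro i _ hi
    refine sum_eq_zero fun j _ => ?_
    split_ifs with h2 h3
    · rfl
    · exact absurd h3.2.1.symm hi
    · rfl
  · intro h2
    exact absurd (fac_mem_range p hq) h2

/-- The state bound. -/
def XState (θ : ℝ) (b : ℕ → ℝ) (N : ℕ) (R : ℕ → ℕ → Prop) (g₁ g₂ : ℕ → ℝ) (D : Finset ℕ)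
    (M : ℝ) : Prop :=
  ∀ E ⊆ D, ∀ (i j k : ℕ → ℕ) (f h : ℕ → ℝ), (∀ q, 0 ≤ f q ∧ f q ≤ g₁ q) →
      (∀ q, 0 ≤ h q ∧ h q ≤ g₂ q) →
      psum (XCell R D E i j k) N f h ≤ M * (∏ p ∈ E, b p ^ ad (i p) (j p)) *
        ((∑ q ∈ Icc 1 N, f q) * ∑ r ∈ Icc 1 N, h r) ^ θ

theorem psum_mono_rel {R R' : ℕ → ℕ → Prop} {N : ℕ} {f h f' h' : ℕ → ℝ}
    (hf : ∀ q, 0 ≤ f' q) (hh : ∀ r, 0 ≤ h' r)
    (hR : ∀ q r, R q r → R' q r ∧ f q = f' q ∧ h r = h' r) :
    psum R N f h ≤ psum R' N f' h' := by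
  classical
  unfold psum
  refine sum_le_sum fun q hq => sum_le_sum fun r hr => ?_
  by_cases h1 : R q r
  · obtain ⟨h2, h3, h4⟩ := hR q r h1
    rw [if_pos h1, if_pos h2, h3, h4]
  · rw [if_neg h1]
    split_ifs
    · exact mul_nonneg (hf q) (hh r)
    · exact le_refl _

theorem xstate_exact {θ : ℝ} {b : ℕ → ℝ} {N : ℕ} {R : ℕ → ℕ → Prop} {g₁ g₂ : ℕ → ℝ}
    {D : Finset ℕ} {M : ℝ} {p : ℕ} (hp : p ∉ D)
    (H : XState θ b N R g₁ g₂ (insert p D) M) {E : Finset ℕ} (hE : E ⊆ D) (i j k : ℕ → ℕ)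
    {f h : ℕ → ℝ} (hf : ∀ q, 0 ≤ f q ∧ f q ≤ g₁ q) (hh : ∀ q, 0 ≤ h q ∧ h q ≤ g₂ q)
    (i₀ j₀ : ℕ) :
    psum (fun q r => XCell R D E i j k q r ∧ q.factorization p = i₀ ∧
        r.factorization p = j₀) N f h ≤
      (M * ∏ p ∈ E, b p ^ ad (i p) (j p)) * (b p ^ ad i₀ j₀ *
        ((∑ q ∈ Icc 1 N, if q.factorization p = i₀ then f q else 0) *
          ∑ r ∈ Icc 1 N, if r.factorization p = j₀ then h r else 0) ^ θ) := by
  classical
  have hpE : p ∉ E := fun h1 => hp (hE h1)
  have hf' : ∀ q, 0 ≤ (if q.factorization p = i₀ then f q else 0) ∧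
      (if q.factorization p = i₀ then f q else 0) ≤ g₁ q := by
    intro q
    split_ifs
    · exact hf q
    · exact ⟨le_refl _, (hf q).1.trans (hf q).2⟩
  have hh' : ∀ q, 0 ≤ (if q.factorization p = j₀ then h q else 0) ∧
      (if q.factorization p = j₀ then h q else 0) ≤ g₂ q := by
    intro q
    split_ifs
    · exact hh q
    · exact ⟨le_refl _, (hh q).1.trans (hh q).2⟩
  have key := H (insert p E) (insert_subset_insert p hE) (Function.update i p i₀)
    (Function.update j p j₀) k (fun q => if q.factorization p = i₀ then f q else 0)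
    (fun r => if r.factorization p = j₀ then h r else 0) hf' hh'
  have h1 : psum (fun q r => XCell R D E i j k q r ∧ q.factorization p = i₀ ∧
        r.factorization p = j₀) N f h ≤
      psum (XCell R (insert p D) (insert p E) (Function.update i p i₀)
        (Function.update j p j₀) k) N (fun q => if q.factorization p = i₀ then f q else 0)
        (fun r => if r.factorization p = j₀ then h r else 0) := by
    refine psum_mono_rel (fun q => (hf' q).1) (fun r => (hh' r).1) ?_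
    rintro q r ⟨⟨h2, h3, h4⟩, h5, h6⟩
    refine ⟨⟨h2, ?_, ?_⟩, (if_pos h5).symm, (if_pos h6).symm⟩
    · intro p' hp'
      rcases mem_insert.1 hp' with h7 | h7
      · subst h7
        simp only [Function.update_self]
        exact ⟨h5, h6⟩
      · have h8 : p' ≠ p := fun h9 => hpE (h9 ▸ h7)
        simp only [Function.update_of_ne h8]
        exact h3 p' h7
    · intro p' hp' hp''
      rcases mem_insert.1 hp' with h7 | h7
      · exact absurd (mem_insert.2 (Or.inl h7)) hp''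
      · exact h4 p' h7 (fun h8 => hp'' (mem_insert_of_mem h8))
  refine h1.trans (key.trans (le_of_eq ?_))
  rw [prod_insert hpE]
  have h2 : ∏ x ∈ E, b x ^ ad (Function.update i p i₀ x) (Function.update j p j₀ x) =
      ∏ p ∈ E, b p ^ ad (i p) (j p) := by
    refine prod_congr rfl fun x hx => ?_
    have h8 : x ≠ p := fun h9 => hpE (h9 ▸ hx)
    simp only [Function.update_of_ne h8]
  rw [h2]
  simp only [Function.update_self]
  ring

theorem xstate_cross {θ : ℝ} {b : ℕ → ℝ} {N : ℕ} {R : ℕ → ℕ → Prop} {g₁ g₂ : ℕ → ℝ}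
    {D : Finset ℕ} {M : ℝ} {p : ℕ} (hp : p ∉ D)
    (H : XState θ b N R g₁ g₂ (insert p D) M) {E : Finset ℕ} (hE : E ⊆ D) (i j k : ℕ → ℕ)
    {f h : ℕ → ℝ} (hf : ∀ q, 0 ≤ f q ∧ f q ≤ g₁ q) (hh : ∀ q, 0 ≤ h q ∧ h q ≤ g₂ q)
    (k₀ : ℕ) :
    psum (fun q r => XCell R D E i j k q r ∧ (q.factorization p = k₀ ∨
        r.factorization p = k₀)) N f h ≤
      (M * ∏ p ∈ E, b p ^ ad (i p) (j p)) *
        ((∑ q ∈ Icc 1 N, f q) * ∑ r ∈ Icc 1 N, h r) ^ θ := by
  have key := H E (hE.trans (subset_insert p D)) i j (Function.update k p k₀) f h hf hh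
  refine le_trans ?_ key
  refine psum_mono_rel (fun q => (hf q).1) (fun r => (hh r).1) ?_
  rintro q r ⟨⟨h2, h3, h4⟩, h5⟩
  refine ⟨⟨h2, h3, ?_⟩, rfl, rfl⟩
  intro p' hp' hp''
  rcases mem_insert.1 hp' with h7 | h7
  · subst h7
    simp only [Function.update_self]
    exact h5
  · have h8 : p' ≠ p := fun h9 => hp (h9 ▸ h7)
    simp only [Function.update_of_ne h8]
    exact h4 p' h7 hp''

theorem xstate_step {θ : ℝ} {b c : ℕ → ℝ} {N : ℕ} {R : ℕ → ℕ → Prop} {g₁ g₂ : ℕ → ℝ}
    {D : Finset ℕ} {M : ℝ} (hM : 0 ≤ M) {p : ℕ} (hp : p ∉ D) (hb : ∀ p ∈ D, 0 ≤ b p)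
    (hS : SPX θ (b p) (c p))
    (H : XState θ b N R g₁ g₂ (insert p D) M) : XState θ b N R g₁ g₂ D (c p * M) := by
  intro E hE i j k f h hf hh
  have hB : 0 ≤ M * ∏ p ∈ E, b p ^ ad (i p) (j p) :=
    mul_nonneg hM (prod_nonneg fun p hp => pow_nonneg (hb p (hE hp)) _)
  set W := M * ∏ p ∈ E, b p ^ ad (i p) (j p) with hW
  set φ : ℕ → ℝ := fun i₀ => ∑ q ∈ Icc 1 N, if q.factorization p = i₀ then f q else 0 with hφ
  set χ : ℕ → ℝ := fun j₀ => ∑ q ∈ Icc 1 N, if q.factorization p = j₀ then h q else 0 with hχ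
  have hφ0 : ∀ i, 0 ≤ φ i := by
    intro i
    refine sum_nonneg fun q _ => ?_
    split_ifs
    · exact (hf q).1
    · exact le_refl _
  have hχ0 : ∀ i, 0 ≤ χ i := by
    intro i
    refine sum_nonneg fun q _ => ?_
    split_ifs
    · exact (hh q).1
    · exact le_refl _
  have hex : ∀ i₀ j₀, psum (fun q r => XCell R D E i j k q r ∧ q.factorization p = i₀ ∧
        r.factorization p = j₀) N f h ≤ W * (b p ^ ad i₀ j₀ * (φ i₀ * χ j₀) ^ θ) :=
    fun i₀ j₀ => xstate_exact hp H hE i j k hf hh i₀ j₀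
  have hF : ∑ i ∈ range (N + 1), φ i = ∑ q ∈ Icc 1 N, f q := sum_fib N p f
  have hG : ∑ i ∈ range (N + 1), χ i = ∑ q ∈ Icc 1 N, h q := sum_fib N p h
  have hfin : c p * M * (∏ p ∈ E, b p ^ ad (i p) (j p)) *
        ((∑ q ∈ Icc 1 N, f q) * ∑ r ∈ Icc 1 N, h r) ^ θ =
      W * (c p * ((∑ i ∈ range (N + 1), φ i) * ∑ j ∈ range (N + 1), χ j) ^ θ) := by
    rw [hF, hG, hW]
    ring
  rw [hfin]
  rcases hS N φ χ hφ0 hχ0 with h1 | ⟨k₀, _, h1⟩
  · refine le_trans ?_ (mul_le_mul_of_nonneg_left h1 hB)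
    rw [xb_psum_split _ N p, mul_sum]
    refine sum_le_sum fun i₀ _ => ?_
    rw [mul_sum]
    exact sum_le_sum fun j₀ _ => hex i₀ j₀
  · refine le_trans ?_ (mul_le_mul_of_nonneg_left h1 hB)
    rw [psum_split_cross _ N p k₀, mul_add]
    refine add_le_add ?_ ?_
    · rw [hF, hG]
      exact xstate_cross hp H hE i j k hf hh k₀
    · rw [mul_sum]
      refine sum_le_sum fun i₀ _ => ?_
      rw [mul_sum]
      refine sum_le_sum fun j₀ _ => ?_
      split_ifs
      · rw [mul_zero]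
      · exact hex i₀ j₀

/-- BLOCK B. -/
theorem blkB : BlkB := by
  intro θ _ _ P b c hP K N hK R g₁ g₂ H f h hf hh
  have main : ∀ T : Finset ℕ, T ⊆ P → XState θ b N R g₁ g₂ (P \ T) ((∏ p ∈ T, c p) * K) := by
    intro T
    induction T using Finset.induction_on with
    | empty =>
      intro _
      rw [sdiff_empty, prod_empty, one_mul]
      exact H
    | insert p T hpT ih =>
      intro hT
      have hpP : p ∈ P := hT (mem_insert_self p T)
      have hTP : T ⊆ P := (subset_insert p T).trans hT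
      have h1 : P \ T = insert p (P \ insert p T) := by
        ext x
        simp only [mem_sdiff, mem_insert, not_or]
        constructor
        · rintro ⟨h2, h3⟩
          by_cases h4 : x = p
          · exact Or.inl h4
          · exact Or.inr ⟨h2, h4, h3⟩
        · rintro (h2 | ⟨h2, _, h3⟩)
          · subst h2
            exact ⟨hpP, hpT⟩
          · exact ⟨h2, h3⟩
      have h2 := ih hTP
      rw [h1] at h2
      have hM : 0 ≤ (∏ p ∈ T, c p) * K :=
        mul_nonneg (prod_nonneg fun p hp => zero_le_one.trans (hP p (hTP hp)).2.1) hK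
      have h3 := xstate_step (c := c) hM (by simp) (fun p hp => (hP p (mem_sdiff.1 hp).1).1)
        (hP p hpP).2.2 h2
      rw [prod_insert hpT, mul_assoc]
      exact h3
  have h1 := main P (Subset.refl P) ∅ (empty_subset _) (fun _ => 0) (fun _ => 0) (fun _ => 0)
    f h hf hh
  rw [sdiff_self, prod_empty, mul_one] at h1
  refine le_trans (psum_mono_rel (fun q => (hf q).1) (fun r => (hh r).1) ?_) h1
  intro q r h2
  refine ⟨⟨h2, ?_, ?_⟩, rfl, rfl⟩
  · intro p hp
    exact absurd hp (notMem_empty p)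
  · intro p hp
    exact absurd hp (notMem_empty p)

end Vale.P028
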