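import Vale.Agent.P028.MathlibUsed
import Vale.Agent.P028.XDefs
import Vale.Agent.P028.FO1

/-!
# Block D2: two structures on one side give a good fraction
-/

namespace Vale.P028

open Finset

theorem xd2_frac (γ : ℝ) {m : ℕ} (hm : 0 < m) :
    ∃ (k : ℤ) (D : ℕ), 0 < D ∧ IsCoprime k (D : ℤ) ∧ D ∣ m ∧
      ((k : ℝ) / D = (round ((m : ℝ) * γ) : ℝ) / m) ∧ |γ - k / D| * m = distInt (m * γ) := by
  set k' := round ((m : ℝ) * γ) with hk'
  have hm0 : (m : ℤ) ≠ 0 := by exact_mod_cast hm.ne'
  have hmR : (0 : ℝ) < m := by exact_mod_cast hm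
  have hg0 : 0 < Int.gcd k' m := Int.gcd_pos_of_ne_zero_right _ hm0
  obtain ⟨g, hg⟩ : ∃ g : ℕ, g = Int.gcd k' m := ⟨_, rfl⟩
  rw [← hg] at hg0
  obtain ⟨k, hk⟩ : (g : ℤ) ∣ k' := by rw [hg]; exact Int.gcd_dvd_left k' (m : ℤ)
  obtain ⟨D, hD⟩ : g ∣ m := by
    have : (g : ℤ) ∣ (m : ℤ) := by rw [hg]; exact Int.gcd_dvd_right k' (m : ℤ)
    exact_mod_cast this
  have hD0 : 0 < D := by
    rcases Nat.eq_zero_or_pos D with h0 | h0
    · rw [h0, mul_zero] at hD; omega
    · exact h0
  have hgR : (0 : ℝ) < g := by exact_mod_cast hg0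
  have hDR : (0 : ℝ) < D := by exact_mod_cast hD0
  have e1 : (k : ℝ) / D = (k' : ℝ) / m := by
    rw [hk, hD]
    push_cast
    rw [mul_div_mul_left _ _ hgR.ne']
  refine ⟨k, D, hD0, ?_, ⟨g, by rw [hD]; ring⟩, e1, ?_⟩
  · have h1 : Int.gcd k' m = g * Int.gcd k D := by
      rw [hk, hD]
      push_cast
      rw [Int.gcd_mul_left, Int.natAbs_natCast]
    rw [← hg] at h1
    rw [Int.isCoprime_iff_gcd_eq_one]
    have h2 : g * Int.gcd k D = g * 1 := by rw [mul_one]; exact h1.symm
    exact Nat.eq_of_mul_eq_mul_left hg0 h2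
  · rw [e1]
    unfold distInt
    rw [← hk']
    nth_rw 2 [← abs_of_pos hmR]
    rw [← abs_mul]
    congr 1
    field_simp

theorem xd2_one {H s γ : ℝ} {a y z d : ℕ} (hH : 1 ≤ H) (ha : 0 < a) (hy : 0 < y)
    (hd : 0 < d) (hdH : (d : ℝ) ≤ H) (hyH : (y : ℝ) ≤ H ^ 2)
    (hX : distInt (d * (a * y * γ)) * z ≤ s * H ^ 2) :
    ∃ (k : ℤ) (D d : ℕ), 0 < D ∧ 0 < d ∧ (d : ℝ) ≤ H ∧ IsCoprime k (D : ℤ) ∧
      (D : ℝ) ≤ a * H ^ 3 ∧ D ∣ d * (a * y * z) ∧
      |γ - k / D| * (a * y * z : ℝ) ≤ s * H ^ 2 := by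
  have hH0 : 0 < H := by linarith only [hH]
  have hm : 0 < d * a * y := Nat.mul_pos (Nat.mul_pos hd ha) hy
  obtain ⟨k, D, hD0, hcop, hDm, -, hdist⟩ := xd2_frac γ hm
  have haR : (0 : ℝ) < a := by exact_mod_cast ha
  have hyR : (0 : ℝ) < y := by exact_mod_cast hy
  have hdR : (0 : ℝ) < d := by exact_mod_cast hd
  have hd1 : (1 : ℝ) ≤ d := by exact_mod_cast hd
  refine ⟨k, D, d, hD0, hd, hdH, hcop, ?_, ?_, ?_⟩
  · have h1 : (D : ℝ) ≤ ((d * a * y : ℕ) : ℝ) := by exact_mod_cast Nat.le_of_dvd hm hDm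
    refine h1.trans ?_
    push_cast
    calc (d : ℝ) * a * y ≤ H * a * H ^ 2 := by
          apply mul_le_mul _ hyH hyR.le (by positivity)
          exact mul_le_mul_of_nonneg_right hdH haR.le
      _ = a * H ^ 3 := by ring
  · refine hDm.trans ⟨z, by ring⟩
  · have h2 : |γ - k / D| * (a * y * z : ℝ) * d = distInt (d * (a * y * γ)) * z := by
      have e : (((d * a * y : ℕ) : ℝ)) * γ = d * (a * y * γ) := by push_cast; ring
      rw [e] at hdist
      rw [← hdist]
      push_cast
      ring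
    have h3 : 0 ≤ |γ - k / D| * (a * y * z : ℝ) := by positivity
    nlinarith only [h2, h3, hX, hd1]

theorem blkD2 : BlkD2 := by
  intro H s γ a x n hH hs hsH ha hx hn hxn hbig hX1 hX2
  have hH0 : 0 < H := by linarith only [hH]
  have haR : (0 : ℝ) < a := by exact_mod_cast ha
  have hxR : (0 : ℝ) < x := by exact_mod_cast hx
  have hnR : (0 : ℝ) < n := by exact_mod_cast hn
  rcases le_or_gt (n : ℝ) (H ^ 2) with hn2 | hn2
  · -- `n` is small
    have hx2 : ¬ (x : ℝ) ≤ H ^ 2 := by
      intro hx2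
      have : (x : ℝ) * n ≤ H ^ 2 * H ^ 2 := mul_le_mul hx2 hn2 hnR.le (by positivity)
      have e : H ^ 2 * H ^ 2 = H ^ 4 := by ring
      linarith only [this, e, hbig]
    rcases hX2 with h | ⟨d, hd, hdH, h⟩
    · exact absurd h hx2
    · obtain ⟨k, D, d', h1, h2, h3, h4, h5, h6, h7⟩ := xd2_one hH ha hn hd hdH hn2 h
      refine ⟨k, D, d', h1, h2, h3, h4, h5, ?_, ?_⟩
      · have e : a * x * n = a * n * x := by ring
        rw [e]; exact h6
      · have e : (a * x * n : ℝ) = a * n * x := by ring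
        rw [e]; exact h7
  · rcases hX1 with h | ⟨d, hd, hdH, h⟩
    · exact absurd h (not_le.mpr hn2)
    rcases le_or_gt (x : ℝ) (H ^ 2) with hx2 | hx2
    · exact xd2_one hH ha hx hd hdH hx2 h
    rcases hX2 with h' | ⟨d', hd', hdH', h'⟩
    · exact absurd h' (not_le.mpr hx2)
    -- both are structured
    have hm : 0 < d * a * x := Nat.mul_pos (Nat.mul_pos hd ha) hx
    have hm' : 0 < d' * a * n := Nat.mul_pos (Nat.mul_pos hd' ha) hn
    obtain ⟨k, D, hD0, hcop, hDm, hkD, hdist⟩ := xd2_frac γ hm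
    obtain ⟨k', D', hD0', hcop', hDm', hkD', hdist'⟩ := xd2_frac γ hm'
    have hdR : (0 : ℝ) < d := by exact_mod_cast hd
    have hd1 : (1 : ℝ) ≤ d := by exact_mod_cast hd
    have hdR' : (0 : ℝ) < d' := by exact_mod_cast hd'
    have hd1' : (1 : ℝ) ≤ d' := by exact_mod_cast hd'
    have hDR : (0 : ℝ) < D := by exact_mod_cast hD0
    have hDR' : (0 : ℝ) < D' := by exact_mod_cast hD0'
    have huR : (0 : ℝ) < a * x * n := by positivity
    have b1 : |γ - k / D| * (a * x * n : ℝ) ≤ s * H ^ 2 := by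
      have h2 : |γ - k / D| * (a * x * n : ℝ) * d = distInt (d * (a * x * γ)) * n := by
        have e : (((d * a * x : ℕ) : ℝ)) * γ = d * (a * x * γ) := by push_cast; ring
        rw [e] at hdist
        rw [← hdist]
        push_cast
        ring
      have h3 : 0 ≤ |γ - k / D| * (a * x * n : ℝ) := by positivity
      nlinarith only [h2, h3, h, hd1]
    have b2 : |γ - k' / D'| * (a * x * n : ℝ) ≤ s * H ^ 2 := by
      have h2 : |γ - k' / D'| * (a * x * n : ℝ) * d' = distInt (d' * (a * n * γ)) * x := by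
        have e : (((d' * a * n : ℕ) : ℝ)) * γ = d' * (a * n * γ) := by push_cast; ring
        rw [e] at hdist'
        rw [← hdist']
        push_cast
        ring
      have h3 : 0 ≤ |γ - k' / D'| * (a * x * n : ℝ) := by positivity
      nlinarith only [h2, h3, h', hd1']
    -- the two fractions coincide
    obtain ⟨e, he⟩ := hDm
    obtain ⟨e', he'⟩ := hDm'
    have hlc : ∃ z z' : ℕ, D * z = d * d' * (a * x * n) ∧ D' * z' = d * d' * (a * x * n) := by
      refine ⟨e * d' * n, e' * d * x, ?_, ?_⟩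
      · calc D * (e * d' * n) = (D * e) * d' * n := by ring
          _ = d * d' * (a * x * n) := by rw [← he]; ring
      · calc D' * (e' * d * x) = (D' * e') * d * x := by ring
          _ = d * d' * (a * x * n) := by rw [← he']; ring
    obtain ⟨z, z', hz, hz'⟩ := hlc
    have heq : (k : ℝ) / D = k' / D' := by
      by_contra hne
      have c1 : (k : ℝ) / D = (k * z) / (d * d' * (a * x * n)) := by
        have hzR : (D : ℝ) * z = d * d' * (a * x * n) := by exact_mod_cast hz
        rw [← hzR]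
        have hz0 : (z : ℝ) ≠ 0 := by
          intro h0
          rw [h0, mul_zero] at hzR
          have : (0 : ℝ) < d * d' * (a * x * n) := by positivity
          linarith only [this, hzR]
        rw [mul_div_mul_right _ _ hz0]
      have c2 : (k' : ℝ) / D' = (k' * z') / (d * d' * (a * x * n)) := by
        have hzR : (D' : ℝ) * z' = d * d' * (a * x * n) := by exact_mod_cast hz'
        rw [← hzR]
        have hz0 : (z' : ℝ) ≠ 0 := by
          intro h0
          rw [h0, mul_zero] at hzR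
          have : (0 : ℝ) < d * d' * (a * x * n) := by positivity
          linarith only [this, hzR]
        rw [mul_div_mul_right _ _ hz0]
      have hne2 : k * z - k' * z' ≠ 0 := by
        intro h0
        apply hne
        rw [c1, c2]
        congr 1
        have : k * (z : ℤ) = k' * z' := by linarith only [h0]
        exact_mod_cast this
      have h5 : (1 : ℝ) ≤ |((k * z - k' * z' : ℤ) : ℝ)| := by
        rw [← Int.cast_abs]
        exact_mod_cast Int.one_le_abs hne2
      have hdd : (0 : ℝ) < d * d' * (a * x * n) := by positivity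
      have h6 : |(k : ℝ) / D - k' / D'| * (d * d' * (a * x * n)) =
          |((k * z - k' * z' : ℤ) : ℝ)| := by
        rw [c1, c2, ← sub_div, abs_div, abs_of_pos hdd, div_mul_cancel₀ _ hdd.ne']
        push_cast
        rfl
      have h7 : |(k : ℝ) / D - k' / D'| ≤ |γ - k / D| + |γ - k' / D'| := by
        have : (k : ℝ) / D - k' / D' = (γ - k' / D') - (γ - k / D) := by ring
        rw [this]
        exact (abs_sub _ _).trans (le_of_eq (add_comm _ _))
      have h8 : |(k : ℝ) / D - k' / D'| * (a * x * n) ≤ 2 * (s * H ^ 2) := by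
        have := mul_le_mul_of_nonneg_right h7 huR.le
        linarith only [this, b1, b2]
      have h9 : |(k : ℝ) / D - k' / D'| * (d * d' * (a * x * n)) ≤ H * H * (2 * (s * H ^ 2)) := by
        have e3 : |(k : ℝ) / D - k' / D'| * (d * d' * (a * x * n)) =
            d * d' * (|(k : ℝ) / D - k' / D'| * (a * x * n)) := by ring
        rw [e3]
        apply mul_le_mul _ h8 (by positivity) (by positivity)
        exact mul_le_mul hdH hdH' hdR'.le hH0.le
      have e4 : H * H * (2 * (s * H ^ 2)) = 2 * (s * H ^ 4) := by ring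
      have e5 : 4 * (s * H ^ 4) ≤ 1 := by linarith only [hsH]
      linarith only [h5, h6, h9, e4, e5]
    -- hence the denominators coincide
    have hDD : D = D' := by
      have h0 : k * D' = k' * D := by
        have : (k : ℝ) * D' = k' * D := by
          rw [div_eq_div_iff hDR.ne' hDR'.ne'] at heq
          exact heq
        exact_mod_cast this
      have h1 : (D : ℤ) ∣ D' := by
        have : (D : ℤ) ∣ k * D' := ⟨k', by rw [h0]; ring⟩
        exact hcop.symm.dvd_of_dvd_mul_left this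
      have h2 : (D' : ℤ) ∣ D := by
        have : (D' : ℤ) ∣ k' * D := ⟨k, by rw [← h0]; ring⟩
        exact hcop'.symm.dvd_of_dvd_mul_left this
      exact Nat.dvd_antisymm (by exact_mod_cast h1) (by exact_mod_cast h2)
    have hDdd : D ∣ d * d' * a := by
      have h1 : D ∣ d * d' * a * x := ⟨e * d', by rw [← mul_assoc, ← he]; ring⟩
      have h2 : D ∣ d * d' * a * n := ⟨e' * d, by
        rw [hDD, ← mul_assoc, ← he']; ring⟩
      have h3 := Nat.dvd_gcd h1 h2
      rwa [Nat.gcd_mul_left, hxn, mul_one] at h3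
    refine ⟨k, D, d, hD0, hd, hdH, hcop, ?_, ?_, b1⟩
    · have h1 : (D : ℝ) ≤ ((d * d' * a : ℕ) : ℝ) := by
        exact_mod_cast Nat.le_of_dvd (Nat.mul_pos (Nat.mul_pos hd hd') ha) hDdd
      refine h1.trans ?_
      push_cast
      have h2 : (d : ℝ) * d' ≤ H * H := mul_le_mul hdH hdH' hdR'.le hH0.le
      have h3 : H * H ≤ H ^ 3 := by
        have : H * H * 1 ≤ H * H * H := mul_le_mul_of_nonneg_left hH (by positivity)
        linarith only [this, show H * H * H = H ^ 3 by ring]
      calc (d : ℝ) * d' * a ≤ H ^ 3 * a := mul_le_mul_of_nonneg_right (h2.trans h3) haR.le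
        _ = a * H ^ 3 := by ring
    · refine ⟨e * n, ?_⟩
      calc d * (a * x * n) = (d * a * x) * n := by ring
        _ = D * (e * n) := by rw [he]; ring

end Vale.P028
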