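import Vale.Agent.P028.MathlibUsed
import Vale.Agent.P028.XDefs
import Vale.Agent.P028.FO1

/-!
# Block D3: a good fraction with a small denominator excludes far pairs
-/

namespace Vale.P028

open Finset

/-- BLOCK D3 with the additional hypothesis `D H² ≤ 4 max(u,v)` (without it the statement of
`BlkD3` fails for `u = v = 1`). -/
def BlkD3' : Prop :=
  ∀ (H s γ : ℝ) (k : ℤ) (D u v : ℕ), 1 ≤ H → 0 < s → s ≤ 1 / 1000 → H ≤ s ^ (-(1 / 64) : ℝ) →
    0 < D → IsCoprime k (D : ℤ) → (D : ℝ) ≤ s ^ (-(1 / 8) : ℝ) → 0 < max u v →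
    (D : ℝ) * H ^ 2 ≤ 4 * max (u : ℝ) (v : ℝ) →
    |γ - k / D| * (max (u : ℝ) (v : ℝ)) ≤ s * H ^ 2 → ¬ Far γ s u v

theorem xd3_core (H s γ : ℝ) (k : ℤ) (D u v : ℕ) (hH : 1 ≤ H) (hs : 0 < s) (hs3 : s ≤ 1 / 1000)
    (hHs : H ≤ s ^ (-(1 / 64) : ℝ)) (hD : 0 < D) (hcop : IsCoprime k (D : ℤ))
    (hDs : (D : ℝ) ≤ s ^ (-(1 / 8) : ℝ)) (_hm : 0 < max u v)
    (hDm : (D : ℝ) * H ^ 2 ≤ 4 * max (u : ℝ) (v : ℝ))
    (hX : |γ - k / D| * (max (u : ℝ) (v : ℝ)) ≤ s * H ^ 2) : ¬ Far γ s u v := by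
  have hD0 : (0 : ℝ) < D := by exact_mod_cast hD
  have hD1 : (1 : ℝ) ≤ D := by exact_mod_cast hD
  have hH0 : 0 < H := by linarith only [hH]
  have hH2 : 0 < H ^ 2 := by positivity
  obtain ⟨M, hM⟩ : ∃ M : ℝ, M = max (u : ℝ) (v : ℝ) := ⟨_, rfl⟩
  rw [← hM] at hDm hX
  have hM0 : 0 < M := by nlinarith only [hDm, hD0, hH2, mul_pos hD0 hH2]
  have hs1 : s ≤ 1 := by linarith only [hs3]
  have hsq : s ^ (1 / 2 : ℝ) ≤ 1 / 31 := by
    rw [← Real.sqrt_eq_rpow]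
    rw [Real.sqrt_le_left (by norm_num)]
    norm_num
    linarith only [hs3]
  -- the main size bounds
  have hDH : (D : ℝ) * (s * H ^ 2) ≤ 1 / 31 := by
    have h1 : H ^ 2 ≤ s ^ (-(1 / 32) : ℝ) := by
      calc H ^ 2 ≤ (s ^ (-(1 / 64) : ℝ)) ^ 2 := pow_le_pow_left₀ hH0.le hHs 2
        _ = s ^ (-(1 / 32) : ℝ) := by
          rw [← Real.rpow_natCast, ← Real.rpow_mul hs.le]; norm_num
    have h2 : (D : ℝ) * (s * H ^ 2) ≤ s ^ (-(1 / 8) : ℝ) * (s * s ^ (-(1 / 32) : ℝ)) :=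
      mul_le_mul hDs (mul_le_mul_of_nonneg_left h1 hs.le) (by positivity) (by positivity)
    have h3 : s ^ (-(1 / 8) : ℝ) * (s * s ^ (-(1 / 32) : ℝ)) = s ^ (27 / 32 : ℝ) := by
      have e1 : s * s ^ (-(1 / 32) : ℝ) = s ^ (1 : ℝ) * s ^ (-(1 / 32) : ℝ) := by rw [Real.rpow_one]
      rw [e1, ← Real.rpow_add hs, ← Real.rpow_add hs]; norm_num
    have h4 : s ^ (27 / 32 : ℝ) ≤ s ^ (1 / 2 : ℝ) :=
      Real.rpow_le_rpow_of_exponent_ge hs hs1 (by norm_num)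
    linarith only [h2, h3, h4, hsq]
  have hDs' : (D : ℝ) * s ≤ 1 / 31 := by
    have : (D : ℝ) * s ≤ D * (s * H ^ 2) := by
      apply mul_le_mul_of_nonneg_left _ hD0.le
      exact le_mul_of_one_le_right hs.le (one_le_pow₀ hH)
    linarith only [this, hDH]
  have habs : (D : ℝ) * |γ - k / D| ≤ 4 * s := by
    have h1 : (D : ℝ) * |γ - k / D| * M ≤ 4 * s * M := by
      calc (D : ℝ) * |γ - k / D| * M = D * (|γ - k / D| * M) := by ring
        _ ≤ D * (s * H ^ 2) := mul_le_mul_of_nonneg_left hX hD0.le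
        _ = s * (D * H ^ 2) := by ring
        _ ≤ s * (4 * M) := mul_le_mul_of_nonneg_left hDm hs.le
        _ = 4 * s * M := by ring
    exact le_of_mul_le_mul_right h1 hM0
  have eDk : |(D : ℝ) * γ - k| = D * |γ - k / D| := by
    nth_rw 2 [← abs_of_pos hD0]
    rw [← abs_mul]
    congr 1
    field_simp
  have hex : ∃ h : ℕ, 0 < h ∧ distInt (h * γ) ≤ 4 * s := by
    refine ⟨D, hD, ?_⟩
    refine (distInt_le_abs_sub _ k).trans ?_
    rw [eDk]
    exact habs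
  classical
  set B := Nat.find hex with hB
  obtain ⟨hB0, hB4⟩ := Nat.find_spec hex
  rw [← hB] at hB0 hB4
  have hBD : B ≤ D := by
    apply Nat.find_min'
    refine ⟨hD, ?_⟩
    refine (distInt_le_abs_sub _ k).trans ?_
    rw [eDk]
    exact habs
  have hBR : (0 : ℝ) < B := by exact_mod_cast hB0
  have hBDR : (B : ℝ) ≤ D := by exact_mod_cast hBD
  have hFirst : First γ s B := by
    refine ⟨hB0, hB4, ?_⟩
    intro h hh0 hhB
    have := Nat.find_min hex hhB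
    push Not at this
    exact this hh0
  have hB4s : (B : ℝ) ^ 4 * s ≤ 1 := by
    have h1 : (B : ℝ) ^ 4 ≤ (s ^ (-(1 / 8) : ℝ)) ^ 4 :=
      pow_le_pow_left₀ hBR.le (hBDR.trans hDs) 4
    have h2 : (s ^ (-(1 / 8) : ℝ)) ^ 4 = s ^ (-(1 / 2) : ℝ) := by
      rw [← Real.rpow_natCast, ← Real.rpow_mul hs.le]; norm_num
    have h3 : s ^ (-(1 / 2) : ℝ) * s = s ^ (1 / 2 : ℝ) := by
      nth_rw 2 [← Real.rpow_one s]
      rw [← Real.rpow_add hs]; norm_num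
    have h4 : (B : ℝ) ^ 4 * s ≤ s ^ (-(1 / 2) : ℝ) * s := by
      rw [h2] at h1
      exact mul_le_mul_of_nonneg_right h1 hs.le
    linarith only [h3, h4, hsq]
  intro hFar
  have hF := hFar B ⟨hFirst, hB4s⟩
  rw [← hM] at hF
  set A := round ((B : ℝ) * γ) with hA
  have hdB : distInt (B * γ) = |(B : ℝ) * γ - A| := rfl
  by_cases heq : A * D = k * B
  · have h6 : (D : ℤ) ∣ B := by
      have : (D : ℤ) ∣ k * B := ⟨A, by rw [← heq]; ring⟩
      exact hcop.symm.dvd_of_dvd_mul_left this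
    have h7 : D ∣ B := by exact_mod_cast h6
    have h8 : B = D := le_antisymm hBD (Nat.le_of_dvd hB0 h7)
    have h9 : A = k := by
      rw [h8] at heq
      exact mul_right_cancel₀ (by exact_mod_cast hD.ne') heq
    have h10 : distInt (B * γ) = D * |γ - k / D| := by
      rw [hdB, h9, h8]
      exact eDk
    rw [h10] at hF
    have h11 : 4 * ((D : ℝ) * |γ - k / D|) * M = 4 * (D * (|γ - k / D| * M)) := by ring
    have h12 : (D : ℝ) * (|γ - k / D| * M) ≤ D * (s * H ^ 2) :=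
      mul_le_mul_of_nonneg_left hX hD0.le
    linarith only [hF, h11, h12, hDH]
  · have h5 : (1 : ℝ) ≤ |((A * D - k * B : ℤ) : ℝ)| := by
      rw [← Int.cast_abs]
      exact_mod_cast Int.one_le_abs (sub_ne_zero.mpr heq)
    have h6 : |((A * D - k * B : ℤ) : ℝ)| ≤ D * |(B : ℝ) * γ - A| + B * |(D : ℝ) * γ - k| := by
      have e : ((A * D - k * B : ℤ) : ℝ) = B * ((D : ℝ) * γ - k) - D * ((B : ℝ) * γ - A) := by
        push_cast; ring
      rw [e]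
      calc |(B : ℝ) * ((D : ℝ) * γ - k) - D * ((B : ℝ) * γ - A)|
          ≤ |(B : ℝ) * ((D : ℝ) * γ - k)| + |(D : ℝ) * ((B : ℝ) * γ - A)| := abs_sub _ _
        _ = D * |(B : ℝ) * γ - A| + B * |(D : ℝ) * γ - k| := by
            rw [abs_mul, abs_mul, abs_of_pos hBR, abs_of_pos hD0]; ring
    rw [← hdB, eDk] at h6
    have h7 : (D : ℝ) * distInt (B * γ) ≤ D * (4 * s) := mul_le_mul_of_nonneg_left hB4 hD0.le
    have h8 : (B : ℝ) * (D * |γ - k / D|) ≤ D * (4 * s) :=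
      mul_le_mul hBDR habs (by positivity) hD0.le
    linarith only [h5, h6, h7, h8, hDs']

theorem blkD3' : BlkD3' :=
  fun H s γ k D u v h1 h2 h3 h4 h5 h6 h7 h8 h9 h10 =>
    xd3_core H s γ k D u v h1 h2 h3 h4 h5 h6 h7 h8 h9 h10

end Vale.P028
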