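import Vale.Agent.P028.MathlibUsed
import Vale.Agent.P028.XDefs
import Vale.Agent.P028.XD3
import Vale.Agent.P028.MTheoremL

/-!
# Block G, part 2: the base case of the second near part
-/

namespace Vale.P028

open Finset

theorem xg_distInt_neg_le (x : ℝ) : distInt (-x) ≤ distInt x := by
  unfold distInt
  have h := round_le (-x) (-round x)
  refine h.trans (le_of_eq ?_)
  push_cast
  rw [show -x - -((round x : ℤ) : ℝ) = -(x - (round x : ℤ)) by ring, abs_neg]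

theorem xg_distInt_neg (x : ℝ) : distInt (-x) = distInt x := by
  apply le_antisymm (xg_distInt_neg_le x)
  have := xg_distInt_neg_le (-x)
  rwa [neg_neg] at this

theorem xg_Far_symm {γ s : ℝ} {u v : ℕ} (h : Far γ s u v) : Far γ s v u := by
  intro B hB
  rw [max_comm]
  exact h B hB

/-- The admissible pairs of cofactors. -/
def XAdm (γ s H L Z : ℝ) (u v : ℕ) : Prop :=
  Far γ s u v ∧ L < max (u : ℝ) (v : ℝ) ∧
  ∀ (k : ℤ) (D d : ℕ), 0 < D → 0 < d → (d : ℝ) ≤ H → IsCoprime k (D : ℤ) →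
    s ^ (-(1 / 8) : ℝ) < D → (D : ℝ) ≤ Z * H ^ 3 →
    |γ - k / D| * max (u : ℝ) (v : ℝ) ≤ s * H ^ 2 → ¬ D ∣ d * u ∧ ¬ D ∣ d * v

theorem XAdm.symm {γ s H L Z : ℝ} {u v : ℕ} (h : XAdm γ s H L Z u v) : XAdm γ s H L Z v u := by
  obtain ⟨h1, h2, h3⟩ := h
  refine ⟨xg_Far_symm h1, by rwa [max_comm], ?_⟩
  intro k D d hD hd hdH hk hDl hDu hmax
  rw [max_comm] at hmax
  exact (h3 k D d hD hd hdH hk hDl hDu hmax).symm

/-- at the maximal vertex the second structure is impossible -/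
theorem xg_vertex (hD2 : BlkD2) (hD3 : BlkD3') {γ s H L Z : ℝ} {a x n v : ℕ} (hH : 1 ≤ H)
    (hs : 0 < s) (hs3 : s ≤ 1 / 1000) (hHs : H ≤ s ^ (-(1 / 64) : ℝ)) (h4 : 4 * s * H ^ 4 ≤ 1)
    (hLZ : Z * H ^ 5 ≤ L) (ha : 0 < a) (haZ : (a : ℝ) ≤ Z) (hx : 0 < x) (hn : 0 < n)
    (hcop : Nat.Coprime x n) (hadm : XAdm γ s H L Z (a * x * n) v) (hle : v ≤ a * x * n)
    (h1 : XStr H s (a * x * γ) n) : ¬ XStr H s (a * n * γ) x := by
  intro h2
  obtain ⟨hfar, hL, hsp⟩ := hadm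
  have ha0 : (0 : ℝ) < a := by exact_mod_cast ha
  have hle' : (v : ℝ) ≤ ((a * x * n : ℕ) : ℝ) := by exact_mod_cast hle
  rw [max_eq_left hle'] at hL
  have hZ0 : 0 < Z := ha0.trans_le haZ
  have hZ5 : Z * H ^ 4 ≤ Z * H ^ 5 :=
    mul_le_mul_of_nonneg_left (pow_le_pow_right₀ hH (by norm_num)) hZ0.le
  have hxn : H ^ 4 < (x : ℝ) * n := by
    by_contra hcon
    push Not at hcon
    have e1 : ((a * x * n : ℕ) : ℝ) = a * ((x : ℝ) * n) := by push_cast; ring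
    have hH4 : (0 : ℝ) ≤ H ^ 4 := by positivity
    have e2 : (a : ℝ) * ((x : ℝ) * n) ≤ Z * H ^ 4 :=
      mul_le_mul haZ hcon (by positivity) (ha0.le.trans haZ)
    linarith only [e1, e2, hL, hLZ, hZ5]
  obtain ⟨k, D, d, hD, hd, hdH, hk, hDle, hdvd, habs⟩ :=
    hD2 H s γ a x n hH hs h4 ha hx hn hcop hxn h1 h2
  have hmaxeq : max (((a * x * n : ℕ) : ℝ)) (v : ℝ) = ((a * x * n : ℕ) : ℝ) := max_eq_left hle'
  have habs' : |γ - k / D| * max (((a * x * n : ℕ) : ℝ)) (v : ℝ) ≤ s * H ^ 2 := by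
    rw [hmaxeq]
    push_cast
    exact habs
  by_cases hDs : (D : ℝ) ≤ s ^ (-(1 / 8) : ℝ)
  · refine hD3 H s γ k D (a * x * n) v hH hs hs3 hHs hD hk hDs ?_ ?_ habs' hfar
    · exact lt_of_lt_of_le (Nat.mul_pos (Nat.mul_pos ha hx) hn) (le_max_left _ _)
    · rw [hmaxeq]
      have e3 : (D : ℝ) ≤ Z * H ^ 3 := hDle.trans (mul_le_mul_of_nonneg_right haZ (by positivity))
      have e4 : (D : ℝ) * H ^ 2 ≤ Z * H ^ 3 * H ^ 2 :=
        mul_le_mul_of_nonneg_right e3 (by positivity)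
      have e5 : Z * H ^ 3 * H ^ 2 = Z * H ^ 5 := by ring
      have e6 : 0 < Z * H ^ 5 := by positivity
      linarith only [e4, e5, e6, hL, hLZ]
  · push Not at hDs
    refine (hsp k D d hD hd hdH hk hDs ?_ habs').1 hdvd
    exact hDle.trans (mul_le_mul_of_nonneg_right haZ (by positivity))

section averages

open Classical in
theorem xg_wsum_nonneg (hF0 : BlkF0) (X x₀ : ℕ) (P : ℕ → ℕ → Prop) :
    0 ≤ ∑ x ∈ Icc 1 x₀, ∑ m ∈ X.divisors, (if P x m then wdv X m else 0) := by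
  refine sum_nonneg fun x _ => sum_nonneg fun m _ => ?_
  split_ifs
  · exact hF0.1 X m
  · exact le_refl _

open Classical in
theorem xg_avg_row (X x₀ : ℕ) (P : ℕ → ℕ → Prop) (B : ℝ)
    (h : ∀ x ∈ Icc 1 x₀, ∑ m ∈ X.divisors, (if P x m then wdv X m else 0) ≤ B) :
    ∑ x ∈ Icc 1 x₀, ∑ m ∈ X.divisors, (if P x m then wdv X m else 0) ≤ B * x₀ := by
  refine (sum_le_sum h).trans (le_of_eq ?_)
  rw [sum_const, Nat.card_Icc, Nat.add_sub_cancel, nsmul_eq_mul, mul_comm]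

open Classical in
theorem xg_avg_triv (hF0 : BlkF0) {X : ℕ} (hX : 0 < X) (x₀ : ℕ) (P : ℕ → ℕ → Prop) :
    ∑ x ∈ Icc 1 x₀, ∑ m ∈ X.divisors, (if P x m then wdv X m else 0) ≤ x₀ := by
  have h := xg_avg_row X x₀ P 1 (fun x _ => by
    rw [← hF0.2.2.1 X hX]
    refine sum_le_sum fun m _ => ?_
    split_ifs
    · exact le_refl _
    · exact hF0.1 X m)
  rwa [one_mul] at h

open Classical in
theorem xg_avg_E {s α W B H : ℝ} {X x₀ : ℕ} (hE : ∀ β : ℝ,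
      ∑ n ∈ X.divisors.filter (fun n : ℕ => (n : ℝ) ≤ W ∧ distInt (n * α - β) < 2 * s ∧
        ¬ XStr H s α n), wdv X n ≤ B) (hF0 : BlkF0) (P : ℕ → ℕ → Prop) (β : ℕ → ℝ)
    (hP : ∀ x ∈ Icc 1 x₀, ∀ m ∈ X.divisors, P x m → (m : ℝ) ≤ W ∧
      distInt (m * α - β x) < 2 * s ∧ ¬ XStr H s α m) :
    ∑ x ∈ Icc 1 x₀, ∑ m ∈ X.divisors, (if P x m then wdv X m else 0) ≤ B * x₀ := by
  refine xg_avg_row X x₀ P B fun x hx => ?_
  refine le_trans ?_ (hE (β x))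
  rw [sum_filter]
  refine sum_le_sum fun m hm => ?_
  by_cases hPm : P x m
  · rw [if_pos hPm, if_pos (hP x hx m hm hPm)]
  · rw [if_neg hPm]
    split_ifs
    · exact hF0.1 X m
    · exact le_refl _

open Classical in
theorem xg_avg_D {s α B : ℝ} {X x₀ : ℕ} (hX : 0 < X) (_hB : 0 ≤ B) (hD : ∀ β : ℝ,
      (((Icc 1 x₀).filter (fun n : ℕ => distInt (n * α - β) < 2 * s)).card : ℝ) ≤ B * x₀)
    (hF0 : BlkF0) (P : ℕ → ℕ → Prop) (β : ℕ → ℝ)
    (hP : ∀ x ∈ Icc 1 x₀, ∀ m ∈ X.divisors, P x m → distInt (x * α - β m) < 2 * s) :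
    ∑ x ∈ Icc 1 x₀, ∑ m ∈ X.divisors, (if P x m then wdv X m else 0) ≤ B * x₀ := by
  rw [sum_comm]
  have h1 : ∀ m ∈ X.divisors, ∑ x ∈ Icc 1 x₀, (if P x m then wdv X m else 0) ≤
      wdv X m * (B * x₀) := by
    intro m hm
    have h2 : ∑ x ∈ Icc 1 x₀, (if P x m then wdv X m else 0) ≤
        ∑ x ∈ Icc 1 x₀, (if distInt (x * α - β m) < 2 * s then wdv X m else 0) := by
      refine sum_le_sum fun x hx => ?_
      by_cases hPm : P x m
      · rw [if_pos hPm, if_pos (hP x hx m hm hPm)]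
      · rw [if_neg hPm]
        split_ifs
        · exact hF0.1 X m
        · exact le_refl _
    refine h2.trans ?_
    rw [← sum_filter, sum_const, nsmul_eq_mul, mul_comm]
    exact mul_le_mul_of_nonneg_left (hD (β m)) (hF0.1 X m)
  refine (sum_le_sum h1).trans ?_
  rw [← sum_mul, hF0.2.2.1 X hX, one_mul]

end averages

theorem xg_psum_or {R R₁ R₂ R₃ : ℕ → ℕ → Prop} {N : ℕ} {f h : ℕ → ℝ} (hf : ∀ q, 0 ≤ f q)
    (hh : ∀ q, 0 ≤ h q) (hR : ∀ q ∈ Icc 1 N, ∀ r ∈ Icc 1 N, R q r → R₁ q r ∨ R₂ q r ∨ R₃ q r) :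
    psum R N f h ≤ psum R₁ N f h + psum R₂ N f h + psum R₃ N f h := by
  classical
  unfold psum
  rw [← sum_add_distrib, ← sum_add_distrib]
  refine sum_le_sum fun q hq => ?_
  rw [← sum_add_distrib, ← sum_add_distrib]
  refine sum_le_sum fun r hr => ?_
  have h0 : 0 ≤ f q * h r := mul_nonneg (hf q) (hh r)
  by_cases h1 : R q r
  · rw [if_pos h1]
    rcases hR q hq r hr h1 with h2 | h2 | h2
    · rw [if_pos h2]; split_ifs <;> linarith only [h0]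
    · rw [if_pos h2]; split_ifs <;> linarith only [h0]
    · rw [if_pos h2]; split_ifs <;> linarith only [h0]
  · rw [if_neg h1]; split_ifs <;> linarith only [h0]

theorem xe_pos {E : Finset ℕ} {N : ℕ} (hE : E ⊆ prN N) (i j : ℕ → ℕ) : 0 < xe E i j := by
  refine prod_pos fun p hp => ?_
  have : p.Prime := (mem_filter.1 (hE hp)).2
  exact pow_pos this.pos _

theorem xc_pos {Q : Finset ℕ} {N : ℕ} (hQ : Q ⊆ prN N) (k : ℕ → ℕ) : 0 < xc Q k := by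
  refine prod_pos fun p hp => ?_
  have : p.Prime := (mem_filter.1 (hQ hp)).2
  exact pow_pos this.pos _

theorem xp_pos {Q : Finset ℕ} {N : ℕ} (hQ : Q ⊆ prN N) (k : ℕ → ℕ) (q : ℕ) : 0 < xp Q k q := by
  refine prod_pos fun p hp => ?_
  have : p.Prime := (mem_filter.1 (hQ hp)).2
  exact pow_pos this.pos _

/-- the common part of the conditions on the quadruples -/
def XOm (γ s H L Z W : ℝ) (a b : ℕ) (x m y n : ℕ) : Prop :=
  distInt (((a * x * n : ℕ) : ℝ) * γ - ((b * y * m : ℕ) : ℝ) * γ) < 2 * s ∧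
  XAdm γ s H L Z (a * x * n) (b * y * m) ∧
  ((a * x * n : ℕ) : ℝ) ≤ W ∧ ((b * y * m : ℕ) : ℝ) ≤ W ∧ Nat.Coprime x n ∧ Nat.Coprime y m

/-- **The base case.** -/
theorem xg_base (hC1 : BlkC1) (hC2 : BlkC2) (hD1 : BlkD1) (hD2 : BlkD2) (hD3 : BlkD3')
    (hE : BlkE) (hF0 : BlkF0) :
    ∃ ε c C : ℝ, 0 < ε ∧ 0 < c ∧ 0 < C ∧ ∀ (θ : ℝ), 1 / 2 < θ → θ < 1 → ∀ (γ s L Z : ℝ),
      0 < s → s ≤ 1 / 1000 → Z * (s ^ (-(1 / 64) : ℝ)) ^ 5 ≤ L → ∀ (N : ℕ) (ψ : ℕ → ℝ),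
      (∀ q, 0 ≤ ψ q) → ∀ (R : ℕ → ℕ → Prop),
      (∀ q r, R q r → Rel γ ψ s q r ∧
        XAdm γ s (s ^ (-(1 / 64) : ℝ)) L Z (cofac q r) (cofac r q) ∧
        (cofac q r : ℝ) ≤ Real.exp (Real.exp (s ^ (-ε))) ∧
        (cofac r q : ℝ) ≤ Real.exp (Real.exp (s ^ (-ε)))) →
      ∀ E ⊆ prN N, ∀ (i j k : ℕ → ℕ) (f h : ℕ → ℝ),
      (∀ q, 0 ≤ f q ∧ f q ≤ ψ q * (q.totient / q)) →
      (∀ q, 0 ≤ h q ∧ h q ≤ ψ q * (q.totient / q)) →
      (xe E i j : ℝ) * (xe E j i : ℝ) ≤ Z →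
      psum (XCell R (prN N) E i j k) N f h ≤
        3 * ((16 * s * s * (C * s ^ c) / ((xe E i j : ℝ) * (xe E j i : ℝ))) ^ (1 - θ) *
          ((∑ q ∈ Icc 1 N, f q) * ∑ r ∈ Icc 1 N, h r) ^ θ) := by
  classical
  obtain ⟨ε, cE, CE, hε, hcE, hCE, hE⟩ := hE
  obtain ⟨C₁, hC₁, hD1⟩ := hD1
  refine ⟨ε, min cE (1 / 64), max CE (2 * C₁), hε, lt_min hcE (by norm_num),
    lt_max_of_lt_left hCE, ?_⟩
  intro θ hθ hθ1 γ s L Z hs hs3 hLZ N ψ hψ R hR E hEN i j k f h hf hh hab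
  set c : ℝ := min cE (1 / 64) with hcdef
  set C : ℝ := max CE (2 * C₁) with hCdef
  set H : ℝ := s ^ (-(1 / 64) : ℝ) with hHdef
  set W : ℝ := Real.exp (Real.exp (s ^ (-ε))) with hWdef
  have hs1 : s ≤ 1 := by linarith only [hs3]
  have hH1 : 1 ≤ H := Real.one_le_rpow_of_pos_of_le_one_of_nonpos hs hs1 (by norm_num)
  have hH0 : 0 < H := by linarith only [hH1]
  have h4 : 4 * s * H ^ 4 ≤ 1 := by
    have e1 : H ^ 4 = s ^ (-(1 / 16) : ℝ) := by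
      rw [hHdef, ← Real.rpow_natCast, ← Real.rpow_mul hs.le]
      norm_num
    have e2 : s * s ^ (-(1 / 16) : ℝ) = s ^ (15 / 16 : ℝ) := by
      nth_rewrite 1 [← Real.rpow_one s]
      rw [← Real.rpow_add hs]
      norm_num
    have e3 : s ^ (15 / 16 : ℝ) ≤ s ^ (1 / 2 : ℝ) :=
      Real.rpow_le_rpow_of_exponent_ge hs hs1 (by norm_num)
    have e4 : s ^ (1 / 2 : ℝ) ≤ 1 / 4 := by
      rw [← Real.sqrt_eq_rpow]
      rw [Real.sqrt_le_left (by norm_num)]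
      linarith only [hs3]
    rw [e1, mul_assoc, e2]
    linarith only [e3, e4]
  obtain ⟨a, ha⟩ : ∃ a, a = xe E i j := ⟨_, rfl⟩
  obtain ⟨b, hb⟩ : ∃ b, b = xe E j i := ⟨_, rfl⟩
  have ha0 : 0 < a := ha ▸ xe_pos hEN i j
  have hb0 : 0 < b := hb ▸ xe_pos hEN j i
  have ha1 : (1 : ℝ) ≤ a := by exact_mod_cast ha0
  have hb1 : (1 : ℝ) ≤ b := by exact_mod_cast hb0
  rw [← ha, ← hb] at hab ⊢
  have haZ : (a : ℝ) ≤ Z := by nlinarith only [hab, ha1, hb1]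
  have hbZ : (b : ℝ) ≤ Z := by nlinarith only [hab, ha1, hb1]
  obtain ⟨Q, hQ⟩ : ∃ Q, Q = prN N \ E := ⟨_, rfl⟩
  have hQN : Q ⊆ prN N := hQ ▸ sdiff_subset
  obtain ⟨X, hX⟩ : ∃ X, X = xc Q k := ⟨_, rfl⟩
  have hX0 : 0 < X := hX ▸ xc_pos hQN k
  -- sizes of the two savings
  have hsc0 : 0 ≤ s ^ c := Real.rpow_nonneg hs.le _
  have hδE : CE * s ^ cE ≤ C * s ^ c := by
    apply mul_le_mul (le_max_left _ _) _ (Real.rpow_nonneg hs.le _)
      (hCE.le.trans (le_max_left _ _))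
    exact Real.rpow_le_rpow_of_exponent_ge hs hs1 (min_le_left _ _)
  have hδD : C₁ * (s + 1 / H) ≤ C * s ^ c := by
    have e1 : 1 / H = s ^ (1 / 64 : ℝ) := by
      rw [hHdef, Real.rpow_neg hs.le, one_div, inv_inv]
    have e2 : s ≤ s ^ (1 / 64 : ℝ) := by
      nth_rewrite 1 [← Real.rpow_one s]
      exact Real.rpow_le_rpow_of_exponent_ge hs hs1 (by norm_num)
    have e3 : s ^ (1 / 64 : ℝ) ≤ s ^ c :=
      Real.rpow_le_rpow_of_exponent_ge hs hs1 (min_le_right _ _)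
    have e4 : 2 * C₁ ≤ C := le_max_right _ _
    have e5 : 0 ≤ s ^ (1 / 64 : ℝ) := Real.rpow_nonneg hs.le _
    calc C₁ * (s + 1 / H) ≤ C₁ * (s ^ (1 / 64 : ℝ) + s ^ (1 / 64 : ℝ)) := by
          rw [e1]
          exact mul_le_mul_of_nonneg_left (by linarith only [e2]) hC₁.le
      _ = 2 * C₁ * s ^ (1 / 64 : ℝ) := by ring
      _ ≤ C * s ^ c := mul_le_mul e4 e3 e5 (by linarith only [e4, hC₁])
  have hδ0 : 0 ≤ C * s ^ c := mul_nonneg (hCE.le.trans (le_max_left _ _)) hsc0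
  -- facts on the cell
  have hfact : ∀ q ∈ Icc 1 N, ∀ r ∈ Icc 1 N, XCell R (prN N) E i j k q r →
      (cofac r q : ℝ) * ψ q ≤ s ∧ (cofac q r : ℝ) * ψ r ≤ s ∧
      XOm γ s H L Z W a b (xp Q k q) (xm Q k q) (xp Q k r) (xm Q k r) := by
    intro q hq r hr hc
    obtain ⟨hrel, hadm, hs1', hs2'⟩ := hR q r hc.1
    obtain ⟨e1, e2, -, -, e3, -, -⟩ := hC1 N E hEN i j k R q r hq hr hc
    rw [← hQ, ← ha] at e1
    rw [← hQ, ← hb] at e2
    rw [← hQ] at e3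
    rw [e1] at hs1'
    rw [e2] at hs2'
    rw [e1, e2] at hadm
    obtain ⟨-, g1, g2, g3⟩ := hrel
    rw [e1, e2, sub_mul] at g3
    refine ⟨g1, g2, g3, hadm, hs1', hs2', ?_, ?_⟩
    · exact Nat.Coprime.coprime_dvd_left (Dvd.intro _ rfl)
        (Nat.Coprime.coprime_dvd_right (Dvd.intro_left _ rfl) e3)
    · exact (Nat.Coprime.coprime_dvd_left (Dvd.intro_left _ rfl)
        (Nat.Coprime.coprime_dvd_right (Dvd.intro _ rfl) e3)).symm
  -- the three classes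
  set R₁ : ℕ → ℕ → Prop := fun q r => R q r ∧ ¬ XStr H s (a * xp Q k q * γ) (xm Q k r) with hR₁
  set R₂ : ℕ → ℕ → Prop := fun q r => R q r ∧ ¬ XStr H s (b * xp Q k r * γ) (xm Q k q) with hR₂
  set R₃ : ℕ → ℕ → Prop := fun q r => R q r ∧ XStr H s (a * xp Q k q * γ) (xm Q k r) ∧
    XStr H s (b * xp Q k r * γ) (xm Q k q) with hR₃
  have hsplit : psum (XCell R (prN N) E i j k) N f h ≤
      psum (XCell R₁ (prN N) E i j k) N f h + psum (XCell R₂ (prN N) E i j k) N f h +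
        psum (XCell R₃ (prN N) E i j k) N f h := by
    apply xg_psum_or (fun q => (hf q).1) (fun q => (hh q).1)
    rintro q - r - ⟨g1, g2⟩
    by_cases g3 : XStr H s (a * xp Q k q * γ) (xm Q k r)
    · by_cases g4 : XStr H s (b * xp Q k r * γ) (xm Q k q)
      · exact Or.inr (Or.inr ⟨⟨g1, g3, g4⟩, g2⟩)
      · exact Or.inr (Or.inl ⟨⟨g1, g4⟩, g2⟩)
    · exact Or.inl ⟨⟨g1, g3⟩, g2⟩
  -- class I
  have hI : psum (XCell R₁ (prN N) E i j k) N f h ≤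
      (16 * s * s * (C * s ^ c) / ((a : ℝ) * b)) ^ (1 - θ) *
        ((∑ q ∈ Icc 1 N, f q) * ∑ r ∈ Icc 1 N, h r) ^ θ := by
    have := hC2 θ hθ hθ1 N E hEN i j k R₁
      (fun x m y n => XOm γ s H L Z W a b x m y n ∧ ¬ XStr H s (a * x * γ) n)
      ψ ψ f h s s (C * s ^ c) hs hs hδ0 hψ hψ hf hh ?_ ?_
    · rw [← ha, ← hb] at this
      exact this
    · rintro q hq r hr ⟨⟨g1, g2⟩, g3⟩
      obtain ⟨g4, g5, g6⟩ := hfact q hq r hr ⟨g1, g3⟩
      rw [← hQ]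
      exact ⟨g4, g5, g6, g2⟩
    · intro x₀ m₀ y₀ n₀ hx₀ hy₀ hm₀ hn₀ hΩ
      rw [← hQ, ← hX]
      have t1 := xg_avg_triv hF0 hX0 x₀ (fun x m =>
        XOm γ s H L Z W a b x m y₀ n₀ ∧ ¬ XStr H s (a * x * γ) n₀)
      have t2 := xg_avg_E (s := s) (α := a * x₀ * γ) (W := W) (B := CE * s ^ cE) (H := H)
        (X := X) (x₀ := y₀) (fun β => hE s (a * x₀ * γ) β X hs hs3 hX0) hF0
        (fun y n => XOm γ s H L Z W a b x₀ m₀ y n ∧ ¬ XStr H s (a * x₀ * γ) n)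
        (fun y => ((b * y * m₀ : ℕ) : ℝ) * γ) (by
          rintro y - n hn ⟨g1, g2⟩
          obtain ⟨g3, -, g4, -⟩ := g1
          refine ⟨le_trans ?_ g4, ?_, g2⟩
          · have : n ≤ a * x₀ * n := Nat.le_mul_of_pos_left n (Nat.mul_pos ha0 hx₀)
            exact_mod_cast this
          · have e : (n : ℝ) * (a * x₀ * γ) = ((a * x₀ * n : ℕ) : ℝ) * γ := by
              push_cast; ring
            rw [e]
            exact g3)
      have t0 := xg_wsum_nonneg hF0 X y₀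
        (fun y n => XOm γ s H L Z W a b x₀ m₀ y n ∧ ¬ XStr H s (a * x₀ * γ) n)
      calc _ ≤ (x₀ : ℝ) * (CE * s ^ cE * y₀) := mul_le_mul t1 t2 t0 (Nat.cast_nonneg _)
        _ = (CE * s ^ cE) * x₀ * y₀ := by ring
        _ ≤ (C * s ^ c) * x₀ * y₀ := by
          apply mul_le_mul_of_nonneg_right _ (Nat.cast_nonneg _)
          exact mul_le_mul_of_nonneg_right hδE (Nat.cast_nonneg _)
  -- class II
  have hII : psum (XCell R₂ (prN N) E i j k) N f h ≤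
      (16 * s * s * (C * s ^ c) / ((a : ℝ) * b)) ^ (1 - θ) *
        ((∑ q ∈ Icc 1 N, f q) * ∑ r ∈ Icc 1 N, h r) ^ θ := by
    have := hC2 θ hθ hθ1 N E hEN i j k R₂
      (fun x m y n => XOm γ s H L Z W a b x m y n ∧ ¬ XStr H s (b * y * γ) m)
      ψ ψ f h s s (C * s ^ c) hs hs hδ0 hψ hψ hf hh ?_ ?_
    · rw [← ha, ← hb] at this
      exact this
    · rintro q hq r hr ⟨⟨g1, g2⟩, g3⟩
      obtain ⟨g4, g5, g6⟩ := hfact q hq r hr ⟨g1, g3⟩
      rw [← hQ]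
      exact ⟨g4, g5, g6, g2⟩
    · intro x₀ m₀ y₀ n₀ hx₀ hy₀ hm₀ hn₀ hΩ
      rw [← hQ, ← hX]
      have t1 := xg_avg_triv hF0 hX0 y₀ (fun y n =>
        XOm γ s H L Z W a b x₀ m₀ y n ∧ ¬ XStr H s (b * y * γ) m₀)
      have t2 := xg_avg_E (s := s) (α := b * y₀ * γ) (W := W) (B := CE * s ^ cE) (H := H)
        (X := X) (x₀ := x₀) (fun β => hE s (b * y₀ * γ) β X hs hs3 hX0) hF0
        (fun x m => XOm γ s H L Z W a b x m y₀ n₀ ∧ ¬ XStr H s (b * y₀ * γ) m)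
        (fun x => ((a * x * n₀ : ℕ) : ℝ) * γ) (by
          rintro x - m hm ⟨g1, g2⟩
          obtain ⟨g3, -, -, g4, -⟩ := g1
          refine ⟨le_trans ?_ g4, ?_, g2⟩
          · have : m ≤ b * y₀ * m := Nat.le_mul_of_pos_left m (Nat.mul_pos hb0 hy₀)
            exact_mod_cast this
          · have e : (m : ℝ) * (b * y₀ * γ) = ((b * y₀ * m : ℕ) : ℝ) * γ := by
              push_cast; ring
            rw [e, ← xg_distInt_neg, neg_sub]
            exact g3)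
      have t0 := xg_wsum_nonneg hF0 X y₀
        (fun y n => XOm γ s H L Z W a b x₀ m₀ y n ∧ ¬ XStr H s (b * y * γ) m₀)
      have t0' : 0 ≤ CE * s ^ cE * x₀ := by positivity
      calc _ ≤ (CE * s ^ cE * x₀) * (y₀ : ℝ) := mul_le_mul t2 t1 t0 t0'
        _ = (CE * s ^ cE) * x₀ * y₀ := by ring
        _ ≤ (C * s ^ c) * x₀ * y₀ := by
          apply mul_le_mul_of_nonneg_right _ (Nat.cast_nonneg _)
          exact mul_le_mul_of_nonneg_right hδE (Nat.cast_nonneg _)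
  -- class III
  have hIII : psum (XCell R₃ (prN N) E i j k) N f h ≤
      (16 * s * s * (C * s ^ c) / ((a : ℝ) * b)) ^ (1 - θ) *
        ((∑ q ∈ Icc 1 N, f q) * ∑ r ∈ Icc 1 N, h r) ^ θ := by
    have := hC2 θ hθ hθ1 N E hEN i j k R₃
      (fun x m y n => XOm γ s H L Z W a b x m y n ∧ XStr H s (a * x * γ) n ∧
        XStr H s (b * y * γ) m)
      ψ ψ f h s s (C * s ^ c) hs hs hδ0 hψ hψ hf hh ?_ ?_
    · rw [← ha, ← hb] at this
      exact this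
    · rintro q hq r hr ⟨⟨g1, g2⟩, g3⟩
      obtain ⟨g4, g5, g6⟩ := hfact q hq r hr ⟨g1, g3⟩
      rw [← hQ]
      exact ⟨g4, g5, g6, g2⟩
    · intro x₀ m₀ y₀ n₀ hx₀ hy₀ hm₀ hn₀ hΩ
      rw [← hQ, ← hX] at *
      have hm₀' : 0 < m₀ := Nat.pos_of_dvd_of_pos hm₀ hX0
      have hn₀' : 0 < n₀ := Nat.pos_of_dvd_of_pos hn₀ hX0
      obtain ⟨hOm, hStr1, hStr2⟩ := hΩ
      obtain ⟨-, hadm, -, -, hcop1, hcop2⟩ := hOm
      have hBD : 0 ≤ C₁ * (s + 1 / H) := by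
        have : 0 ≤ 1 / H := by positivity
        exact mul_nonneg hC₁.le (by linarith only [this, hs])
      rcases le_total (b * y₀ * m₀) (a * x₀ * n₀) with hle | hle
      · have hnot : ¬ XStr H s (a * n₀ * γ) x₀ :=
          xg_vertex hD2 hD3 hH1 hs hs3 le_rfl h4 hLZ ha0 haZ hx₀ hn₀' hcop1 hadm hle hStr1
        have t1 := xg_avg_D (s := s) (α := a * n₀ * γ) (B := C₁ * (s + 1 / H)) (X := X)
          (x₀ := x₀) hX0 hBD (fun β => hD1 H s (a * n₀ * γ) β x₀ hH1 hs hs3 hnot) hF0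
          (fun x m => XOm γ s H L Z W a b x m y₀ n₀ ∧ XStr H s (a * x * γ) n₀ ∧
            XStr H s (b * y₀ * γ) m)
          (fun m => ((b * y₀ * m : ℕ) : ℝ) * γ) (by
            rintro x - m - ⟨g1, -⟩
            obtain ⟨g3, -⟩ := g1
            have e : (x : ℝ) * (a * n₀ * γ) = ((a * x * n₀ : ℕ) : ℝ) * γ := by
              push_cast; ring
            rw [e]
            exact g3)
        have t2 := xg_avg_triv hF0 hX0 y₀ (fun y n =>
          XOm γ s H L Z W a b x₀ m₀ y n ∧ XStr H s (a * x₀ * γ) n ∧ XStr H s (b * y * γ) m₀)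
        have t0 := xg_wsum_nonneg hF0 X y₀ (fun y n =>
          XOm γ s H L Z W a b x₀ m₀ y n ∧ XStr H s (a * x₀ * γ) n ∧ XStr H s (b * y * γ) m₀)
        have t0' : 0 ≤ C₁ * (s + 1 / H) * x₀ := mul_nonneg hBD (Nat.cast_nonneg _)
        calc _ ≤ (C₁ * (s + 1 / H) * x₀) * (y₀ : ℝ) := mul_le_mul t1 t2 t0 t0'
          _ ≤ (C * s ^ c) * x₀ * y₀ := by
            apply mul_le_mul_of_nonneg_right _ (Nat.cast_nonneg _)
            exact mul_le_mul_of_nonneg_right hδD (Nat.cast_nonneg _)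
      · have hnot : ¬ XStr H s (b * m₀ * γ) y₀ :=
          xg_vertex hD2 hD3 hH1 hs hs3 le_rfl h4 hLZ hb0 hbZ hy₀ hm₀' hcop2 hadm.symm hle hStr2
        have t2 := xg_avg_D (s := s) (α := b * m₀ * γ) (B := C₁ * (s + 1 / H)) (X := X)
          (x₀ := y₀) hX0 hBD (fun β => hD1 H s (b * m₀ * γ) β y₀ hH1 hs hs3 hnot) hF0
          (fun y n => XOm γ s H L Z W a b x₀ m₀ y n ∧ XStr H s (a * x₀ * γ) n ∧
            XStr H s (b * y * γ) m₀)
          (fun n => ((a * x₀ * n : ℕ) : ℝ) * γ) (by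
            rintro y - n - ⟨g1, -⟩
            obtain ⟨g3, -⟩ := g1
            have e : (y : ℝ) * (b * m₀ * γ) = ((b * y * m₀ : ℕ) : ℝ) * γ := by
              push_cast; ring
            rw [e, ← xg_distInt_neg, neg_sub]
            exact g3)
        have t1 := xg_avg_triv hF0 hX0 x₀ (fun x m =>
          XOm γ s H L Z W a b x m y₀ n₀ ∧ XStr H s (a * x * γ) n₀ ∧ XStr H s (b * y₀ * γ) m)
        have t0 := xg_wsum_nonneg hF0 X y₀ (fun y n =>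
          XOm γ s H L Z W a b x₀ m₀ y n ∧ XStr H s (a * x₀ * γ) n ∧ XStr H s (b * y * γ) m₀)
        calc _ ≤ (x₀ : ℝ) * (C₁ * (s + 1 / H) * y₀) := mul_le_mul t1 t2 t0 (Nat.cast_nonneg _)
          _ = (C₁ * (s + 1 / H)) * x₀ * y₀ := by ring
          _ ≤ (C * s ^ c) * x₀ * y₀ := by
            apply mul_le_mul_of_nonneg_right _ (Nat.cast_nonneg _)
            exact mul_le_mul_of_nonneg_right hδD (Nat.cast_nonneg _)
  linarith only [hsplit, hI, hII, hIII]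

end Vale.P028
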