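import Vale.Agent.P028.MathlibUsed
import Vale.Agent.P028.XDefs
import Vale.Agent.P028.XG2
import Vale.Agent.P028.BT1
import Vale.Agent.P028.KNearA

/-!
# Block G: the second near part
-/

namespace Vale.P028

open Finset

/-- the induction over the primes with a bounded product (from blocks A and B) -/
def XInd : Prop :=
  ∀ θ : ℝ, 1 / 2 < θ → θ < 1 → ∃ κ M : ℝ, 0 < κ ∧ κ < 1 ∧ 0 < M ∧
    ∀ (K : ℝ) (N : ℕ), 0 ≤ K → ∀ (R : ℕ → ℕ → Prop) (g₁ g₂ : ℕ → ℝ),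
    (∀ E ⊆ prN N, ∀ (i j k : ℕ → ℕ) (f h : ℕ → ℝ), (∀ q, 0 ≤ f q ∧ f q ≤ g₁ q) →
      (∀ q, 0 ≤ h q ∧ h q ≤ g₂ q) →
      psum (XCell R (prN N) E i j k) N f h ≤
        K * ((xe E i j : ℝ) * (xe E j i : ℝ)) ^ (-((1 - κ) * (1 - θ))) *
          ((∑ q ∈ Icc 1 N, f q) * ∑ r ∈ Icc 1 N, h r) ^ θ) →
    ∀ (f h : ℕ → ℝ), (∀ q, 0 ≤ f q ∧ f q ≤ g₁ q) → (∀ q, 0 ≤ h q ∧ h q ≤ g₂ q) →
      psum R N f h ≤ M * K * ((∑ q ∈ Icc 1 N, f q) * ∑ r ∈ Icc 1 N, h r) ^ θ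

/-- the special pairs -/
def XSpc : Prop :=
  ∀ θ : ℝ, 1 / 2 < θ → θ < 1 → ∃ C > 0, ∀ (H s : ℝ) (D N : ℕ) (ψ f : ℕ → ℝ), 1 ≤ H → 0 < s →
    0 < D → (∀ q, 0 ≤ ψ q) → (∀ q, 0 ≤ f q ∧ f q ≤ ψ q * (q.totient / q)) →
    psum (fun q r => (cofac r q : ℝ) * ψ q ≤ s ∧ (cofac q r : ℝ) * ψ r ≤ s ∧
        ∃ d : ℕ, 0 < d ∧ (d : ℝ) ≤ H ∧ (D ∣ d * cofac q r ∨ D ∣ d * cofac r q)) N f f ≤
      C * H * (D / H) ^ (-(1 - θ)) * (s * s) ^ (1 - θ) * (∑ q ∈ Icc 1 N, f q) ^ (2 * θ)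

/-- the choice of the threshold for `s` -/
theorem xg_threshold {A ε₁ : ℝ} (_hA : 0 ≤ A) (hε₁ : 0 < ε₁) :
    ∃ s₀ : ℝ, 0 < s₀ ∧ s₀ ≤ 1 / 1000 ∧ ∀ s : ℝ, 0 < s → s ≤ s₀ →
      2 * s ^ (-(2 * A)) ≤ Real.exp (s ^ (-ε₁)) := by
  obtain ⟨n, hn⟩ := exists_nat_ge ((2 * A + 1) / ε₁)
  have hn' : 2 * A + 1 ≤ n * ε₁ := by
    rwa [div_le_iff₀ hε₁] at hn
  refine ⟨min (1 / 1000) (1 / (2 * (n.factorial : ℝ))), ?_, min_le_left _ _, ?_⟩
  · have : (0 : ℝ) < n.factorial := by exact_mod_cast n.factorial_pos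
    exact lt_min (by norm_num) (by positivity)
  · intro s hs hs0
    have hfac : (0 : ℝ) < n.factorial := by exact_mod_cast n.factorial_pos
    have hs1 : s ≤ 1 := by linarith only [hs0.trans (min_le_left _ _)]
    have hs2 : s ≤ 1 / (2 * (n.factorial : ℝ)) := hs0.trans (min_le_right _ _)
    have ht0 : 0 ≤ s ^ (-ε₁) := Real.rpow_nonneg hs.le _
    have h1 : (s ^ (-ε₁)) ^ n / n.factorial ≤ Real.exp (s ^ (-ε₁)) :=
      Real.pow_div_factorial_le_exp _ ht0 n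
    refine le_trans ?_ h1
    rw [le_div_iff₀ hfac]
    have h2 : (s ^ (-ε₁)) ^ n = s ^ (-(n * ε₁)) := by
      rw [← Real.rpow_natCast, ← Real.rpow_mul hs.le]
      congr 1
      ring
    have h3 : s ^ (-(2 * A + 1)) ≤ s ^ (-(n * ε₁)) :=
      Real.rpow_le_rpow_of_exponent_ge hs hs1 (by linarith only [hn'])
    have h4 : s ^ (-(2 * A + 1)) = s ^ (-(2 * A)) * s⁻¹ := by
      rw [← Real.rpow_neg_one s, ← Real.rpow_add hs]
      congr 1
      ring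
    have h5 : 2 * (n.factorial : ℝ) ≤ s⁻¹ := by
      rw [le_inv_comm₀ (by positivity) hs]
      rwa [one_div] at hs2
    rw [h2]
    refine le_trans ?_ h3
    rw [h4]
    have h6 : 0 ≤ s ^ (-(2 * A)) := Real.rpow_nonneg hs.le _
    calc 2 * s ^ (-(2 * A)) * (n.factorial : ℝ) = s ^ (-(2 * A)) * (2 * (n.factorial : ℝ)) := by ring
      _ ≤ s ^ (-(2 * A)) * s⁻¹ := mul_le_mul_of_nonneg_left h5 h6

/-- two good fractions coincide -/
theorem xg_unique {γ T Y : ℝ} {k k' : ℤ} {D D' : ℕ} (hD : 0 < D) (hD' : 0 < D')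
    (hk : IsCoprime k (D : ℤ)) (hk' : IsCoprime k' (D' : ℤ)) (hDY : (D : ℝ) ≤ Y)
    (hDY' : (D' : ℝ) ≤ Y) (h : |γ - k / D| ≤ T) (h' : |γ - k' / D'| ≤ T)
    (hTY : 2 * T * Y ^ 2 < 1) : D = D' := by
  have hDr : (0 : ℝ) < D := by exact_mod_cast hD
  have hDr' : (0 : ℝ) < D' := by exact_mod_cast hD'
  have hY : 0 < Y := hDr.trans_le hDY
  have h1 : |(k : ℝ) / D - k' / D'| ≤ 2 * T := by
    have : (k : ℝ) / D - k' / D' = (γ - k' / D') - (γ - k / D) := by ring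
    rw [this]
    exact (abs_sub _ _).trans (by linarith only [h, h'])
  have h2 : (k : ℝ) / D - k' / D' = ((k * D' - k' * D : ℤ) : ℝ) / (D * D') := by
    push_cast
    field_simp
  have h3 : |((k * D' - k' * D : ℤ) : ℝ)| < 1 := by
    rw [h2, abs_div, abs_of_pos (mul_pos hDr hDr'), div_le_iff₀ (mul_pos hDr hDr')] at h1
    refine h1.trans_lt (lt_of_le_of_lt ?_ hTY)
    have hT0 : 0 ≤ 2 * T := by linarith only [abs_nonneg (γ - k / D), h]
    apply mul_le_mul_of_nonneg_left _ hT0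
    rw [sq]
    exact mul_le_mul hDY hDY' hDr'.le hY.le
  have h4 : k * D' - k' * D = 0 := by
    have : |(k * D' - k' * D : ℤ)| < 1 := by exact_mod_cast h3
    exact Int.abs_lt_one_iff.1 this
  have h5 : k * D' = k' * D := by linarith only [h4]
  have h6 : (D : ℤ) ∣ D' := by
    have : (D : ℤ) ∣ k * D' := ⟨k', by rw [h5]; ring⟩
    exact hk.symm.dvd_of_dvd_mul_left this
  have h7 : (D' : ℤ) ∣ D := by
    have : (D' : ℤ) ∣ k' * D := ⟨k, by rw [← h5]; ring⟩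
    exact hk'.symm.dvd_of_dvd_mul_left this
  exact Nat.dvd_antisymm (by exact_mod_cast h6) (by exact_mod_cast h7)

theorem xg_totient_le_one (q : ℕ) : ((q.totient : ℝ) / q) ≤ 1 := by
  rcases Nat.eq_zero_or_pos q with h | h
  · rw [h]; simp
  · rw [div_le_one (by exact_mod_cast h)]
    exact_mod_cast Nat.totient_le q

/-- large `s` -/
theorem xg_large {θ : ℝ} (hθ : 1 / 2 < θ) (hθ1 : θ < 1) : ∃ C > 0, ∀ (s : ℝ), 0 < s → s ≤ 1 →
    ∀ (R : ℕ → ℕ → Prop) (N : ℕ) (ψ f : ℕ → ℝ), (∀ q, 0 ≤ ψ q) →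
      (∀ q, 0 ≤ f q ∧ f q ≤ ψ q * (q.totient / q)) →
      (∀ q r, R q r → (cofac r q : ℝ) * ψ q ≤ s ∧ (cofac q r : ℝ) * ψ r ≤ s) →
      psum R N f f ≤ C * ((∑ q ∈ Icc 1 N, f q) + (∑ q ∈ Icc 1 N, f q) ^ 2) := by
  obtain ⟨C, hC, hT⟩ := T1_dvd hθ hθ1
  refine ⟨C, hC, ?_⟩
  intro s hs hs1 R N ψ f hψ hf hR
  set F : ℝ := ∑ q ∈ Icc 1 N, f q with hF
  have hF0 : 0 ≤ F := sum_nonneg fun q _ => (hf q).1
  have h := hT 1 1 one_pos one_pos ψ ψ f f s s N hs hs hψ hψ hf hf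
  have h1 : psum R N f f ≤ psum (fun q r => 1 ∣ cofac q r ∧ 1 ∣ cofac r q ∧
      (cofac r q : ℝ) * ψ q ≤ s ∧ (cofac q r : ℝ) * ψ r ≤ s) N f f :=
    psum_le_psum (fun q => (hf q).1) (fun q => (hf q).1) (fun q r _ _ hqr =>
      ⟨le_refl _, Or.inl ⟨one_dvd _, one_dvd _, hR q r hqr⟩⟩)
  refine h1.trans (h.trans ?_)
  rw [Nat.cast_one, Real.one_rpow, one_mul, mul_one]
  have h2 : (s * s) ^ (1 - θ) ≤ 1 :=
    Real.rpow_le_one (mul_nonneg hs.le hs.le) (by nlinarith only [hs, hs1]) (by linarith only [hθ1])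
  have h3 : (F * F) ^ θ = F ^ (2 * θ) := by
    rw [← sq, ← Real.rpow_natCast F 2, ← Real.rpow_mul hF0]
    norm_num
  have h4 : F ^ (2 * θ) ≤ F + F ^ 2 :=
    rpow_le_add_sq hF0 (by linarith only [hθ]) (by linarith only [hθ1])
  have h5 : 0 ≤ F ^ (2 * θ) := Real.rpow_nonneg hF0 _
  rw [h3]
  calc C * (s * s) ^ (1 - θ) * F ^ (2 * θ) ≤ C * 1 * F ^ (2 * θ) := by
        apply mul_le_mul_of_nonneg_right _ h5
        exact mul_le_mul_of_nonneg_left h2 hC.le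
    _ ≤ C * (F + F ^ 2) := by
        rw [mul_one]
        exact mul_le_mul_of_nonneg_left h4 hC.le

/-- the cells with large exact part -/
theorem xg_far_cell (hC2 : BlkC2) {θ : ℝ} (hθ : 1 / 2 < θ) (hθ1 : θ < 1) (hF0 : BlkF0)
    {s : ℝ} (hs : 0 < s) {N : ℕ} {ψ : ℕ → ℝ} (hψ : ∀ q, 0 ≤ ψ q) {R : ℕ → ℕ → Prop}
    (hR : ∀ q r, R q r → (cofac r q : ℝ) * ψ q ≤ s ∧ (cofac q r : ℝ) * ψ r ≤ s)
    {E : Finset ℕ} (hEN : E ⊆ prN N) (i j k : ℕ → ℕ) {f h : ℕ → ℝ}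
    (hf : ∀ q, 0 ≤ f q ∧ f q ≤ ψ q * (q.totient / q))
    (hh : ∀ q, 0 ≤ h q ∧ h q ≤ ψ q * (q.totient / q)) :
    psum (XCell R (prN N) E i j k) N f h ≤
      (16 * s * s * 1 / ((xe E i j : ℝ) * (xe E j i : ℝ))) ^ (1 - θ) *
        ((∑ q ∈ Icc 1 N, f q) * ∑ r ∈ Icc 1 N, h r) ^ θ := by
  classical
  have hX0 : 0 < xc (prN N \ E) k := xc_pos (N := N) sdiff_subset k
  refine hC2 θ hθ hθ1 N E hEN i j k R (fun _ _ _ _ => True) ψ ψ f h s s 1 hs hs zero_le_one hψ hψ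
    hf hh ?_ ?_
  · rintro q - r - ⟨g1, -⟩
    exact ⟨(hR q r g1).1, (hR q r g1).2, trivial⟩
  · intro x₀ m₀ y₀ n₀ _ _ _ _ _
    have t1 := xg_avg_triv hF0 hX0 x₀ (fun _ _ => True)
    have t2 := xg_avg_triv hF0 hX0 y₀ (fun _ _ => True)
    have t0 := xg_wsum_nonneg hF0 (xc (prN N \ E) k) y₀ (fun _ _ => True)
    rw [one_mul]
    exact mul_le_mul t1 t2 t0 (Nat.cast_nonneg _)

/-- the cells with a small exact part, in the form of the induction -/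
theorem xg_cell_num {θ κ s c C a b Z : ℝ} (hθ1 : θ < 1) (hκ : 0 < κ)
    (hs : 0 < s) (hC : 0 < C) (hZ : Z = s ^ (-(c / κ)))
    (hab : 1 ≤ a * b) :
    (a * b ≤ Z → 3 * (16 * s * s * (C * s ^ c) / (a * b)) ^ (1 - θ) ≤
      3 * (16 * (C + 1)) ^ (1 - θ) * s ^ ((2 + c) * (1 - θ)) *
        (a * b) ^ (-((1 - κ) * (1 - θ)))) ∧
    (Z < a * b → (16 * s * s * 1 / (a * b)) ^ (1 - θ) ≤
      3 * (16 * (C + 1)) ^ (1 - θ) * s ^ ((2 + c) * (1 - θ)) *
        (a * b) ^ (-((1 - κ) * (1 - θ)))) := by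
  have hθ' : 0 < 1 - θ := by linarith only [hθ1]
  have hab0 : 0 < a * b := by linarith only [hab]
  have hsc : 0 < s ^ c := Real.rpow_pos_of_pos hs _
  have hX : 0 ≤ 3 * (16 * (C + 1)) ^ (1 - θ) * s ^ ((2 + c) * (1 - θ)) := by positivity
  have hs2 : s * s * s ^ c = s ^ (2 + c) := by
    rw [Real.rpow_add hs, Real.rpow_two, sq]
  constructor
  · intro _
    have h1 : 16 * s * s * (C * s ^ c) / (a * b) = (16 * C) * s ^ (2 + c) * (a * b)⁻¹ := by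
      rw [← hs2]; ring
    rw [h1, Real.mul_rpow (by positivity) (by positivity),
      Real.mul_rpow (by positivity) (by positivity), ← Real.rpow_mul hs.le,
      Real.inv_rpow hab0.le, ← Real.rpow_neg hab0.le]
    have h2 : (16 * C) ^ (1 - θ) ≤ (16 * (C + 1)) ^ (1 - θ) :=
      Real.rpow_le_rpow (by positivity) (by linarith only []) hθ'.le
    have h3 : (a * b) ^ (-(1 - θ)) ≤ (a * b) ^ (-((1 - κ) * (1 - θ))) :=
      Real.rpow_le_rpow_of_exponent_le hab (by nlinarith only [hκ, hθ'])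
    have h4 : 0 ≤ s ^ ((2 + c) * (1 - θ)) := Real.rpow_nonneg hs.le _
    calc 3 * ((16 * C) ^ (1 - θ) * s ^ ((2 + c) * (1 - θ)) * (a * b) ^ (-(1 - θ)))
        = 3 * (16 * C) ^ (1 - θ) * s ^ ((2 + c) * (1 - θ)) * (a * b) ^ (-(1 - θ)) := by ring
      _ ≤ 3 * (16 * (C + 1)) ^ (1 - θ) * s ^ ((2 + c) * (1 - θ)) *
          (a * b) ^ (-((1 - κ) * (1 - θ))) := by
        apply mul_le_mul _ h3 (Real.rpow_nonneg hab0.le _) hX
        exact mul_le_mul_of_nonneg_right (by linarith only [h2]) h4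
  · intro hlt
    have h1 : 16 * s * s * 1 / (a * b) = 16 * (s * s) * (a * b)⁻¹ := by ring
    rw [h1, Real.mul_rpow (by positivity) (by positivity),
      Real.mul_rpow (by positivity) (by positivity), Real.inv_rpow hab0.le,
      ← Real.rpow_neg hab0.le]
    have hZ0 : 0 < Z := hZ ▸ Real.rpow_pos_of_pos hs _
    have h2 : (a * b) ^ (-(1 - θ)) =
        (a * b) ^ (-(κ * (1 - θ))) * (a * b) ^ (-((1 - κ) * (1 - θ))) := by
      rw [← Real.rpow_add hab0]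
      congr 1
      ring
    have h3 : (a * b) ^ (-(κ * (1 - θ))) ≤ Z ^ (-(κ * (1 - θ))) := by
      apply Real.rpow_le_rpow_of_nonpos hZ0 hlt.le
      have := mul_pos hκ hθ'
      linarith only [this]
    have h4 : Z ^ (-(κ * (1 - θ))) = s ^ (c * (1 - θ)) := by
      rw [hZ, ← Real.rpow_mul hs.le]
      congr 1
      field_simp
    have h5 : (s * s) ^ (1 - θ) * s ^ (c * (1 - θ)) = s ^ ((2 + c) * (1 - θ)) := by
      rw [← sq, ← Real.rpow_natCast s 2, ← Real.rpow_mul hs.le, ← Real.rpow_add hs]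
      congr 1
      push_cast
      ring
    have h6 : (16 : ℝ) ^ (1 - θ) ≤ 3 * (16 * (C + 1)) ^ (1 - θ) := by
      have e1 : (16 : ℝ) ^ (1 - θ) ≤ (16 * (C + 1)) ^ (1 - θ) :=
        Real.rpow_le_rpow (by norm_num) (by linarith only [hC]) hθ'.le
      have e2 : (0 : ℝ) ≤ (16 * (C + 1)) ^ (1 - θ) := by positivity
      linarith only [e1, e2]
    have h7 : 0 ≤ (a * b) ^ (-((1 - κ) * (1 - θ))) := Real.rpow_nonneg hab0.le _
    have h8 : 0 ≤ (s * s) ^ (1 - θ) := by positivity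
    calc 16 ^ (1 - θ) * (s * s) ^ (1 - θ) * (a * b) ^ (-(1 - θ))
        = 16 ^ (1 - θ) * (s * s) ^ (1 - θ) * ((a * b) ^ (-(κ * (1 - θ))) *
            (a * b) ^ (-((1 - κ) * (1 - θ)))) := by rw [h2]
      _ ≤ 16 ^ (1 - θ) * (s * s) ^ (1 - θ) * (s ^ (c * (1 - θ)) *
            (a * b) ^ (-((1 - κ) * (1 - θ)))) := by
        apply mul_le_mul_of_nonneg_left _ (mul_nonneg (by positivity) h8)
        apply mul_le_mul_of_nonneg_right _ h7
        rw [← h4]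
        exact h3
      _ = 16 ^ (1 - θ) * s ^ ((2 + c) * (1 - θ)) * (a * b) ^ (-((1 - κ) * (1 - θ))) := by
        rw [← h5]; ring
      _ ≤ 3 * (16 * (C + 1)) ^ (1 - θ) * s ^ ((2 + c) * (1 - θ)) *
            (a * b) ^ (-((1 - κ) * (1 - θ))) := by
        apply mul_le_mul_of_nonneg_right _ h7
        exact mul_le_mul_of_nonneg_right h6 (Real.rpow_nonneg hs.le _)

/-- block G from the induction, the special pairs and the other blocks -/
theorem blkG_of (hInd : XInd) (hSpc : XSpc) (hC1 : BlkC1) (hC2 : BlkC2) (hD1 : BlkD1)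
    (hD2 : BlkD2) (hD3 : BlkD3') (hE : BlkE) (hF0 : BlkF0) : BlkG := by
  classical
  obtain ⟨ε, c₀, C₀, hε, hc₀, hC₀, hbase⟩ := xg_base hC1 hC2 hD1 hD2 hD3 hE hF0
  obtain ⟨Cn, ε₁, hCn, hε₁, hnear⟩ := near_part
  obtain ⟨c, hcdef⟩ : ∃ c : ℝ, c = min c₀ (1 / 8) := ⟨_, rfl⟩
  have hc : 0 < c := by rw [hcdef]; exact lt_min hc₀ (by norm_num)
  have hcc₀ : c ≤ c₀ := by rw [hcdef]; exact min_le_left _ _
  have hc8 : c ≤ 1 / 8 := by rw [hcdef]; exact min_le_right _ _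
  obtain ⟨θ, hθdef⟩ : ∃ θ : ℝ, θ = 1 / 2 + c / 64 := ⟨_, rfl⟩
  have hθ : 1 / 2 < θ := by rw [hθdef]; linarith only [hc]
  have hθ1 : θ < 1 := by rw [hθdef]; linarith only [hc8]
  have hθ' : 1 - θ = 1 / 2 - c / 64 := by rw [hθdef]; ring
  have hθ0 : 0 < 1 - θ := by linarith only [hθ1]
  obtain ⟨κ, M, hκ, hκ1, hM, hind⟩ := hInd θ hθ hθ1
  obtain ⟨Cs, hCs, hspc⟩ := hSpc θ hθ hθ1
  obtain ⟨Cl, hCl, hlarge⟩ := xg_large hθ hθ1
  have hA : 0 ≤ c / κ + 1 / 16 := by positivity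
  obtain ⟨s₀, hs₀, hs₀1, hthr⟩ := xg_threshold hA hε₁
  set K₀ : ℝ := 3 * (16 * (C₀ + 1)) ^ (1 - θ) with hK₀
  have hK₀0 : 0 < K₀ := by positivity
  refine ⟨Cl * s₀ ^ (-(1 + c / 8)) + (Cn + Cs + M * K₀), ε, c / 8, by positivity, hε,
    by positivity, ?_⟩
  intro γ s hs hs3 N ψ f hψ hf
  set F : ℝ := ∑ q ∈ Icc 1 N, f q with hF
  have hF0' : 0 ≤ F := sum_nonneg fun q _ => (hf q).1
  have hFF : 0 ≤ F + F ^ 2 := by positivity
  have hs1 : s ≤ 1 := by linarith only [hs3]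
  have hp0 : 0 ≤ s ^ (1 + c / 8) := Real.rpow_nonneg hs.le _
  have hF2 : F ^ (2 * θ) ≤ F + F ^ 2 :=
    rpow_le_add_sq hF0' (by linarith only [hθ]) (by linarith only [hθ1])
  have hF2' : 0 ≤ F ^ (2 * θ) := Real.rpow_nonneg hF0' _
  have hFFθ : (F * F) ^ θ = F ^ (2 * θ) := by
    rw [← sq, ← Real.rpow_natCast F 2, ← Real.rpow_mul hF0']
    norm_num
  rcases lt_or_ge s₀ s with hlt | hle
  · -- large s
    have h1 := hlarge s hs hs1 (fun q r => Rel γ ψ s q r ∧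
        Far γ s (cofac q r) (cofac r q) ∧
          (cofac q r : ℝ) ≤ Real.exp (Real.exp (s ^ (-ε))) ∧
          (cofac r q : ℝ) ≤ Real.exp (Real.exp (s ^ (-ε)))) N ψ f hψ hf
      (fun q r h => ⟨h.1.2.1, h.1.2.2.1⟩)
    have h2 : 1 ≤ s₀ ^ (-(1 + c / 8)) * s ^ (1 + c / 8) := by
      rw [Real.rpow_neg hs₀.le, ← Real.inv_rpow hs₀.le, ← Real.mul_rpow (by positivity) hs.le]
      apply Real.one_le_rpow _ (by positivity)
      rw [inv_mul_eq_div, one_le_div hs₀]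
      exact hlt.le
    calc _ ≤ Cl * (F + F ^ 2) := h1
      _ ≤ Cl * (s₀ ^ (-(1 + c / 8)) * s ^ (1 + c / 8)) * (F + F ^ 2) := by
        apply mul_le_mul_of_nonneg_right _ hFF
        nlinarith only [h2, hCl]
      _ = Cl * s₀ ^ (-(1 + c / 8)) * (s ^ (1 + c / 8) * (F + F ^ 2)) := by ring
      _ ≤ (Cl * s₀ ^ (-(1 + c / 8)) + (Cn + Cs + M * K₀)) * (s ^ (1 + c / 8) * (F + F ^ 2)) := by
        apply mul_le_mul_of_nonneg_right _ (mul_nonneg hp0 hFF)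
        have : 0 ≤ Cn + Cs + M * K₀ := by positivity
        linarith only [this]
      _ = _ := by ring
  · -- small s
    set H : ℝ := s ^ (-(1 / 64) : ℝ) with hHdef
    set Z : ℝ := s ^ (-(c / κ)) with hZdef
    set L : ℝ := Real.exp (s ^ (-ε₁)) with hLdef
    have hH1 : 1 ≤ H := Real.one_le_rpow_of_pos_of_le_one_of_nonpos hs hs1 (by norm_num)
    have hZ1 : 1 ≤ Z := Real.one_le_rpow_of_pos_of_le_one_of_nonpos hs hs1 (by
      have : 0 < c / κ := by positivity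
      linarith only [this])
    have hH0 : 0 < H := by linarith only [hH1]
    have hZ0 : 0 < Z := by linarith only [hZ1]
    have hL0 : 0 < L := Real.exp_pos _
    have hZH : Z * H ^ 4 = s ^ (-(c / κ + 1 / 16)) := by
      rw [hZdef, hHdef, ← Real.rpow_natCast, ← Real.rpow_mul hs.le, ← Real.rpow_add hs]
      congr 1
      push_cast
      ring
    have hZH1 : 1 ≤ Z * H ^ 4 := by
      have : (1 : ℝ) ≤ H ^ 4 := one_le_pow₀ hH1
      nlinarith only [this, hZ1]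
    have hZHL : 2 * (Z * H ^ 4) ^ 2 ≤ L := by
      have := hthr s hs hle
      refine le_trans (le_of_eq ?_) this
      rw [hZH, ← Real.rpow_natCast, ← Real.rpow_mul hs.le]
      congr 2
      push_cast
      ring
    have hLZ : Z * H ^ 5 ≤ L := by
      have e1 : (1 : ℝ) ≤ H ^ 3 := one_le_pow₀ hH1
      have e2 : Z * H ^ 5 ≤ Z * H ^ 5 * (Z * H ^ 3) := by
        apply le_mul_of_one_le_right (by positivity)
        nlinarith only [e1, hZ1]
      have e3 : Z * H ^ 5 * (Z * H ^ 3) = (Z * H ^ 4) ^ 2 := by ring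
      have e4 : 0 < (Z * H ^ 4) ^ 2 := by positivity
      linarith only [e2, e3, e4, hZHL]
    -- the three relations
    have hsplit := xg_psum_or (N := N) (f := f) (h := f) (fun q => (hf q).1) (fun q => (hf q).1)
      (R := fun q r => Rel γ ψ s q r ∧ Far γ s (cofac q r) (cofac r q) ∧
          (cofac q r : ℝ) ≤ Real.exp (Real.exp (s ^ (-ε))) ∧
          (cofac r q : ℝ) ≤ Real.exp (Real.exp (s ^ (-ε))))
      (R₁ := fun q r => Rel γ ψ s q r ∧ Far γ s (cofac q r) (cofac r q) ∧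
          cofac q r ≤ ⌊Real.exp (s ^ (-ε₁))⌋₊ ∧ cofac r q ≤ ⌊Real.exp (s ^ (-ε₁))⌋₊)
      (R₂ := fun q r => (cofac r q : ℝ) * ψ q ≤ s ∧ (cofac q r : ℝ) * ψ r ≤ s ∧
          ∃ (k : ℤ) (D d : ℕ), 0 < D ∧ 0 < d ∧ (d : ℝ) ≤ H ∧ IsCoprime k (D : ℤ) ∧
            s ^ (-(1 / 8) : ℝ) < D ∧ (D : ℝ) ≤ Z * H ^ 3 ∧ |γ - k / D| * L ≤ s * H ^ 2 ∧
            (D ∣ d * cofac q r ∨ D ∣ d * cofac r q))
      (R₃ := fun q r => Rel γ ψ s q r ∧ XAdm γ s H L Z (cofac q r) (cofac r q) ∧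
          (cofac q r : ℝ) ≤ Real.exp (Real.exp (s ^ (-ε))) ∧
          (cofac r q : ℝ) ≤ Real.exp (Real.exp (s ^ (-ε)))) (by
        rintro q - r - ⟨g1, g2, g3, g4⟩
        by_cases g5 : cofac q r ≤ ⌊Real.exp (s ^ (-ε₁))⌋₊ ∧ cofac r q ≤ ⌊Real.exp (s ^ (-ε₁))⌋₊
        · exact Or.inl ⟨g1, g2, g5⟩
        · right
          have g6 : L < max (cofac q r : ℝ) (cofac r q : ℝ) := by
            rw [not_and_or, not_le, not_le, Nat.floor_lt (Real.exp_pos _).le,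
              Nat.floor_lt (Real.exp_pos _).le] at g5
            rcases g5 with g5 | g5
            · exact lt_max_of_lt_left g5
            · exact lt_max_of_lt_right g5
          by_cases g7 : ∃ (k : ℤ) (D d : ℕ), 0 < D ∧ 0 < d ∧ (d : ℝ) ≤ H ∧ IsCoprime k (D : ℤ) ∧
            s ^ (-(1 / 8) : ℝ) < D ∧ (D : ℝ) ≤ Z * H ^ 3 ∧ |γ - k / D| * L ≤ s * H ^ 2 ∧
            (D ∣ d * cofac q r ∨ D ∣ d * cofac r q)
          · exact Or.inl ⟨g1.2.1, g1.2.2.1, g7⟩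
          · right
            refine ⟨g1, ⟨g2, g6, ?_⟩, g3, g4⟩
            intro k D d hD hd hdH hk hD1' hD2' hD3'
            rw [← not_or]
            intro g8
            refine g7 ⟨k, D, d, hD, hd, hdH, hk, hD1', hD2', ?_, g8⟩
            refine le_trans ?_ hD3'
            exact mul_le_mul_of_nonneg_left g6.le (abs_nonneg _))
    -- the near part
    have h₁ := hnear γ s hs hs3 N ψ f (fun q => ⟨(hf q).1, (hf q).2.trans
      (mul_le_of_le_one_right (hψ q) (xg_totient_le_one q))⟩)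
    -- the special pairs
    have h₂ : psum (fun q r => (cofac r q : ℝ) * ψ q ≤ s ∧ (cofac q r : ℝ) * ψ r ≤ s ∧
          ∃ (k : ℤ) (D d : ℕ), 0 < D ∧ 0 < d ∧ (d : ℝ) ≤ H ∧ IsCoprime k (D : ℤ) ∧
            s ^ (-(1 / 8) : ℝ) < D ∧ (D : ℝ) ≤ Z * H ^ 3 ∧ |γ - k / D| * L ≤ s * H ^ 2 ∧
            (D ∣ d * cofac q r ∨ D ∣ d * cofac r q)) N f f ≤
        Cs * s ^ (1 + c / 8) * (F + F ^ 2) := by
      by_cases hex : ∃ (k : ℤ) (D : ℕ), 0 < D ∧ IsCoprime k (D : ℤ) ∧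
            s ^ (-(1 / 8) : ℝ) < D ∧ (D : ℝ) ≤ Z * H ^ 3 ∧ |γ - k / D| * L ≤ s * H ^ 2
      · obtain ⟨k₀, D₀, hD₀, hk₀, hD₀1, hD₀2, hD₀3⟩ := hex
        have hT : ∀ (k : ℤ) (D : ℕ), 0 < D → IsCoprime k (D : ℤ) → (D : ℝ) ≤ Z * H ^ 3 →
            |γ - k / D| * L ≤ s * H ^ 2 → D = D₀ := by
          intro k D hD hk hD2' hD3'
          have hY : 2 * (s * H ^ 2 / L) * (Z * H ^ 3) ^ 2 < 1 := by
            have e1 : 2 * (s * H ^ 2 / L) * (Z * H ^ 3) ^ 2 = s * (2 * (Z * H ^ 4) ^ 2) / L := by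
              field_simp
            rw [e1, div_lt_one hL0]
            have e2 : 0 < 2 * (Z * H ^ 4) ^ 2 := by positivity
            calc s * (2 * (Z * H ^ 4) ^ 2) < 1 * (2 * (Z * H ^ 4) ^ 2) := by
                  apply mul_lt_mul_of_pos_right _ e2
                  linarith only [hs3]
              _ ≤ L := by rw [one_mul]; exact hZHL
          exact xg_unique hD hD₀ hk hk₀ hD2' hD₀2 ((le_div_iff₀ hL0).2 hD3')
            ((le_div_iff₀ hL0).2 hD₀3) hY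
        have e1 := hspc H s D₀ N ψ f hH1 hs hD₀ hψ hf
        have e2 : psum (fun q r => (cofac r q : ℝ) * ψ q ≤ s ∧ (cofac q r : ℝ) * ψ r ≤ s ∧
          ∃ (k : ℤ) (D d : ℕ), 0 < D ∧ 0 < d ∧ (d : ℝ) ≤ H ∧ IsCoprime k (D : ℤ) ∧
            s ^ (-(1 / 8) : ℝ) < D ∧ (D : ℝ) ≤ Z * H ^ 3 ∧ |γ - k / D| * L ≤ s * H ^ 2 ∧
            (D ∣ d * cofac q r ∨ D ∣ d * cofac r q)) N f f ≤
            psum (fun q r => (cofac r q : ℝ) * ψ q ≤ s ∧ (cofac q r : ℝ) * ψ r ≤ s ∧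
              ∃ d : ℕ, 0 < d ∧ (d : ℝ) ≤ H ∧ (D₀ ∣ d * cofac q r ∨ D₀ ∣ d * cofac r q)) N f f := by
          refine psum_le_psum (fun q => (hf q).1) (fun q => (hf q).1) ?_
          rintro q r - - ⟨g1, g2, k, D, d, hD, hd, hdH, hk, hD1', hD2', hD3', hdv⟩
          refine ⟨le_refl _, Or.inl ⟨g1, g2, d, hd, hdH, ?_⟩⟩
          rw [hT k D hD hk hD2' hD3'] at hdv
          exact hdv
        refine e2.trans (e1.trans ?_)
        have e3 : s ^ (-(7 / 64) : ℝ) ≤ (D₀ : ℝ) / H := by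
          rw [le_div_iff₀ hH0, hHdef, ← Real.rpow_add hs]
          refine le_trans (le_of_eq ?_) hD₀1.le
          congr 1
          norm_num
        have e4 : ((D₀ : ℝ) / H) ^ (-(1 - θ)) ≤ s ^ ((7 / 64) * (1 - θ)) := by
          calc ((D₀ : ℝ) / H) ^ (-(1 - θ)) ≤ (s ^ (-(7 / 64) : ℝ)) ^ (-(1 - θ)) :=
                Real.rpow_le_rpow_of_nonpos (Real.rpow_pos_of_pos hs _) e3
                  (by linarith only [hθ0])
            _ = s ^ ((7 / 64) * (1 - θ)) := by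
                rw [← Real.rpow_mul hs.le]
                congr 1
                ring
        have e5 : (s * s) ^ (1 - θ) = s ^ (2 * (1 - θ)) := by
          rw [← sq, ← Real.rpow_natCast s 2, ← Real.rpow_mul hs.le]
          push_cast
          rfl
        have e6 : H * (s ^ ((7 / 64) * (1 - θ)) * s ^ (2 * (1 - θ))) ≤ s ^ (1 + c / 8) := by
          rw [hHdef, ← Real.rpow_add hs, ← Real.rpow_add hs]
          apply Real.rpow_le_rpow_of_exponent_ge hs hs1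
          rw [hθ']
          linarith only [hc8, hc]
        have e7 : 0 ≤ (s * s) ^ (1 - θ) := by positivity
        calc Cs * H * ((D₀ : ℝ) / H) ^ (-(1 - θ)) * (s * s) ^ (1 - θ) * F ^ (2 * θ)
            ≤ Cs * H * s ^ ((7 / 64) * (1 - θ)) * (s * s) ^ (1 - θ) * F ^ (2 * θ) := by
              apply mul_le_mul_of_nonneg_right _ hF2'
              apply mul_le_mul_of_nonneg_right _ e7
              exact mul_le_mul_of_nonneg_left e4 (by positivity)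
          _ = Cs * (H * (s ^ ((7 / 64) * (1 - θ)) * s ^ (2 * (1 - θ)))) * F ^ (2 * θ) := by
              rw [e5]; ring
          _ ≤ Cs * s ^ (1 + c / 8) * (F + F ^ 2) := by
              apply mul_le_mul (mul_le_mul_of_nonneg_left e6 hCs.le) hF2 hF2' (by positivity)
      · have e0 : psum (fun q r => (cofac r q : ℝ) * ψ q ≤ s ∧ (cofac q r : ℝ) * ψ r ≤ s ∧
          ∃ (k : ℤ) (D d : ℕ), 0 < D ∧ 0 < d ∧ (d : ℝ) ≤ H ∧ IsCoprime k (D : ℤ) ∧
            s ^ (-(1 / 8) : ℝ) < D ∧ (D : ℝ) ≤ Z * H ^ 3 ∧ |γ - k / D| * L ≤ s * H ^ 2 ∧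
            (D ∣ d * cofac q r ∨ D ∣ d * cofac r q)) N f f = 0 := by
          unfold psum
          refine sum_eq_zero fun q _ => sum_eq_zero fun r _ => ?_
          rw [if_neg]
          rintro ⟨-, -, k, D, d, hD, -, -, hk, hD1', hD2', hD3', -⟩
          exact hex ⟨k, D, hD, hk, hD1', hD2', hD3'⟩
        rw [e0]
        positivity
    -- the main part
    have h₃ : psum (fun q r => Rel γ ψ s q r ∧ XAdm γ s H L Z (cofac q r) (cofac r q) ∧
          (cofac q r : ℝ) ≤ Real.exp (Real.exp (s ^ (-ε))) ∧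
          (cofac r q : ℝ) ≤ Real.exp (Real.exp (s ^ (-ε)))) N f f ≤
        M * K₀ * s ^ (1 + c / 8) * (F + F ^ 2) := by
      have e1 := hind (K₀ * s ^ ((2 + c) * (1 - θ))) N (by positivity)
        (fun q r => Rel γ ψ s q r ∧ XAdm γ s H L Z (cofac q r) (cofac r q) ∧
          (cofac q r : ℝ) ≤ Real.exp (Real.exp (s ^ (-ε))) ∧
          (cofac r q : ℝ) ≤ Real.exp (Real.exp (s ^ (-ε))))
        (fun q => ψ q * (q.totient / q)) (fun q => ψ q * (q.totient / q)) ?_ f f hf hf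
      · rw [hFFθ] at e1
        refine e1.trans ?_
        have e2 : s ^ ((2 + c) * (1 - θ)) ≤ s ^ (1 + c / 8) := by
          apply Real.rpow_le_rpow_of_exponent_ge hs hs1
          rw [hθ']
          nlinarith only [hc, hc8]
        calc M * (K₀ * s ^ ((2 + c) * (1 - θ))) * F ^ (2 * θ)
            = M * K₀ * s ^ ((2 + c) * (1 - θ)) * F ^ (2 * θ) := by ring
          _ ≤ M * K₀ * s ^ (1 + c / 8) * (F + F ^ 2) := by
            apply mul_le_mul _ hF2 hF2' (by positivity)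
            exact mul_le_mul_of_nonneg_left e2 (by positivity)
      · intro E hEN i j k f' h' hf' hh'
        have ha1 : (1 : ℝ) ≤ xe E i j := by exact_mod_cast xe_pos hEN i j
        have hb1 : (1 : ℝ) ≤ xe E j i := by exact_mod_cast xe_pos hEN j i
        have hab1 : 1 ≤ (xe E i j : ℝ) * xe E j i := by nlinarith only [ha1, hb1]
        have hnum := xg_cell_num (θ := θ) (κ := κ) (s := s) (c := c) (C := C₀)
          (a := (xe E i j : ℝ)) (b := (xe E j i : ℝ)) (Z := Z) hθ1 hκ hs hC₀ rfl hab1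
        have hFG : 0 ≤ ((∑ q ∈ Icc 1 N, f' q) * ∑ r ∈ Icc 1 N, h' r) ^ θ :=
          Real.rpow_nonneg (mul_nonneg (sum_nonneg fun q _ => (hf' q).1)
            (sum_nonneg fun q _ => (hh' q).1)) _
        rcases le_or_gt ((xe E i j : ℝ) * xe E j i) Z with hZle | hZlt
        · have e2 := hbase θ hθ hθ1 γ s L Z hs hs3 hLZ N ψ hψ _ (fun q r h => h) E hEN i j k
            f' h' hf' hh' hZle
          refine e2.trans ?_
          rw [← mul_assoc]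
          apply mul_le_mul_of_nonneg_right _ hFG
          refine le_trans ?_ (hnum.1 hZle)
          apply mul_le_mul_of_nonneg_left _ (by norm_num)
          apply Real.rpow_le_rpow (by positivity) _ hθ0.le
          apply div_le_div_of_nonneg_right _ (by positivity)
          have e3 : s ^ c₀ ≤ s ^ c := Real.rpow_le_rpow_of_exponent_ge hs hs1 hcc₀
          gcongr
        · have e2 := xg_far_cell hC2 hθ hθ1 hF0 hs hψ (R := fun q r => Rel γ ψ s q r ∧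
            XAdm γ s H L Z (cofac q r) (cofac r q) ∧
            (cofac q r : ℝ) ≤ Real.exp (Real.exp (s ^ (-ε))) ∧
            (cofac r q : ℝ) ≤ Real.exp (Real.exp (s ^ (-ε))))
            (fun q r h => ⟨h.1.2.1, h.1.2.2.1⟩) hEN i j k hf' hh'
          refine e2.trans ?_
          apply mul_le_mul_of_nonneg_right _ hFG
          exact hnum.2 hZlt
    have h₁' : Cn * s ^ (1 + 1 / 64 : ℝ) * (F + F ^ 2) ≤ Cn * s ^ (1 + c / 8) * (F + F ^ 2) := by
      apply mul_le_mul_of_nonneg_right _ hFF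
      apply mul_le_mul_of_nonneg_left _ hCn.le
      exact Real.rpow_le_rpow_of_exponent_ge hs hs1 (by linarith only [hc8])
    have h₄ : 0 ≤ Cl * s₀ ^ (-(1 + c / 8)) * s ^ (1 + c / 8) * (F + F ^ 2) := by positivity
    calc _ ≤ _ := hsplit
      _ ≤ Cn * s ^ (1 + c / 8) * (F + F ^ 2) + Cs * s ^ (1 + c / 8) * (F + F ^ 2) +
          M * K₀ * s ^ (1 + c / 8) * (F + F ^ 2) := by linarith only [h₁, h₁', h₂, h₃]
      _ ≤ (Cl * s₀ ^ (-(1 + c / 8)) + (Cn + Cs + M * K₀)) * s ^ (1 + c / 8) * (F + F ^ 2) := by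
        linarith only [h₄]

end Vale.P028
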