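import Vale.Agent.P028.MathlibUsed
import Vale.Agent.P028.XG

/-!
# Block G, part 3: the special pairs
-/

namespace Vale.P028

open Finset

theorem xg_psum_union {ι : Type*} (I : Finset ι) {R : ℕ → ℕ → Prop} {R' : ι → ℕ → ℕ → Prop}
    {N : ℕ} {f h : ℕ → ℝ} (hf : ∀ q, 0 ≤ f q) (hh : ∀ q, 0 ≤ h q)
    (hR : ∀ q r, R q r → ∃ i ∈ I, R' i q r) :
    psum R N f h ≤ ∑ i ∈ I, psum (R' i) N f h := by
  classical
  unfold psum
  have e : ∑ i ∈ I, ∑ q ∈ Icc 1 N, ∑ r ∈ Icc 1 N, (if R' i q r then f q * h r else 0) =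
      ∑ q ∈ Icc 1 N, ∑ r ∈ Icc 1 N, ∑ i ∈ I, (if R' i q r then f q * h r else 0) := by
    rw [sum_comm]
    exact sum_congr rfl fun q _ => sum_comm
  rw [e]
  refine sum_le_sum fun q _ => sum_le_sum fun r _ => ?_
  have h0 : 0 ≤ f q * h r := mul_nonneg (hf q) (hh r)
  have h1 : ∀ i ∈ I, 0 ≤ (if R' i q r then f q * h r else 0) := by
    intro i _
    split_ifs
    · exact h0
    · exact le_refl _
  by_cases hq : R q r
  · obtain ⟨i, hi, hi'⟩ := hR q r hq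
    rw [if_pos hq]
    have := single_le_sum h1 hi
    rwa [if_pos hi'] at this
  · rw [if_neg hq]
    exact sum_nonneg h1

theorem xg_dvd_cofac {D d u : ℕ} (hD : 0 < D) (h : D ∣ d * u) : D / Nat.gcd D d ∣ u := by
  have hg : 0 < Nat.gcd D d := Nat.gcd_pos_of_pos_left _ hD
  have h1 : D / Nat.gcd D d ∣ (d / Nat.gcd D d) * u := by
    rw [Nat.div_dvd_iff_dvd_mul (Nat.gcd_dvd_left D d) hg, ← mul_assoc,
      Nat.mul_div_cancel' (Nat.gcd_dvd_right D d)]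
    exact h
  exact (Nat.coprime_div_gcd_div_gcd hg).dvd_of_dvd_mul_left h1

theorem xSpc : XSpc := by
  intro θ hθ hθ1
  obtain ⟨C, hC, hT⟩ := T1_dvd hθ hθ1
  refine ⟨2 * C, by positivity, ?_⟩
  intro H s D N ψ f hH hs hD hψ hf
  set F : ℝ := ∑ q ∈ Icc 1 N, f q with hF
  have hF0 : 0 ≤ F := sum_nonneg fun q _ => (hf q).1
  have hH0 : 0 < H := by linarith only [hH]
  have hD0 : (0 : ℝ) < D := by exact_mod_cast hD
  have hθ' : 0 < 1 - θ := by linarith only [hθ1]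
  have hFF : (F * F) ^ θ = F ^ (2 * θ) := by
    rw [← sq, ← Real.rpow_natCast F 2, ← Real.rpow_mul hF0]
    norm_num
  have hu := xg_psum_union (N := N) (f := f) (h := f) (Icc 1 ⌊H⌋₊)
    (R := fun q r => (cofac r q : ℝ) * ψ q ≤ s ∧ (cofac q r : ℝ) * ψ r ≤ s ∧
        ∃ d : ℕ, 0 < d ∧ (d : ℝ) ≤ H ∧ (D ∣ d * cofac q r ∨ D ∣ d * cofac r q))
    (R' := fun d q r => (cofac r q : ℝ) * ψ q ≤ s ∧ (cofac q r : ℝ) * ψ r ≤ s ∧
        (D ∣ d * cofac q r ∨ D ∣ d * cofac r q)) (fun q => (hf q).1) (fun q => (hf q).1) (by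
      rintro q r ⟨h1, h2, d, hd, hdH, h3⟩
      exact ⟨d, mem_Icc.2 ⟨hd, Nat.le_floor hdH⟩, h1, h2, h3⟩)
  have hone : ∀ d ∈ Icc 1 ⌊H⌋₊, psum (fun q r => (cofac r q : ℝ) * ψ q ≤ s ∧
      (cofac q r : ℝ) * ψ r ≤ s ∧ (D ∣ d * cofac q r ∨ D ∣ d * cofac r q)) N f f ≤
      2 * C * ((D / H) ^ (-(1 - θ)) * (s * s) ^ (1 - θ) * F ^ (2 * θ)) := by
    intro d hd
    rw [mem_Icc] at hd
    have hdH : (d : ℝ) ≤ H := (Nat.cast_le.2 hd.2).trans (Nat.floor_le hH0.le)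
    have hd0 : (0 : ℝ) < d := by exact_mod_cast hd.1
    obtain ⟨D', hD'⟩ : ∃ D', D' = D / Nat.gcd D d := ⟨_, rfl⟩
    have hg : 0 < Nat.gcd D d := Nat.gcd_pos_of_pos_left _ hD
    have hD'0 : 0 < D' := by
      rw [hD']
      exact Nat.div_pos (Nat.le_of_dvd hD (Nat.gcd_dvd_left D d)) hg
    have hD'D : (D : ℝ) / H ≤ D' := by
      have e1 : (D : ℝ) = D' * (Nat.gcd D d : ℕ) := by
        rw [hD']
        exact_mod_cast (Nat.div_mul_cancel (Nat.gcd_dvd_left D d)).symm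
      have e2 : ((Nat.gcd D d : ℕ) : ℝ) ≤ H := by
        refine le_trans ?_ hdH
        exact_mod_cast Nat.le_of_dvd hd.1 (Nat.gcd_dvd_right D d)
      rw [div_le_iff₀ hH0, e1]
      exact mul_le_mul_of_nonneg_left e2 (Nat.cast_nonneg _)
    have hpow : ((D' : ℝ)) ^ (-(1 - θ)) ≤ ((D : ℝ) / H) ^ (-(1 - θ)) :=
      Real.rpow_le_rpow_of_nonpos (by positivity) hD'D (by linarith only [hθ'])
    have hX : 0 ≤ C * (s * s) ^ (1 - θ) * F ^ (2 * θ) := by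
      have := Real.rpow_nonneg hF0 (2 * θ)
      positivity
    have t1 := hT D' 1 hD'0 one_pos ψ ψ f f s s N hs hs hψ hψ hf hf
    have t2 := hT 1 D' one_pos hD'0 ψ ψ f f s s N hs hs hψ hψ hf hf
    rw [Nat.cast_one, Real.one_rpow, mul_one] at t1
    rw [Nat.cast_one, Real.one_rpow, one_mul] at t2
    rw [← hF, hFF] at t1 t2
    have hu2 := xg_psum_or (N := N) (f := f) (h := f)
      (R := fun q r => (cofac r q : ℝ) * ψ q ≤ s ∧
        (cofac q r : ℝ) * ψ r ≤ s ∧ (D ∣ d * cofac q r ∨ D ∣ d * cofac r q))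
      (R₁ := fun q r => D' ∣ cofac q r ∧ 1 ∣ cofac r q ∧ (cofac r q : ℝ) * ψ q ≤ s ∧
        (cofac q r : ℝ) * ψ r ≤ s)
      (R₂ := fun q r => 1 ∣ cofac q r ∧ D' ∣ cofac r q ∧ (cofac r q : ℝ) * ψ q ≤ s ∧
        (cofac q r : ℝ) * ψ r ≤ s)
      (R₃ := fun _ _ => False) (fun q => (hf q).1) (fun q => (hf q).1) (by
        rintro q - r - ⟨h1, h2, h3⟩
        rcases h3 with h3 | h3
        · left
          exact ⟨hD' ▸ xg_dvd_cofac hD h3, one_dvd _, h1, h2⟩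
        · right; left
          exact ⟨one_dvd _, hD' ▸ xg_dvd_cofac hD h3, h1, h2⟩)
    have h0 : psum (fun _ _ => False) N f f = 0 := by
      unfold psum
      refine sum_eq_zero fun q _ => sum_eq_zero fun r _ => if_neg not_false
    have e3 : C * (s * s) ^ (1 - θ) * F ^ (2 * θ) * (D' : ℝ) ^ (-(1 - θ)) ≤
        C * (s * s) ^ (1 - θ) * F ^ (2 * θ) * ((D : ℝ) / H) ^ (-(1 - θ)) :=
      mul_le_mul_of_nonneg_left hpow hX
    have e4 : 2 * C * ((D / H) ^ (-(1 - θ)) * (s * s) ^ (1 - θ) * F ^ (2 * θ)) =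
        2 * (C * (s * s) ^ (1 - θ) * F ^ (2 * θ) * ((D : ℝ) / H) ^ (-(1 - θ))) := by ring
    rw [e4]
    linarith only [hu2, h0, t1, t2, e3]
  refine hu.trans ((sum_le_sum hone).trans ?_)
  rw [sum_const, Nat.card_Icc, Nat.add_sub_cancel, nsmul_eq_mul]
  have h1 : ((⌊H⌋₊ : ℕ) : ℝ) ≤ H := Nat.floor_le hH0.le
  have h2 : 0 ≤ 2 * C * ((D / H) ^ (-(1 - θ)) * (s * s) ^ (1 - θ) * F ^ (2 * θ)) := by
    have := Real.rpow_nonneg hF0 (2 * θ)
    have h3 : 0 ≤ ((D : ℝ) / H) ^ (-(1 - θ)) := Real.rpow_nonneg (by positivity) _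
    have h4 : 0 ≤ (s * s) ^ (1 - θ) := by positivity
    positivity
  calc (⌊H⌋₊ : ℝ) * (2 * C * ((D / H) ^ (-(1 - θ)) * (s * s) ^ (1 - θ) * F ^ (2 * θ))) ≤
      H * (2 * C * ((D / H) ^ (-(1 - θ)) * (s * s) ^ (1 - θ) * F ^ (2 * θ))) :=
        mul_le_mul_of_nonneg_right h1 h2
    _ = 2 * C * H * (D / H) ^ (-(1 - θ)) * (s * s) ^ (1 - θ) * F ^ (2 * θ) := by ring

end Vale.P028
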