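import Vale.Agent.P028.MathlibUsed
import Vale.Agent.P028.XG3

/-!
# Block G, part 4: the induction over the primes with a bounded product
-/

namespace Vale.P028

open Finset

theorem xe_mul_xe (E : Finset ℕ) (i j : ℕ → ℕ) :
    (xe E i j : ℝ) * (xe E j i : ℝ) = ∏ p ∈ E, (p : ℝ) ^ ad (i p) (j p) := by
  unfold xe ad
  push_cast
  rw [← prod_mul_distrib]
  refine prod_congr rfl fun p _ => ?_
  rw [pow_add]

theorem xe_rpow (E : Finset ℕ) (i j : ℕ → ℕ) (t : ℝ) :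
    ∏ p ∈ E, ((p : ℝ) ^ (-t)) ^ ad (i p) (j p) =
      ((xe E i j : ℝ) * (xe E j i : ℝ)) ^ (-t) := by
  rw [xe_mul_xe, ← Real.finsetProd_rpow _ _ (fun p _ => by positivity)]
  refine prod_congr rfl fun p _ => ?_
  rw [← Real.rpow_natCast, ← Real.rpow_natCast, ← Real.rpow_mul (Nat.cast_nonneg _),
    ← Real.rpow_mul (Nat.cast_nonneg _), mul_comm]

theorem xg_prod_bounded {c C : ℝ} (hc : 0 < c) (hC : 0 < C) : ∃ M : ℝ, 0 < M ∧ ∀ N : ℕ,
    ∏ p ∈ prN N, (1 + C * (p : ℝ) ^ (-(1 + c))) ≤ M := by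
  have hsum : Summable (fun n : ℕ => C * (n : ℝ) ^ (-(1 + c))) := by
    apply Summable.mul_left
    rw [Real.summable_nat_rpow]
    linarith only [hc]
  refine ⟨Real.exp (∑' n : ℕ, C * (n : ℝ) ^ (-(1 + c))), Real.exp_pos _, fun N => ?_⟩
  have h0 : ∀ n : ℕ, 0 ≤ C * (n : ℝ) ^ (-(1 + c)) := fun n =>
    mul_nonneg hC.le (Real.rpow_nonneg (Nat.cast_nonneg _) _)
  calc ∏ p ∈ prN N, (1 + C * (p : ℝ) ^ (-(1 + c)))
      ≤ ∏ p ∈ prN N, Real.exp (C * (p : ℝ) ^ (-(1 + c))) := by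
        apply prod_le_prod
        · intro p _
          have := h0 p
          linarith only [this]
        · intro p _
          rw [add_comm]
          exact Real.add_one_le_exp _
    _ = Real.exp (∑ p ∈ prN N, C * (p : ℝ) ^ (-(1 + c))) := (Real.exp_sum _ _).symm
    _ ≤ Real.exp (∑' n : ℕ, C * (n : ℝ) ^ (-(1 + c))) := by
        apply Real.exp_le_exp.2
        exact hsum.sum_le_tsum _ (fun n _ => h0 n)

theorem xInd (hA : BlkA) (hB : BlkB) : XInd := by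
  intro θ hθ hθ1
  obtain ⟨κ, c, C, hκ, hκ1, hc, hC, hSP⟩ := hA θ hθ hθ1
  obtain ⟨M, hM, hprod⟩ := xg_prod_bounded hc hC
  refine ⟨κ, M, hκ, hκ1, hM, ?_⟩
  intro K N hK R g₁ g₂ hbase f h hf hh
  have hpr : ∀ p ∈ prN N, p.Prime := fun p hp => (mem_filter.1 hp).2
  have h1 := hB θ (by linarith only [hθ]) hθ1 (prN N)
    (fun p => (p : ℝ) ^ (-((1 - κ) * (1 - θ)))) (fun p => 1 + C * (p : ℝ) ^ (-(1 + c)))
    (fun p hp => ⟨Real.rpow_nonneg (Nat.cast_nonneg _) _, by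
      have : 0 ≤ C * (p : ℝ) ^ (-(1 + c)) :=
        mul_nonneg hC.le (Real.rpow_nonneg (Nat.cast_nonneg _) _)
      linarith only [this], hSP p (hpr p hp)⟩) K N hK R g₁ g₂ (by
      intro E hE i j k f' h' hf' hh'
      rw [xe_rpow]
      exact hbase E hE i j k f' h' hf' hh') f h hf hh
  refine h1.trans ?_
  have h2 : 0 ≤ ((∑ q ∈ Icc 1 N, f q) * ∑ r ∈ Icc 1 N, h r) ^ θ :=
    Real.rpow_nonneg (mul_nonneg (sum_nonneg fun q _ => (hf q).1)
      (sum_nonneg fun q _ => (hh q).1)) _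
  apply mul_le_mul_of_nonneg_right _ h2
  exact mul_le_mul_of_nonneg_right (hprod N) hK

/-- block G from the other blocks -/
theorem blkG_of_blocks (hA : BlkA) (hB : BlkB) (hC1 : BlkC1) (hC2 : BlkC2) (hD1 : BlkD1)
    (hD2 : BlkD2) (hD3 : BlkD3') (hE : BlkE) (hF0 : BlkF0) : BlkG :=
  blkG_of (xInd hA hB) xSpc hC1 hC2 hD1 hD2 hD3 hE hF0

end Vale.P028
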