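import Vale.Agent.P028.XDefs
import Vale.Agent.P028.NRow

/-!
# Block D1: the count for intervals
-/

namespace Vale.P028

open Finset

theorem blkD1 : BlkD1 := by
  classical
  refine ⟨32, by norm_num, ?_⟩
  intro H s α β R hH hs hs1 hX
  unfold XStr at hX
  push Not at hX
  obtain ⟨hR, hd⟩ := hX
  have hH0 : 0 < H := by linarith
  have hR0 : (0 : ℝ) < R := lt_trans (by positivity) hR
  have hRH : H ≤ R / H := by
    rw [le_div_iff₀ hH0]; nlinarith only [hR]
  have e1 : 32 * (s + 1 / H) * R = 32 * s * R + 32 * (R / H) := by ring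
  have hcongr : ((Icc 1 R).filter (fun n : ℕ => distInt (n * α - β) < 2 * s)).card =
      ((Icc 1 R).filter (fun n : ℕ => distInt ((n : ℝ) * α - β) < 2 * s)).card := rfl
  by_cases hc : ∀ j : ℕ, 0 < j → j ≤ ⌊H⌋₊ → 4 * s ≤ distInt ((j : ℝ) * α)
  · have h1 := nrow_sep (β := β) hc R
    have h2 : (R : ℝ) / (⌊H⌋₊ + 1) ≤ R / H := by
      have := Nat.lt_floor_add_one H
      gcongr
    refine le_trans ?_ (le_trans h1 ?_)
    · exact le_of_eq (by congr!)
    · have h3 : 0 ≤ s * R := by positivity
      linarith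
  · push Not at hc
    obtain ⟨h, hh, hhJ, hD4⟩ := hc
    have hhH : (h : ℝ) ≤ H := (Nat.cast_le.2 hhJ).trans (Nat.floor_le hH0.le)
    have h0 := hd h hh hhH
    have hD : 0 < distInt ((h : ℝ) * α) := by
      by_contra hneg
      have h1 : distInt ((h : ℝ) * α) * R ≤ 0 := mul_nonpos_of_nonpos_of_nonneg
        (not_lt.1 hneg) hR0.le
      have h2 : 0 < s * H ^ 2 := by positivity
      linarith
    have h1 := nrow_bad (β := β) hh hD hD4.le R
    have h2 : 8 * h * s / distInt ((h : ℝ) * α) ≤ 8 * (R / H) := by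
      rw [div_le_iff₀ hD]
      have h3 : s * H ≤ R / H * distInt ((h : ℝ) * α) := by
        rw [div_mul_eq_mul_div, le_div_iff₀ hH0]
        nlinarith only [h0]
      have h4 : (h : ℝ) * s ≤ H * s := mul_le_mul_of_nonneg_right hhH hs.le
      nlinarith only [h3, h4]
    refine le_trans ?_ (le_trans h1 ?_)
    · exact le_of_eq (by congr!)
    · have h3 : 0 ≤ R / H := by positivity
      linarith

end Vale.P028
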