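import Vale.Agent.P028.MathlibUsed
import Vale.Agent.P028.XE
import Vale.Agent.P028.XD1
import Vale.Agent.P028.XF1b
import Vale.Agent.P028.XF1M
import Vale.Agent.P028.XF2
import Vale.Agent.P028.XF2B
import Vale.Agent.P028.XF2D
import Vale.Agent.P028.XF3
import Vale.Agent.P028.XF4

/-!
# Block E from the large sieve
-/

namespace Vale.P028

/-- Block E from F1 (large sieve) -/
theorem blkE_of_F1 (h1 : BlkF1) : BlkE :=
  blkE_of blkD1 (blkF2_of_case2 (montS_of h1) blkF1b (f2_case2 (montS_of h1) blkF1b))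
    (blkF2b_of (montS_of h1) blkF1b) blkF3 blkF4'

end Vale.P028
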