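import Vale.Agent.P028.MathlibUsed
import Vale.Agent.P028.XDefs

/-!
# Block F1: the large sieve inequality
-/

namespace Vale.P028

namespace F1L

open Finset

/-- `e(t)`. -/
noncomputable def ee (t : ℝ) : ℂ := Complex.exp (2 * Real.pi * Complex.I * t)

theorem ee_add (s t : ℝ) : ee (s + t) = ee s * ee t := by
  unfold ee; rw [← Complex.exp_add]; congr 1; push_cast; ring

theorem ee_norm (t : ℝ) : ‖ee t‖ = 1 := by
  unfold ee
  rw [show (2 * Real.pi * Complex.I * (t : ℂ)) = ((2 * Real.pi * t : ℝ) : ℂ) * Complex.I by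
    push_cast; ring]
  exact Complex.norm_exp_ofReal_mul_I _

theorem ee_conj (t : ℝ) : (starRingEnd ℂ) (ee t) = ee (-t) := by
  unfold ee
  rw [← Complex.exp_conj]
  congr 1
  simp only [map_mul, Complex.conj_ofReal, Complex.conj_I, map_ofNat]
  push_cast; ring

theorem ee_int (n : ℤ) : ee n = 1 := by
  unfold ee
  rw [show (2 * Real.pi * Complex.I * ((n : ℝ) : ℂ)) = n * (2 * Real.pi * Complex.I) by
    push_cast; ring]
  exact Complex.exp_int_mul_two_pi_mul_I n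

/-- Dirichlet kernel. -/
noncomputable def DM (M : ℕ) (t : ℝ) : ℂ := ∑ a ∈ range M, ee (a * t)

theorem DM_le (M : ℕ) (t : ℝ) : ‖DM M t‖ ≤ M := by
  unfold DM
  refine (norm_sum_le _ _).trans ?_
  simp [ee_norm]

theorem ee_sub_one_norm (t : ℝ) (ht : |t| ≤ 1 / 2) : 4 * |t| ≤ ‖ee t - 1‖ := by
  have h1 : ‖ee t - 1‖ = 2 * |Real.sin (Real.pi * t)| := by
    have e1 : ee t - 1 = ee (t / 2) * (2 * Complex.I * (Real.sin (Real.pi * t) : ℂ)) := by
      have e2 : ee t = ee (t / 2) * ee (t / 2) := by rw [← ee_add]; congr 1; ring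
      have e3 : (1 : ℂ) = ee (t / 2) * ee (-(t / 2)) := by
        rw [← ee_add, add_neg_cancel]; unfold ee; simp
      have e4 : (2 * Complex.I * (Real.sin (Real.pi * t) : ℂ)) = ee (t / 2) - ee (-(t / 2)) := by
        unfold ee
        rw [Complex.ofReal_sin]
        have := Complex.sin (Real.pi * t : ℝ)
        rw [Complex.sin]
        push_cast
        have e5 : (2 * Real.pi * Complex.I * ((t : ℂ) / 2)) = (Real.pi : ℂ) * t * Complex.I := by ring
        have e6 : (2 * Real.pi * Complex.I * (-((t : ℂ) / 2))) = -((Real.pi : ℂ) * t) * Complex.I := by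
          ring
        rw [e5, e6]
        have hI : Complex.I * Complex.I = -1 := Complex.I_mul_I
        linear_combination (Complex.exp (-(↑Real.pi * ↑t) * Complex.I)
          - Complex.exp (↑Real.pi * ↑t * Complex.I)) * hI
      rw [e4, mul_sub, ← e2, ← e3]
    rw [e1, norm_mul, ee_norm, one_mul, norm_mul, norm_mul, Complex.norm_I, mul_one,
      Complex.norm_real, Real.norm_eq_abs]
    simp
  rw [h1]
  have h2 : 2 * |t| ≤ |Real.sin (Real.pi * t)| := by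
    have h3 : |Real.sin (Real.pi * t)| = Real.sin (Real.pi * |t|) := by
      rcases le_or_gt 0 t with h | h
      · rw [abs_of_nonneg h] at ht ⊢
        apply abs_of_nonneg
        apply Real.sin_nonneg_of_nonneg_of_le_pi (by positivity)
        nlinarith [Real.pi_pos]
      · rw [abs_of_neg h] at ht ⊢
        rw [show Real.pi * t = -(Real.pi * -t) by ring, Real.sin_neg, abs_neg]
        apply abs_of_nonneg
        apply Real.sin_nonneg_of_nonneg_of_le_pi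
        · have := Real.pi_pos; nlinarith
        · nlinarith [Real.pi_pos]
    rw [h3]
    have h4 := Real.mul_le_sin (x := Real.pi * |t|) (by positivity) (by nlinarith [Real.pi_pos])
    calc 2 * |t| = 2 / Real.pi * (Real.pi * |t|) := by field_simp
      _ ≤ _ := h4
  linarith

theorem DM_bound (M : ℕ) (t : ℝ) (ht : |t| ≤ 1 / 2) (ht0 : t ≠ 0) :
    ‖DM M t‖ ≤ 1 / (2 * |t|) := by
  have h0 : 0 < |t| := abs_pos.2 ht0
  have h1 := ee_sub_one_norm t ht
  have h2 : ee t ≠ 1 := by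
    intro h; rw [h, sub_self, norm_zero] at h1; linarith
  have h3 : DM M t = (ee t ^ M - 1) / (ee t - 1) := by
    unfold DM
    rw [← geom_sum_eq h2]
    apply sum_congr rfl
    intro a _
    unfold ee
    rw [← Complex.exp_nat_mul]
    congr 1
    push_cast; ring
  rw [h3, norm_div]
  have h4 : ‖ee t ^ M - 1‖ ≤ 2 := by
    refine (norm_sub_le _ _).trans ?_
    rw [norm_pow, ee_norm]; norm_num
  have h5 : 0 < ‖ee t - 1‖ := by linarith
  rw [div_le_div_iff₀ h5 (by positivity)]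
  nlinarith [norm_nonneg (ee t ^ M - 1)]

theorem DM_int (M : ℕ) (t : ℝ) (n : ℤ) : DM M (t - n) = DM M t := by
  unfold DM
  apply sum_congr rfl
  intro a _
  rw [mul_sub, sub_eq_add_neg, ee_add]
  have : -((a : ℝ) * n) = ((-(a * n) : ℤ) : ℝ) := by push_cast; ring
  rw [this, ee_int, mul_one]

theorem sum_inv_sq_le' (L : ℕ) :
    ∑ n ∈ range (L + 1), 1 / ((n : ℝ) + 1) ^ 2 ≤ 2 - 1 / ((L : ℝ) + 1) := by
  induction L with
  | zero => norm_num
  | succ L ih =>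
    rw [sum_range_succ]
    have h : 1 / (((L + 1 : ℕ) : ℝ) + 1) ^ 2 ≤ 1 / ((L : ℝ) + 1) - 1 / (((L + 1 : ℕ) : ℝ) + 1) := by
      have hL : (0 : ℝ) ≤ L := Nat.cast_nonneg L
      rw [div_sub_div _ _ (by positivity) (by positivity), div_le_div_iff₀ (by positivity)
        (by positivity)]
      push_cast
      nlinarith
    linarith

theorem sum_inv_sq_le (L : ℕ) : ∑ n ∈ range L, 1 / ((n : ℝ) + 1) ^ 2 ≤ 2 := by
  cases L with
  | zero => norm_num
  | succ L =>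
    have := sum_inv_sq_le' L
    have h : 0 ≤ 1 / ((L : ℝ) + 1) := by positivity
    linarith

/-- One sided separated sums. -/
theorem oneside {ι : Type} (J : Finset ι) (u G : ι → ℝ) {K M : ℝ} (hK : 0 < K) (hM : 0 ≤ M)
    (hu : ∀ j ∈ J, 0 ≤ u j) (hsep : ∀ i ∈ J, ∀ j ∈ J, i ≠ j → 1 / K ≤ |u i - u j|)
    (hG0 : ∀ j ∈ J, 0 ≤ G j)
    (hG1 : ∀ j ∈ J, G j ≤ M) (hG2 : ∀ j ∈ J, G j * (4 * u j ^ 2) ≤ 1) :
    ∑ j ∈ J, G j ≤ M + K ^ 2 / 2 := by
  classical
  obtain ⟨g, hg⟩ : ∃ g : ℕ → ℝ, g = fun n : ℕ => if n = 0 then M else K ^ 2 / (4 * (n : ℝ) ^ 2) :=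
    ⟨_, rfl⟩
  have hg0 : ∀ n, 0 ≤ g n := by
    intro n; rw [hg]; simp only; split_ifs
    · exact hM
    · positivity
  have h1 : ∀ j ∈ J, G j ≤ g ⌊K * u j⌋₊ := by
    intro j hj
    rw [hg]; simp only
    split_ifs with h0
    · exact hG1 j hj
    · have hn : (1 : ℝ) ≤ (⌊K * u j⌋₊ : ℝ) := by
        exact_mod_cast Nat.one_le_iff_ne_zero.2 h0
      have hn2 : (⌊K * u j⌋₊ : ℝ) ≤ K * u j := Nat.floor_le (mul_nonneg hK.le (hu j hj))
      rw [le_div_iff₀ (by positivity)]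
      have h3 : (⌊K * u j⌋₊ : ℝ) ^ 2 ≤ (K * u j) ^ 2 := by gcongr
      calc G j * (4 * (⌊K * u j⌋₊ : ℝ) ^ 2) ≤ G j * (4 * (K * u j) ^ 2) := by
            have := hG0 j hj
            gcongr
        _ = K ^ 2 * (G j * (4 * u j ^ 2)) := by ring
        _ ≤ K ^ 2 * 1 := by
            have := hG2 j hj
            gcongr
        _ = K ^ 2 := mul_one _
  have hinj : Set.InjOn (fun j => ⌊K * u j⌋₊) (J : Set ι) := by
    intro i hi j hj hij
    by_contra hne
    have h3 := hsep i hi j hj hne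
    simp only at hij
    have h4 : |K * u i - K * u j| < 1 := by
      have a1 := Nat.floor_le (mul_nonneg hK.le (hu i hi))
      have a2 := Nat.lt_floor_add_one (K * u i)
      have b1 := Nat.floor_le (mul_nonneg hK.le (hu j hj))
      have b2 := Nat.lt_floor_add_one (K * u j)
      rw [hij] at a1 a2
      rw [abs_lt]; constructor <;> linarith
    rw [← mul_sub, abs_mul, abs_of_pos hK] at h4
    rw [div_le_iff₀ hK] at h3
    linarith
  obtain ⟨L, hL⟩ : ∃ L : ℕ, ∀ j ∈ J, ⌊K * u j⌋₊ < L := by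
    refine ⟨(J.sup fun j => ⌊K * u j⌋₊) + 1, fun j hj => ?_⟩
    exact Nat.lt_succ_of_le (le_sup (f := fun j => ⌊K * u j⌋₊) hj)
  calc ∑ j ∈ J, G j ≤ ∑ j ∈ J, g ⌊K * u j⌋₊ := sum_le_sum h1
    _ = ∑ n ∈ J.image (fun j => ⌊K * u j⌋₊), g n := (sum_image hinj).symm
    _ ≤ ∑ n ∈ range (L + 1), g n := by
        apply sum_le_sum_of_subset_of_nonneg
        · intro n hn
          rw [mem_image] at hn
          obtain ⟨j, hj, rfl⟩ := hn
          rw [mem_range]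
          have := hL j hj
          omega
        · intro n _ _; exact hg0 n
    _ = (∑ n ∈ range L, K ^ 2 / 4 * (1 / ((n : ℝ) + 1) ^ 2)) + M := by
        rw [sum_range_succ']
        congr 1
        · apply sum_congr rfl
          intro n _
          rw [hg]; simp only
          rw [if_neg (by omega)]
          push_cast
          field_simp
        · rw [hg]; simp
    _ ≤ K ^ 2 / 4 * 2 + M := by
        rw [← mul_sum]
        have := sum_inv_sq_le L
        gcongr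
    _ = M + K ^ 2 / 2 := by ring

/-- The row sums. -/
theorem row_sum {ι : Type} (I : Finset ι) (z : ι → ℝ) {K : ℝ} (M : ℕ) (hK : 0 < K)
    (hsep : ∀ i ∈ I, ∀ j ∈ I, i ≠ j → 1 / K ≤ distInt (z i - z j)) :
    ∑ i ∈ I, ‖DM M (z i)‖ ^ 2 ≤ 2 * (M : ℝ) ^ 2 + K ^ 2 := by
  classical
  obtain ⟨t, ht⟩ : ∃ t : ι → ℝ, ∀ i, t i = z i - round (z i) := ⟨fun i => z i - round (z i), fun _ => rfl⟩
  have h1 : ∀ i, ‖DM M (z i)‖ ^ 2 = ‖DM M (t i)‖ ^ 2 := by
    intro i; rw [ht, DM_int]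
  have h2 : ∀ i, |t i| ≤ 1 / 2 := by
    intro i; rw [ht]; exact abs_sub_round _
  have h3 : ∀ i ∈ I, ∀ j ∈ I, i ≠ j → 1 / K ≤ |t i - t j| := by
    intro i hi j hj hne
    refine (hsep i hi j hj hne).trans ?_
    unfold distInt
    have := round_le (z i - z j) (round (z i) - round (z j))
    refine this.trans (le_of_eq ?_)
    rw [ht, ht]; push_cast; congr 1; ring
  have hG1 : ∀ i, ‖DM M (t i)‖ ^ 2 ≤ (M : ℝ) ^ 2 := by
    intro i
    have := DM_le M (t i)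
    gcongr
  have hG2 : ∀ i, ‖DM M (t i)‖ ^ 2 * (4 * |t i| ^ 2) ≤ 1 := by
    intro i
    by_cases h0 : t i = 0
    · rw [h0]; simp
    · have h4 := DM_bound M (t i) (h2 i) h0
      have h5 : 0 < |t i| := abs_pos.2 h0
      rw [le_div_iff₀ (by positivity)] at h4
      have h6 : (‖DM M (t i)‖ * (2 * |t i|)) ^ 2 ≤ 1 ^ 2 := by gcongr
      calc ‖DM M (t i)‖ ^ 2 * (4 * |t i| ^ 2) = (‖DM M (t i)‖ * (2 * |t i|)) ^ 2 := by ring
        _ ≤ 1 ^ 2 := h6
        _ = 1 := one_pow 2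
  have hpos := oneside (I.filter (fun i => 0 ≤ t i)) t (fun i => ‖DM M (t i)‖ ^ 2) (K := K)
    (M := (M : ℝ) ^ 2) hK (by positivity) (fun j hj => (mem_filter.1 hj).2)
    (fun i hi j hj hne => h3 i (mem_filter.1 hi).1 j (mem_filter.1 hj).1 hne)
    (fun j _ => by positivity) (fun j _ => hG1 j)
    (fun j _ => by rw [← sq_abs (t j)]; exact hG2 j)
  have hneg := oneside (I.filter (fun i => ¬ 0 ≤ t i)) (fun i => - t i)
    (fun i => ‖DM M (t i)‖ ^ 2) (K := K)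
    (M := (M : ℝ) ^ 2) hK (by positivity)
    (fun j hj => by have := (mem_filter.1 hj).2; linarith)
    (fun i hi j hj hne => by
      have := h3 i (mem_filter.1 hi).1 j (mem_filter.1 hj).1 hne
      rw [show -t i - -t j = -(t i - t j) by ring, abs_neg]; exact this)
    (fun j _ => by positivity) (fun j _ => hG1 j)
    (fun j _ => by rw [neg_sq, ← sq_abs (t j)]; exact hG2 j)
  calc ∑ i ∈ I, ‖DM M (z i)‖ ^ 2 = ∑ i ∈ I, ‖DM M (t i)‖ ^ 2 := sum_congr rfl (fun i _ => h1 i)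
    _ = ∑ i ∈ I.filter (fun i => 0 ≤ t i), ‖DM M (t i)‖ ^ 2 +
        ∑ i ∈ I.filter (fun i => ¬ 0 ≤ t i), ‖DM M (t i)‖ ^ 2 :=
          (sum_filter_add_sum_filter_not I _ _).symm
    _ ≤ _ := by linarith

/-- The dual large sieve over the square. -/
theorem dual_square {ι : Type} (I : Finset ι) (x : ι → ℝ) {K : ℝ} (M : ℕ) (hK : 0 < K)
    (hsep : ∀ i ∈ I, ∀ j ∈ I, i ≠ j → 1 / K ≤ distInt (x i - x j)) (c : ι → ℂ) :
    ∑ a ∈ range M, ∑ b ∈ range M, ‖∑ i ∈ I, c i * ee (((a + b : ℕ) : ℝ) * x i)‖ ^ 2 ≤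
      (2 * (M : ℝ) ^ 2 + K ^ 2) * ∑ i ∈ I, ‖c i‖ ^ 2 := by
  have h1 : ∀ m : ℝ, ((‖∑ i ∈ I, c i * ee (m * x i)‖ ^ 2 : ℝ) : ℂ) =
      ∑ i ∈ I, ∑ j ∈ I, c i * (starRingEnd ℂ) (c j) * ee (m * (x i - x j)) := by
    intro m
    rw [← Complex.normSq_eq_norm_sq, Complex.normSq_eq_conj_mul_self, mul_comm, map_sum, sum_mul_sum]
    apply sum_congr rfl
    intro i _
    apply sum_congr rfl
    intro j _
    rw [map_mul, ee_conj, mul_sub, sub_eq_add_neg, ee_add]
    ring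
  have h2 : ((∑ a ∈ range M, ∑ b ∈ range M,
      ‖∑ i ∈ I, c i * ee (((a + b : ℕ) : ℝ) * x i)‖ ^ 2 : ℝ) : ℂ) =
      ∑ i ∈ I, ∑ j ∈ I, c i * (starRingEnd ℂ) (c j) * DM M (x i - x j) ^ 2 := by
    rw [Complex.ofReal_sum]
    have e1 : ∀ a ∈ range M, ((∑ b ∈ range M,
      ‖∑ i ∈ I, c i * ee (((a + b : ℕ) : ℝ) * x i)‖ ^ 2 : ℝ) : ℂ) =
        ∑ i ∈ I, ∑ j ∈ I, ∑ b ∈ range M,
          c i * (starRingEnd ℂ) (c j) * ee (((a + b : ℕ) : ℝ) * (x i - x j)) := by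
      intro a _
      rw [Complex.ofReal_sum]
      rw [sum_congr rfl (fun b _ => h1 _)]
      rw [sum_comm]
      apply sum_congr rfl
      intro i _
      rw [sum_comm]
    rw [sum_congr rfl e1, sum_comm]
    apply sum_congr rfl
    intro i _
    rw [sum_comm]
    apply sum_congr rfl
    intro j _
    unfold DM
    rw [sq, sum_mul_sum, mul_sum]
    apply sum_congr rfl
    intro a _
    rw [mul_sum]
    apply sum_congr rfl
    intro b _
    congr 1
    rw [← ee_add]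
    congr 1
    push_cast
    ring
  have h3 : ∑ a ∈ range M, ∑ b ∈ range M,
      ‖∑ i ∈ I, c i * ee (((a + b : ℕ) : ℝ) * x i)‖ ^ 2 ≤
      ∑ i ∈ I, ∑ j ∈ I, ‖c i‖ * ‖c j‖ * ‖DM M (x i - x j)‖ ^ 2 := by
    have h4 := congrArg norm h2
    rw [Complex.norm_real, Real.norm_of_nonneg (by positivity)] at h4
    rw [h4]
    refine (norm_sum_le _ _).trans ?_
    apply sum_le_sum
    intro i _
    refine (norm_sum_le _ _).trans ?_
    apply sum_le_sum
    intro j _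
    rw [norm_mul, norm_mul, norm_pow, RCLike.norm_conj]
  have hrow : ∀ i ∈ I, ∑ j ∈ I, ‖DM M (x i - x j)‖ ^ 2 ≤ 2 * (M : ℝ) ^ 2 + K ^ 2 := by
    intro i _
    apply row_sum I (fun j => x i - x j) M hK
    intro j hj j' hj' hne
    have := hsep j' hj' j hj (Ne.symm hne)
    rw [show x i - x j - (x i - x j') = x j' - x j by ring]; exact this
  have hcol : ∀ j ∈ I, ∑ i ∈ I, ‖DM M (x i - x j)‖ ^ 2 ≤ 2 * (M : ℝ) ^ 2 + K ^ 2 := by
    intro j _
    apply row_sum I (fun i => x i - x j) M hK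
    intro i hi i' hi' hne
    have := hsep i hi i' hi' hne
    rw [show x i - x j - (x i' - x j) = x i - x i' by ring]; exact this
  refine h3.trans ?_
  have h5 : ∑ i ∈ I, ∑ j ∈ I, ‖c i‖ * ‖c j‖ * ‖DM M (x i - x j)‖ ^ 2 ≤
      ∑ i ∈ I, ∑ j ∈ I, (‖c i‖ ^ 2 / 2 * ‖DM M (x i - x j)‖ ^ 2 +
        ‖c j‖ ^ 2 / 2 * ‖DM M (x i - x j)‖ ^ 2) := by
    apply sum_le_sum; intro i _
    apply sum_le_sum; intro j _
    rw [← add_mul]
    apply mul_le_mul_of_nonneg_right _ (by positivity)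
    nlinarith [sq_nonneg (‖c i‖ - ‖c j‖)]
  refine h5.trans ?_
  simp_rw [sum_add_distrib]
  have h6 : ∑ i ∈ I, ∑ j ∈ I, ‖c i‖ ^ 2 / 2 * ‖DM M (x i - x j)‖ ^ 2 ≤
      ∑ i ∈ I, ‖c i‖ ^ 2 / 2 * (2 * (M : ℝ) ^ 2 + K ^ 2) := by
    apply sum_le_sum; intro i hi
    rw [← mul_sum]
    exact mul_le_mul_of_nonneg_left (hrow i hi) (by positivity)
  have h7 : ∑ i ∈ I, ∑ j ∈ I, ‖c j‖ ^ 2 / 2 * ‖DM M (x i - x j)‖ ^ 2 ≤
      ∑ j ∈ I, ‖c j‖ ^ 2 / 2 * (2 * (M : ℝ) ^ 2 + K ^ 2) := by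
    rw [sum_comm]
    apply sum_le_sum; intro j hj
    rw [← mul_sum]
    exact mul_le_mul_of_nonneg_left (hcol j hj) (by positivity)
  have h8 : ∑ i ∈ I, ‖c i‖ ^ 2 / 2 * (2 * (M : ℝ) ^ 2 + K ^ 2) =
      (2 * (M : ℝ) ^ 2 + K ^ 2) * (∑ i ∈ I, ‖c i‖ ^ 2) / 2 := by
    rw [mul_sum, sum_div]
    apply sum_congr rfl; intro i _; ring
  rw [h8] at h6 h7
  linarith

/-- Diagonals of the square. -/
theorem diag_le (A : Finset ℕ) (F : ℕ → ℝ) (hF : ∀ n, 0 ≤ F n) {K : ℝ} {M : ℕ}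
    (hA : ∀ k ∈ A, K < k ∧ k < M) :
    K * ∑ k ∈ A, F k ≤ ∑ a ∈ range M, ∑ b ∈ range M, F (a + b) := by
  classical
  have h1 : ∑ p ∈ A.biUnion (fun k => antidiagonal k), F (p.1 + p.2) ≤
      ∑ p ∈ range M ×ˢ range M, F (p.1 + p.2) := by
    apply sum_le_sum_of_subset_of_nonneg
    · intro p hp
      rw [mem_biUnion] at hp
      obtain ⟨k, hk, hp⟩ := hp
      rw [mem_antidiagonal] at hp
      rw [mem_product, mem_range, mem_range]
      have := (hA k hk).2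
      omega
    · intro p _ _; exact hF _
  rw [sum_product] at h1
  refine le_trans ?_ h1
  rw [sum_biUnion, mul_sum]
  · apply sum_le_sum
    intro k hk
    have h2 : ∑ p ∈ antidiagonal k, F (p.1 + p.2) = ∑ p ∈ antidiagonal k, F k := by
      apply sum_congr rfl
      intro p hp
      rw [mem_antidiagonal.1 hp]
    rw [h2, sum_const, Nat.card_antidiagonal, nsmul_eq_mul]
    apply mul_le_mul_of_nonneg_right _ (hF k)
    have := (hA k hk).1
    push_cast; linarith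
  · intro k _ k' _ hne
    rw [Function.onFun, disjoint_left]
    intro p hp hp'
    rw [mem_antidiagonal] at hp hp'
    exact hne (hp.symm.trans hp')

/-- Block F1: the large sieve inequality. -/
theorem blkF1 : BlkF1 := by
  refine ⟨19, by norm_num, fun K hK ι I x hsep A hA => ?_⟩
  have hK0 : 0 < K := by linarith
  obtain ⟨S, hS⟩ : ∃ S : ι → ℂ, ∀ i, S i = ∑ k ∈ A, ee ((k : ℝ) * x i) := ⟨_, fun _ => rfl⟩
  have hSe : ∀ i, ∑ k ∈ A, Complex.exp (2 * Real.pi * Complex.I * (k * x i)) = S i := by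
    intro i; rw [hS]; apply sum_congr rfl; intro k _; unfold ee; congr 1; push_cast; ring
  simp_rw [hSe]
  obtain ⟨T, hT⟩ : ∃ T : ℝ, T = ∑ i ∈ I, ‖S i‖ ^ 2 := ⟨_, rfl⟩
  rw [← hT]
  have hT0 : 0 ≤ T := by rw [hT]; positivity
  obtain ⟨g, hg⟩ : ∃ g : ℕ → ℂ, ∀ k, g k = ∑ i ∈ I, (starRingEnd ℂ) (S i) * ee ((k : ℝ) * x i) :=
    ⟨_, fun _ => rfl⟩
  have h1 : (T : ℂ) = ∑ k ∈ A, g k := by
    simp_rw [hg]
    rw [sum_comm, hT, Complex.ofReal_sum]
    apply sum_congr rfl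
    intro i _
    rw [← mul_sum, ← hS, ← Complex.normSq_eq_norm_sq, Complex.normSq_eq_conj_mul_self]
  have h2 : T ≤ ∑ k ∈ A, ‖g k‖ := by
    have := congrArg norm h1
    rw [Complex.norm_real, Real.norm_of_nonneg hT0] at this
    rw [this]; exact norm_sum_le _ _
  have h3 : T ^ 2 ≤ A.card * ∑ k ∈ A, ‖g k‖ ^ 2 :=
    (pow_le_pow_left₀ hT0 h2 2).trans (sq_sum_le_card_mul_sum_sq)
  obtain ⟨M, hM⟩ : ∃ M : ℕ, M = ⌊2 * K⌋₊ + 1 := ⟨_, rfl⟩
  have hM1 : (M : ℝ) ≤ 3 * K := by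
    rw [hM]; push_cast
    have := Nat.floor_le (show 0 ≤ 2 * K by linarith)
    linarith
  have h4 := diag_le A (fun k => ‖g k‖ ^ 2) (fun _ => by positivity) (K := K) (M := M) (by
    intro k hk
    refine ⟨(hA k hk).1, ?_⟩
    rw [hM]
    exact Nat.lt_succ_of_le (Nat.le_floor (hA k hk).2))
  have h5 := dual_square I x M hK0 hsep (fun i => (starRingEnd ℂ) (S i))
  simp_rw [RCLike.norm_conj] at h5
  rw [← hT] at h5
  simp_rw [← hg] at h5
  have h6 : K * ∑ k ∈ A, ‖g k‖ ^ 2 ≤ 19 * K ^ 2 * T := by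
    refine h4.trans (h5.trans ?_)
    apply mul_le_mul_of_nonneg_right _ hT0
    have : (M : ℝ) ^ 2 ≤ (3 * K) ^ 2 := by gcongr
    nlinarith
  have h7 : ∑ k ∈ A, ‖g k‖ ^ 2 ≤ 19 * K * T := by
    have : K * ∑ k ∈ A, ‖g k‖ ^ 2 ≤ K * (19 * K * T) := by
      refine h6.trans (le_of_eq ?_); ring
    exact le_of_mul_le_mul_left this hK0
  have h8 : T * T ≤ T * (19 * K * A.card) := by
    calc T * T = T ^ 2 := by ring
      _ ≤ A.card * ∑ k ∈ A, ‖g k‖ ^ 2 := h3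
      _ ≤ A.card * (19 * K * T) := by gcongr
      _ = T * (19 * K * A.card) := by ring
  rcases hT0.eq_or_lt with h0 | h0
  · rw [← h0]; positivity
  · exact le_of_mul_le_mul_left h8 h0

end F1L

/-- Block F1: the large sieve inequality. -/
theorem blkF1 : BlkF1 := F1L.blkF1

end Vale.P028
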