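import Vale.Agent.P028.MathlibUsed
import Vale.Agent.P028.XF2A
import Vale.Agent.P028.XF2
import Vale.Agent.P028.XF1M

/-!
# Block F2, the case of a large denominator
-/

namespace Vale.P028

open Finset

/-- `∏_{p ≤ n} (1 - 1/p)`. -/
noncomputable def pfac (n : ℕ) : ℝ := ∏ p ∈ (Icc 1 n).filter Nat.Prime, (1 - 1 / (p : ℝ))

theorem pfac_succ_prime {n : ℕ} (h : (n + 1).Prime) :
    pfac (n + 1) = (1 - 1 / ((n + 1 : ℕ) : ℝ)) * pfac n := by
  unfold pfac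
  have e : (Icc 1 (n + 1)).filter Nat.Prime = insert (n + 1) ((Icc 1 n).filter Nat.Prime) := by
    ext p
    simp only [mem_filter, mem_Icc, mem_insert]
    constructor
    · rintro ⟨⟨h1, h2⟩, h3⟩
      rcases Nat.lt_or_ge n p with h4 | h4
      · left; omega
      · right; exact ⟨⟨h1, h4⟩, h3⟩
    · rintro (h1 | ⟨⟨h1, h2⟩, h3⟩)
      · subst h1; exact ⟨⟨by omega, le_refl _⟩, h⟩
      · exact ⟨⟨h1, by omega⟩, h3⟩
  rw [e, prod_insert]
  simp

theorem pfac_succ_not {n : ℕ} (h : ¬ (n + 1).Prime) : pfac (n + 1) = pfac n := by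
  unfold pfac
  congr 1
  ext p
  simp only [mem_filter, mem_Icc]
  constructor
  · rintro ⟨⟨h1, h2⟩, h3⟩
    refine ⟨⟨h1, ?_⟩, h3⟩
    rcases Nat.lt_or_ge n p with h4 | h4
    · exfalso; exact h ((show p = n + 1 by omega) ▸ h3)
    · exact h4
  · rintro ⟨⟨h1, h2⟩, h3⟩
    exact ⟨⟨h1, by omega⟩, h3⟩

theorem pfac_factor {p : ℕ} (hp : p.Prime) : 0 < 1 - 1 / (p : ℝ) ∧ 1 - 1 / (p : ℝ) ≤ 1 := by
  have h2 : (2 : ℝ) ≤ p := by exact_mod_cast hp.two_le
  have h3 : 1 / (p : ℝ) ≤ 1 / 2 := one_div_le_one_div_of_le (by norm_num) h2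
  have h4 : 0 < 1 / (p : ℝ) := by positivity
  constructor <;> linarith

theorem pfac_pos (n : ℕ) : 0 < pfac n := by
  unfold pfac
  apply prod_pos
  intro p hp
  exact (pfac_factor (mem_filter.1 hp).2).1

theorem pfac_succ_ge (n : ℕ) (hn : 1 ≤ n) :
    (1 - 1 / ((n + 1 : ℕ) : ℝ)) * pfac n ≤ pfac (n + 1) := by
  by_cases h : (n + 1).Prime
  · rw [pfac_succ_prime h]
  · rw [pfac_succ_not h]
    have h1 := pfac_pos n
    have h2 : 0 ≤ 1 / ((n + 1 : ℕ) : ℝ) := by positivity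
    nlinarith

theorem pfac_odd (m : ℕ) : 1 / (4 * (2 * (m : ℝ) + 1)) ≤ pfac (2 * m + 1) ^ 2 := by
  induction m with
  | zero =>
    have : pfac (2 * 0 + 1) = 1 := by
      unfold pfac
      have : (Icc 1 (2 * 0 + 1)).filter Nat.Prime = ∅ := by decide
      rw [this]; simp
    rw [this]; norm_num
  | succ m ih =>
    rcases Nat.eq_zero_or_pos m with h0 | h0
    · subst h0
      have e1 : pfac (2 * (0 + 1) + 1) = 1 / 3 := by
        have e2 : pfac 1 = 1 := by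
          unfold pfac
          have : (Icc 1 1).filter Nat.Prime = ∅ := by decide
          rw [this]; simp
        have e3 : pfac (1 + 1) = (1 - 1 / ((1 + 1 : ℕ) : ℝ)) * pfac 1 :=
          pfac_succ_prime (by norm_num)
        have e4 : pfac (2 + 1) = (1 - 1 / ((2 + 1 : ℕ) : ℝ)) * pfac 2 :=
          pfac_succ_prime (by norm_num)
        have e5 : pfac (2 * (0 + 1) + 1) = pfac (2 + 1) := by norm_num
        have e6 : pfac 2 = pfac (1 + 1) := by norm_num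
        rw [e5, e4, e6, e3, e2]; norm_num
      rw [e1]; norm_num
    · have h1 : ¬ (2 * m + 1 + 1).Prime := by
        intro hp
        have h2 : 2 ∣ 2 * m + 1 + 1 := ⟨m + 1, by ring⟩
        have := (Nat.prime_dvd_prime_iff_eq Nat.prime_two hp).1 h2
        omega
      have h2 := pfac_succ_ge (2 * m + 1 + 1) (by omega)
      rw [pfac_succ_not h1] at h2
      have e1 : 2 * (m + 1) + 1 = 2 * m + 1 + 1 + 1 := by ring
      rw [e1]
      have hp := pfac_pos (2 * m + 1)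
      have hm : (1 : ℝ) ≤ m := by exact_mod_cast h0
      have e2 : (1 - 1 / ((2 * m + 1 + 1 + 1 : ℕ) : ℝ)) = (2 * m + 2) / (2 * m + 3) := by
        push_cast
        field_simp
        ring
      rw [e2] at h2
      have h3 : ((2 * (m : ℝ) + 2) / (2 * m + 3) * pfac (2 * m + 1)) ^ 2 ≤
          pfac (2 * m + 1 + 1 + 1) ^ 2 := by gcongr
      refine le_trans ?_ h3
      rw [mul_pow]
      have h4 : ((2 * (m : ℝ) + 2) / (2 * m + 3)) ^ 2 * (1 / (4 * (2 * (m : ℝ) + 1))) ≤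
          ((2 * (m : ℝ) + 2) / (2 * m + 3)) ^ 2 * pfac (2 * m + 1) ^ 2 := by gcongr
      refine le_trans ?_ h4
      rw [div_pow, div_mul_div_comm, div_le_div_iff₀ (by positivity) (by positivity)]
      push_cast
      nlinarith

theorem totient_ge_pfac {B z : ℕ} (hB : 0 < B) (h : ∀ p : ℕ, p.Prime → p ∣ B → p ≤ z) :
    pfac z ≤ (B.totient : ℝ) / B := by
  have hBR : (0 : ℝ) < B := by exact_mod_cast hB
  have e : (B.totient : ℝ) / B = ∏ p ∈ B.primeFactors, (1 - 1 / (p : ℝ)) := by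
    have h1 := Nat.totient_eq_mul_prod_factors B
    have h2 : ((B.totient : ℚ) : ℝ) = ((B * ∏ p ∈ B.primeFactors, (1 - (p : ℚ)⁻¹) : ℚ) : ℝ) := by
      rw [h1]
    push_cast at h2
    rw [h2, mul_div_cancel_left₀ _ hBR.ne']
    apply prod_congr rfl
    intro p _
    rw [one_div]
  rw [e]
  unfold pfac
  have hsub : B.primeFactors ⊆ (Icc 1 z).filter Nat.Prime := by
    intro p hp
    have hp' := Nat.prime_of_mem_primeFactors hp
    rw [mem_filter, mem_Icc]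
    exact ⟨⟨hp'.one_lt.le, h p hp' (Nat.dvd_of_mem_primeFactors hp)⟩, hp'⟩
  rw [← prod_sdiff hsub]
  have h1 : ∏ p ∈ ((Icc 1 z).filter Nat.Prime) \ B.primeFactors, (1 - 1 / (p : ℝ)) ≤ 1 := by
    apply prod_le_one
    · intro p hp; exact (pfac_factor (mem_filter.1 (mem_sdiff.1 hp).1).2).1.le
    · intro p hp; exact (pfac_factor (mem_filter.1 (mem_sdiff.1 hp).1).2).2
  have h2 : 0 ≤ ∏ p ∈ B.primeFactors, (1 - 1 / (p : ℝ)) := by
    apply prod_nonneg
    intro p hp; exact (pfac_factor (Nat.prime_of_mem_primeFactors hp)).1.le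
  calc _ ≤ 1 * ∏ p ∈ B.primeFactors, (1 - 1 / (p : ℝ)) := mul_le_mul_of_nonneg_right h1 h2
    _ = _ := one_mul _

/-- The lower bound for `φ(B)/B` when all the primes of `B` are below `√H`. -/
theorem totient_ge_quarter {B : ℕ} {H : ℝ} (hH : 1 ≤ H) (hB : 0 < B)
    (h : ∀ p : ℕ, p.Prime → p ∣ B → (p : ℝ) ≤ √H) :
    1 / (3 * H ^ (1 / 4 : ℝ)) ≤ (B.totient : ℝ) / B := by
  have hsH : 1 ≤ √H := Real.one_le_sqrt.2 hH
  have hHp : 0 < H ^ (1 / 4 : ℝ) := Real.rpow_pos_of_pos (by linarith) _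
  have h14 : (H ^ (1 / 4 : ℝ)) ^ 2 = √H := by
    rw [Real.sqrt_eq_rpow, ← Real.rpow_natCast, ← Real.rpow_mul (by linarith)]
    norm_num
  obtain ⟨n, hn⟩ : ∃ n : ℕ, n = ⌊√H⌋₊ := ⟨_, rfl⟩
  have hn1 : (n : ℝ) ≤ √H := by rw [hn]; exact Nat.floor_le (by positivity)
  have h1 : pfac (2 * (n / 2) + 1) ≤ (B.totient : ℝ) / B := by
    apply totient_ge_pfac hB
    intro p hp hpd
    have : p ≤ n := by rw [hn]; exact Nat.le_floor (h p hp hpd)
    omega
  refine le_trans ?_ h1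
  apply le_of_sq_le_sq _ (pfac_pos _).le
  refine le_trans ?_ (pfac_odd (n / 2))
  rw [div_pow, mul_pow, h14, one_pow]
  apply one_div_le_one_div_of_le (by positivity)
  have h2 : (2 * ((n / 2 : ℕ) : ℝ)) ≤ n := by
    have : 2 * (n / 2) ≤ n := Nat.mul_div_le n 2
    exact_mod_cast this
  linarith

/-- Separation, for different shifts. -/
theorem sep_two {s K α H : ℝ} {y B D : ℕ} {A : ℤ} (hs : 0 < s) (hs1 : s ≤ 1)
    (hH : 1 ≤ H) (hsH : s * H ^ 2 ≤ 1) (hy : 1 ≤ y)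
    (hK0 : 0 < K) (hsq : 2 * (y : ℝ) ^ 2 ≤ s * √K) (hB : 0 < B) (hBK : (B : ℝ) ≤ √K)
    (hBα : |B * α - A| ≤ 1 / √K) (hAB : IsCoprime A (B : ℤ)) (hDB : D ∣ B) (hDH : √H ≤ D)
    {q q' a a' : ℕ} (hq : 0 < q) (hq' : 0 < q') (hqy : (q : ℝ) ≤ y) (hqy' : (q' : ℝ) ≤ y)
    (hqD : Nat.Coprime q D) (hqD' : Nat.Coprime q' D) {j : ℤ} (hj : j ≠ 0)
    (hjH : |(j : ℝ)| < √H) (n : ℤ) :
    1 / K ≤ |(j : ℝ) * α + (a : ℝ) / q - a' / q' - n| := by
  have hyR : (1 : ℝ) ≤ y := by exact_mod_cast hy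
  have hqR : (0 : ℝ) < q := by exact_mod_cast hq
  have hqR' : (0 : ℝ) < q' := by exact_mod_cast hq'
  have hBR : (0 : ℝ) < B := by exact_mod_cast hB
  have hsK : 0 < √K := Real.sqrt_pos.2 hK0
  have hKK : √K * √K = K := Real.mul_self_sqrt hK0.le
  -- the integer
  obtain ⟨N, hN⟩ : ∃ N : ℤ, N = j * A * (q * q') + a * q' * B - a' * q * B - n * B * (q * q') :=
    ⟨_, rfl⟩
  have hN0 : N ≠ 0 := by
    intro h0
    have h1 : (B : ℤ) ∣ j * A * (q * q') := by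
      have : j * A * (q * q') = B * (a' * q + n * (q * q') - a * q') := by
        rw [h0] at hN; linarith
      exact ⟨_, this⟩
    have h2 : (B : ℤ) ∣ A * (j * (q * q')) := by
      rw [show A * (j * (q * q')) = j * A * (q * q') by ring]; exact h1
    have h3 : (B : ℤ) ∣ j * (q * q') := hAB.symm.dvd_of_dvd_mul_left h2
    have h4 : (D : ℤ) ∣ j * (q * q') := (Int.natCast_dvd_natCast.2 hDB).trans h3
    have hcop : IsCoprime (D : ℤ) ((q : ℤ) * q') := by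
      apply IsCoprime.mul_right
      · exact (Nat.isCoprime_iff_coprime.2 hqD).symm
      · exact (Nat.isCoprime_iff_coprime.2 hqD').symm
    have h5 : (D : ℤ) ∣ j := hcop.dvd_of_dvd_mul_right h4
    have h6 : (D : ℤ) ≤ |j| := Int.le_of_dvd (abs_pos.2 hj) ((dvd_abs _ _).2 h5)
    have h7 : (D : ℝ) ≤ |(j : ℝ)| := by exact_mod_cast h6
    linarith
  have e1 : (j : ℝ) * α + (a : ℝ) / q - a' / q' - n =
      (N : ℝ) / (B * (q * q')) + j * ((B * α - A) / B) := by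
    rw [hN]
    push_cast
    field_simp
    ring
  have h1 : 1 / ((B : ℝ) * (q * q')) ≤ |(N : ℝ) / (B * (q * q'))| :=
    one_div_le_abs_int hN0 (by positivity)
  have h2 : 1 / ((B : ℝ) * y ^ 2) ≤ 1 / ((B : ℝ) * (q * q')) := by
    apply one_div_le_one_div_of_le (by positivity)
    have : (q : ℝ) * q' ≤ y * y := mul_le_mul hqy hqy' hqR'.le (by positivity)
    have : (B : ℝ) * (q * q') ≤ B * (y * y) := mul_le_mul_of_nonneg_left this hBR.le
    linarith [show (B : ℝ) * (y * y) = B * y ^ 2 by ring]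
  have hsHH : √H ≤ 1 / s := by
    rw [le_div_iff₀ hs]
    have i1 : √H ≤ H ^ 2 := by
      have : √H ≤ H := by
        rw [Real.sqrt_le_left (by linarith)]; nlinarith
      nlinarith
    nlinarith
  have h3 : |(j : ℝ) * ((B * α - A) / B)| ≤ 1 / (2 * ((B : ℝ) * y ^ 2)) := by
    rw [abs_mul, abs_div, abs_of_pos hBR]
    have i1 : |(j : ℝ)| * (|B * α - A| / B) ≤ (1 / s) * ((1 / √K) / B) := by
      apply mul_le_mul (hjH.le.trans hsHH) _ (by positivity) (by positivity)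
      exact div_le_div_of_nonneg_right hBα hBR.le
    refine i1.trans ?_
    have i2 : (1 / s) * ((1 / √K) / B) = 1 / ((s * √K) * B) := by field_simp
    rw [i2]
    apply one_div_le_one_div_of_le (by positivity)
    have : 2 * (y : ℝ) ^ 2 * B ≤ s * √K * B := mul_le_mul_of_nonneg_right hsq hBR.le
    linarith [show 2 * ((B : ℝ) * (y : ℝ) ^ 2) = 2 * (y : ℝ) ^ 2 * B by ring]
  have h4 : 1 / K ≤ 1 / (2 * ((B : ℝ) * y ^ 2)) := by
    apply one_div_le_one_div_of_le (by positivity)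
    have i1 : 2 * (y : ℝ) ^ 2 ≤ √K := by nlinarith
    have i2 : (B : ℝ) * (2 * y ^ 2) ≤ √K * √K := mul_le_mul hBK i1 (by positivity) hsK.le
    linarith [show 2 * ((B : ℝ) * (y : ℝ) ^ 2) = (B : ℝ) * (2 * y ^ 2) by ring]
  have h5 : 1 / ((B : ℝ) * y ^ 2) = 2 * (1 / (2 * ((B : ℝ) * y ^ 2))) := by
    field_simp
  rw [e1]
  have h6 : |(N : ℝ) / (B * (q * q'))| ≤ |(N : ℝ) / (B * (q * q')) + j * ((B * α - A) / B)| +
      |(j : ℝ) * ((B * α - A) / B)| := by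
    calc |(N : ℝ) / (B * (q * q'))| = |((N : ℝ) / (B * (q * q')) + j * ((B * α - A) / B)) -
        (j : ℝ) * ((B * α - A) / B)| := by rw [add_sub_cancel_right]
      _ ≤ _ := abs_sub _ _
  linarith

/-- The large denominator, for a given modulus `r`. -/
theorem f2_case2_core {C : ℝ} (hC : 0 < C)
    (hM : ∀ (K : ℝ) (y r : ℕ), 1 ≤ K → 0 < r → ∀ (𝓗 : Finset ℕ) (x : ℕ → ℝ),
    (∀ h ∈ 𝓗, ∀ h' ∈ 𝓗, ∀ q ∈ Qs y r, ∀ q' ∈ Qs y r, ∀ a ∈ cop q, ∀ a' ∈ cop q',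
      (h ≠ h' ∨ q ≠ q' ∨ a ≠ a') →
        1 / K ≤ distInt ((x h + (a : ℝ) / q) - (x h' + (a' : ℝ) / q'))) →
    ∀ A : Finset ℕ, (∀ k ∈ A, K < k ∧ (k : ℝ) ≤ 2 * K ∧
      ∀ p : ℕ, p.Prime → p ≤ y → ¬ p ∣ k) →
    (∑ h ∈ 𝓗, ‖expS A (x h)‖ ^ 2) * ∑ q ∈ Qs y r, 1 / (q.totient : ℝ) ≤ C * K * A.card)
    (hb : BlkF1b) {s K α H : ℝ} (β : ℝ) {y B D r : ℕ} {A : ℤ} (hs : 0 < s) (hs1 : s ≤ 1 / 1000)
    (hH : 1 ≤ H) (hsH : s * H ^ 2 ≤ 1) (hy : 2 ≤ y) (hK : 4 * (y : ℝ) ^ 4 ≤ s ^ 2 * K)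
    (hB : 0 < B) (hBK : (B : ℝ) ≤ √K)
    (hBα : |B * α - A| ≤ 1 / √K) (hAB : IsCoprime A (B : ℤ)) (hDB : D ∣ B) (hDH : √H ≤ D)
    (hr : 0 < r) (hrD : ∀ q : ℕ, Nat.Coprime q r → Nat.Coprime q D)
    (hφ : 1 / (3 * H ^ (1 / 4 : ℝ)) ≤ (r.totient : ℝ) / r) :
    ((setK s α β K y).card : ℝ) ≤ (12 * C) * K / (H ^ (1 / 4 : ℝ) * Real.log y) := by
  have hyR : (2 : ℝ) ≤ y := by exact_mod_cast hy
  have hlog : 0 < Real.log y := Real.log_pos (by linarith)
  have hKy : 4 * (y : ℝ) ^ 2 ≤ K := K_big hs hs1 hy hK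
  have hK1 : 1 ≤ K := by nlinarith
  have hK0 : 0 < K := by linarith
  have hsq := sqrt_big hs hK
  have hHp : 0 < H ^ (1 / 4 : ℝ) := Real.rpow_pos_of_pos (by linarith) _
  have h14 : (H ^ (1 / 4 : ℝ)) * (H ^ (1 / 4 : ℝ)) = √H := by
    rw [Real.sqrt_eq_rpow, ← Real.rpow_add (by linarith)]
    norm_num
  have hsH0 : 0 ≤ √H := Real.sqrt_nonneg _
  have hsHH : √H ≤ H ^ 2 := by
    have : √H ≤ H := by
      rw [Real.sqrt_le_left (by linarith)]; nlinarith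
    nlinarith
  -- separation
  have hsep : ∀ h ∈ range ⌈√H⌉₊, ∀ h' ∈ range ⌈√H⌉₊, ∀ q ∈ Qs y r, ∀ q' ∈ Qs y r,
      ∀ a ∈ cop q, ∀ a' ∈ cop q', (h ≠ h' ∨ q ≠ q' ∨ a ≠ a') →
        1 / K ≤ distInt (((h : ℝ) * α + (a : ℝ) / q) - ((h' : ℝ) * α + (a' : ℝ) / q')) := by
    intro h hh h' hh' q hq q' hq' a ha a' ha' hne
    refine distInt_ge_of_forall (fun n => ?_)
    have hq1 := mem_Qs hq
    have hq2 := mem_Qs hq'
    have hq3 : (q : ℝ) ≤ y := by exact_mod_cast hq1.2.1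
    have hq4 : (q' : ℝ) ≤ y := by exact_mod_cast hq2.2.1
    have hc1 : Nat.Coprime q r := by
      simp only [Qs, mem_filter] at hq; exact hq.2.2
    have hc2 : Nat.Coprime q' r := by
      simp only [Qs, mem_filter] at hq'; exact hq'.2.2
    have hhT : (h : ℝ) < √H := Nat.lt_ceil.1 (mem_range.1 hh)
    have hhT' : (h' : ℝ) < √H := Nat.lt_ceil.1 (mem_range.1 hh')
    have hh0 : (0 : ℝ) ≤ h := Nat.cast_nonneg _
    have hh0' : (0 : ℝ) ≤ h' := Nat.cast_nonneg _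
    by_cases hhh : h = h'
    · subst hhh
      have e1 : (h : ℝ) * α + (a : ℝ) / q - ((h : ℝ) * α + (a' : ℝ) / q') - n =
        0 + (a : ℝ) / q - a' / q' - n := by ring
      rw [e1]
      refine sep_abs (y := (y : ℝ)) hyR hKy hq1.1 hq2.1 hq3 hq4 ha ha' (by simp) ?_ n
      intro e2 e3
      exfalso
      rcases hne with h1 | h1 | h1
      · exact h1 rfl
      · exact h1 e2
      · exact h1 e3
    · have e1 : (h : ℝ) * α + (a : ℝ) / q - ((h' : ℝ) * α + (a' : ℝ) / q') - n =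
        (((h : ℤ) - h' : ℤ) : ℝ) * α + (a : ℝ) / q - a' / q' - n := by push_cast; ring
      rw [e1]
      refine sep_two hs (by linarith) hH hsH (by omega) hK0 hsq hB hBK hBα hAB hDB hDH hq1.1 hq2.1
        hq3 hq4 (hrD q hc1) (hrD q' hc2) (by omega) ?_ n
      push_cast
      rw [abs_lt]
      constructor <;> linarith
  have hm := hM K y r hK1 hr (range ⌈√H⌉₊) (fun h => (h : ℝ) * α) hsep (setK s α β K y)
    (fun k hk => by
      have := mem_setK hK0.le hk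
      exact ⟨this.1, this.2.1, this.2.2.1⟩)
  have hlow : ∀ t ∈ range ⌈√H⌉₊, ((setK s α β K y).card : ℝ) / 2 ≤
      ‖expS (setK s α β K y) ((fun h : ℕ => (h : ℝ) * α) t)‖ := by
    intro t ht
    have htT : (t : ℝ) < √H := Nat.lt_ceil.1 (mem_range.1 ht)
    apply expS_lower (c := (t : ℝ) * β)
    intro k hk
    have hk1 := (mem_setK hK0.le hk).2.2.2
    refine ⟨(t : ℤ) * round ((k : ℝ) * α - β), ?_⟩
    have e1 : (k : ℝ) * ((t : ℝ) * α) - (t : ℝ) * β -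
        (((t : ℤ) * round ((k : ℝ) * α - β) : ℤ) : ℝ)
        = (t : ℝ) * ((k : ℝ) * α - β - round ((k : ℝ) * α - β)) := by
      push_cast
      ring
    simp only
    rw [e1, abs_mul, abs_of_nonneg (Nat.cast_nonneg t : (0 : ℝ) ≤ t)]
    have h2 : |(k : ℝ) * α - β - round ((k : ℝ) * α - β)| ≤ 2 * s := hk1.le
    have h3 : (t : ℝ) * (2 * s) ≤ 1 / 25 := by
      -- `t ≤ √H`, `√H ^ 4 * s ≤ 1`
      by_contra hcon
      push Not at hcon
      have i1 : (t : ℝ) * s ≤ √H * s := mul_le_mul_of_nonneg_right htT.le hs.le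
      have i2 : 1 / 50 < √H * s := by linarith
      have i3 : √H * √H = H := Real.mul_self_sqrt (by linarith)
      have i4 : (1 / 50 : ℝ) ^ 4 ≤ (√H * s) ^ 4 := by gcongr
      have i5 : (√H * s) ^ 4 = (s * H ^ 2) * s ^ 3 := by
        calc (√H * s) ^ 4 = (√H * √H) ^ 2 * s ^ 4 := by ring
          _ = H ^ 2 * s ^ 4 := by rw [i3]
          _ = _ := by ring
      have i6 : (s * H ^ 2) * s ^ 3 ≤ 1 * (1 / 1000) ^ 3 := by gcongr
      rw [i5] at i4
      norm_num at i4 i6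
      linarith
    exact (mul_le_mul_of_nonneg_left h2 (Nat.cast_nonneg t)).trans h3
  have hq : H ^ (1 / 4 : ℝ) * Real.log y / 3 ≤
      ((range ⌈√H⌉₊).card : ℝ) * ∑ q ∈ Qs y r, 1 / (q.totient : ℝ) := by
    have h1 := hb r y hr (by omega)
    have h2 : ((r.totient : ℝ) / r) * Real.log y ≤ ∑ q ∈ Qs y r, 1 / (q.totient : ℝ) := by
      simpa [Qs] using h1
    have h3 : 1 / (3 * H ^ (1 / 4 : ℝ)) * Real.log y ≤ ∑ q ∈ Qs y r, 1 / (q.totient : ℝ) :=
      (mul_le_mul_of_nonneg_right hφ hlog.le).trans h2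
    rw [card_range]
    have h4 : √H * (1 / (3 * H ^ (1 / 4 : ℝ)) * Real.log y) ≤
        (⌈√H⌉₊ : ℝ) * ∑ q ∈ Qs y r, 1 / (q.totient : ℝ) :=
      mul_le_mul (Nat.le_ceil _) h3 (by positivity) (by positivity)
    refine le_trans (le_of_eq ?_) h4
    rw [← h14]
    field_simp
  have h := count_of_mont hlow hm hC.le hK0.le (by positivity) hq
  refine h.trans (le_of_eq ?_)
  field_simp
  norm_num

theorem f2_case2 (hM : MontS) (hb : BlkF1b) : F2Case2 := by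
  obtain ⟨C, hC, hM⟩ := hM
  refine ⟨12 * C, by positivity, fun H s α β K y hH hs hs1 hsH hy hK B A hHB hBK hBα hAB => ?_⟩
  have hB0 : (0 : ℝ) < B := by linarith
  have hB : 0 < B := by exact_mod_cast hB0
  have hsHH : √H ≤ H := by
    rw [Real.sqrt_le_left (by linarith)]; nlinarith
  have hHp : 1 ≤ H ^ (1 / 4 : ℝ) := Real.one_le_rpow hH (by norm_num)
  by_cases hp : ∃ p : ℕ, p.Prime ∧ p ∣ B ∧ √H ≤ ((p ^ (B.factorization p) : ℕ) : ℝ)
  · obtain ⟨p, hp, hpB, hpH⟩ := hp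
    refine f2_case2_core hC hM hb β hs hs1 hH hsH hy hK hB hBK hBα hAB
      (Nat.ordProj_dvd B p) hpH hp.pos (fun q hq => hq.pow_right _) ?_
    rw [Nat.totient_prime hp]
    have h2 : (2 : ℝ) ≤ p := by exact_mod_cast hp.two_le
    rw [Nat.cast_sub hp.one_lt.le, Nat.cast_one]
    have i1 : 1 / (3 * H ^ (1 / 4 : ℝ)) ≤ 1 / 2 := by
      apply one_div_le_one_div_of_le (by norm_num); linarith
    refine i1.trans ?_
    rw [div_le_div_iff₀ (by norm_num) (by linarith)]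
    linarith
  · push Not at hp
    refine f2_case2_core hC hM hb β hs hs1 hH hsH hy hK hB hBK hBα hAB
      (dvd_refl B) (by linarith) hB (fun q hq => hq) ?_
    apply totient_ge_quarter hH hB
    intro p hp' hpB
    have h1 := hp p hp' hpB
    have h2 : (p : ℝ) ≤ ((p ^ (B.factorization p) : ℕ) : ℝ) := by
      have h3 : 1 ≤ B.factorization p := by
        rw [← hp'.dvd_iff_one_le_factorization hB.ne']; exact hpB
      have : p ^ 1 ≤ p ^ (B.factorization p) := Nat.pow_le_pow_right hp'.pos h3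
      rw [pow_one] at this
      exact_mod_cast this
    linarith

/-- Block F2 from the large sieve. -/
theorem blkF2_of (h1 : BlkF1) (hb : BlkF1b) : BlkF2 :=
  blkF2_of_case2 (montS_of h1) hb (f2_case2 (montS_of h1) hb)

/-- Block F2b from the large sieve. -/
theorem blkF2b_of_F1 (h1 : BlkF1) (hb : BlkF1b) : BlkF2b := blkF2b_of (montS_of h1) hb

end Vale.P028
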