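import Vale.Agent.P028.MathlibUsed
import Vale.Agent.P028.XE
import Vale.Agent.P028.XGE
import Vale.Agent.P028.XF1
import Vale.Agent.P028.XF1b
import Vale.Agent.P028.XF2C
import Vale.Agent.P028.XF3
import Vale.Agent.P028.XF4

/-!
# Blocks E and G, unconditionally
-/

namespace Vale.P028

theorem blkF4 : BlkF4 := blkF4'

/-- Block E. -/
theorem blkE : BlkE :=
  blkE_of blkD1 (blkF2_of blkF1 blkF1b) (blkF2b_of_F1 blkF1 blkF1b) blkF3 blkF4

/-- Block G: the second near part. -/
theorem blkG : BlkG := blkG_of_E blkE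

end Vale.P028
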