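import Vale.Agent.P028.MathlibUsed
import Vale.Agent.P028.XDefs
import Vale.Agent.P028.QChain

/-!
# Definitions for the deduction of Theorems X and Lin from the block `BlkG`
-/

namespace Vale.P028

open Finset MeasureTheory

/-- `ψ ≥ exp (-exp Λ)` on the support and mass at least `(1 + Λ)^ε` -/
def PX (ε : ℝ) (N : ℕ) (ψ f : ℕ → ℝ) : Prop :=
  ∃ Λ : ℝ, 1 ≤ Λ ∧ (∀ q, f q ≠ 0 → 0 < q ∧ Real.exp (-Real.exp Λ) ≤ ψ q) ∧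
    (1 + Λ) ^ ε ≤ ∑ q ∈ Icc 1 N, f q

/-- The support is cut into windows (`w q` is the window of `q`); `ψ ≥ exp (-exp Λ_i)` and mass at
most `Λ_i^(-K)` in the window `i`; different windows do not interact. -/
def PLin (K : ℝ) (N : ℕ) (ψ f : ℕ → ℝ) : Prop :=
  ∃ (w : ℕ → ℕ) (Λ : ℕ → ℝ), (∀ i, 1 ≤ Λ i) ∧
    (∀ q, f q ≠ 0 → 0 < q ∧ Real.exp (-Real.exp (Λ (w q))) ≤ ψ q) ∧
    (∀ q r, f q ≠ 0 → f r ≠ 0 → w q < w r → (q : ℝ) ≤ r * ψ q) ∧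
    ∀ i, ∑ q ∈ (Icc 1 N).filter (fun q => w q = i), f q ≤ (Λ i) ^ (-K)

open Classical in
/-- mass of the window `i ≤ log log q < i + 1` -/
noncomputable def wmass (ψ : ℕ → ℝ) (i : ℕ) : ℝ :=
  ∑ q ∈ Finset.filter
      (fun q : ℕ => (i : ℝ) ≤ Real.log (Real.log q) ∧ Real.log (Real.log q) < (i : ℝ) + 1)
      (Finset.Icc 1 ⌊Real.exp (Real.exp ((i : ℝ) + 1))⌋₊),
    ((q.totient : ℝ) / q) * ψ q

/-- BLOCK HX -/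
def BlkHX : Prop := BlkG → ∀ ε : ℝ, 0 < ε → TypeAP (PX ε)

/-- BLOCK HX2 -/
def BlkHX2 : Prop := (∀ ε : ℝ, 0 < ε → TypeAP (PX ε)) →
  ∀ (γ : ℝ) (ψ : ℕ → ℝ), (∀ q, 0 ≤ ψ q) → ∀ δ : ℝ, 0 < δ →
    ¬ Summable (fun q : ℕ => ((q.totient : ℝ) / q) * ψ q /
      (Real.log (2 + Real.log (2 + 1 / ψ q))) ^ δ) → volume (W γ ψ)ᶜ = 0

/-- BLOCK HL -/
def BlkHL : Prop := BlkG → ∃ K : ℝ, 1 ≤ K ∧ TypeAP (PLin K)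

/-- BLOCK HL2 -/
def BlkHL2 : Prop := ∀ K : ℝ, 1 ≤ K → TypeAP (PLin K) → ∃ K' : ℝ, 1 ≤ K' ∧
  ∀ (γ : ℝ) (ψ : ℕ → ℝ), (∀ q, 0 ≤ ψ q) →
    ¬ Summable (fun i : ℕ => min (wmass ψ i) ((1 + Real.log (1 + (i : ℝ))) ^ (-K'))) →
    volume (W γ ψ)ᶜ = 0

end Vale.P028
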