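import Vale.Agent.P028.MathlibUsed
import Vale.Agent.P028.XHDefs
import Vale.Agent.P028.BT1

/-!
# `TypeAP` for families cut into windows of small mass (block HL)
-/

namespace Vale.P028

open Finset MeasureTheory

/-- pairs that stay inside the windows -/
theorem psum_windows (R : ℕ → ℕ → Prop) (N : ℕ) (f : ℕ → ℝ) (w : ℕ → ℕ) (hf : ∀ q, 0 ≤ f q)
    (H : ∀ q ∈ Icc 1 N, ∀ r ∈ Icc 1 N, R q r → f q ≠ 0 → f r ≠ 0 → w q = w r) :
    psum R N f f ≤ ∑ i ∈ (Icc 1 N).image w,
      psum R N (fun q => if w q = i then f q else 0) (fun q => if w q = i then f q else 0) := by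
  classical
  unfold psum
  have h2 : ∀ q ∈ Icc 1 N, (∑ r ∈ Icc 1 N, if R q r then f q * f r else 0) ≤
      ∑ i ∈ (Icc 1 N).image w, ∑ r ∈ Icc 1 N, if R q r then
        (if w q = i then f q else 0) * (if w r = i then f r else 0) else 0 := by
    intro q hq
    rw [sum_comm]
    refine sum_le_sum fun r hr => ?_
    have hnn : ∀ i ∈ (Icc 1 N).image w, 0 ≤ (if R q r then
        (if w q = i then f q else 0) * (if w r = i then f r else 0) else 0) := by
      intro i _
      split_ifs <;> first | exact mul_nonneg (hf _) (hf _) | simp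
    by_cases hR : R q r
    · by_cases h0 : f q * f r = 0
      · rw [if_pos hR, h0]
        exact sum_nonneg hnn
      · have hw := H q hq r hr hR (left_ne_zero_of_mul h0) (right_ne_zero_of_mul h0)
        have h3 := single_le_sum hnn (mem_image_of_mem w hq)
        refine le_trans (le_of_eq ?_) h3
        simp only [if_pos hR, if_true, hw]
    · rw [if_neg hR]
      exact sum_nonneg hnn
  refine (sum_le_sum h2).trans (le_of_eq ?_)
  rw [sum_comm]

/-- the masses of the windows -/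
theorem windows_mass (N : ℕ) (f : ℕ → ℝ) (w : ℕ → ℕ) (hf : ∀ q, 0 ≤ f q) :
    (∑ i ∈ (Icc 1 N).image w, ∑ q ∈ Icc 1 N, (if w q = i then f q else 0)) =
      ∑ q ∈ Icc 1 N, f q ∧
    (∑ i ∈ (Icc 1 N).image w, (∑ q ∈ Icc 1 N, (if w q = i then f q else 0)) ^ 2) ≤
      (∑ q ∈ Icc 1 N, f q) ^ 2 := by
  classical
  have h1 : (∑ i ∈ (Icc 1 N).image w, ∑ q ∈ Icc 1 N, (if w q = i then f q else 0)) =
      ∑ q ∈ Icc 1 N, f q := by
    rw [sum_comm]
    refine sum_congr rfl fun q hq => ?_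
    rw [sum_ite_eq, if_pos (mem_image_of_mem w hq)]
  refine ⟨h1, ?_⟩
  rw [← h1]
  have hnn : ∀ i ∈ (Icc 1 N).image w, 0 ≤ ∑ q ∈ Icc 1 N, (if w q = i then f q else 0) := by
    intro i _
    refine sum_nonneg fun q _ => ?_
    split_ifs
    · exact hf q
    · exact le_rfl
  calc ∑ i ∈ (Icc 1 N).image w, (∑ q ∈ Icc 1 N, (if w q = i then f q else 0)) ^ 2
      ≤ ∑ i ∈ (Icc 1 N).image w, (∑ q ∈ Icc 1 N, (if w q = i then f q else 0)) *
          (∑ i ∈ (Icc 1 N).image w, ∑ q ∈ Icc 1 N, (if w q = i then f q else 0)) := by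
        refine sum_le_sum fun i hi => ?_
        rw [sq]
        exact mul_le_mul_of_nonneg_left (single_le_sum hnn hi) (hnn i hi)
    _ = _ := by
        rw [← sum_mul, sq]

theorem blkHL : BlkHL := by
  classical
  intro hG
  obtain ⟨C₁, ε₁, c₁, hC₁, hε₁, hc₁, hnear⟩ := hG
  obtain ⟨C₂, hC₂, hT1⟩ := T1 (θ := 3 / 4) (by norm_num) (by norm_num)
  obtain ⟨c, hcdef⟩ : ∃ c : ℝ, c = min c₁ 1 := ⟨_, rfl⟩
  have hc : 0 < c := by rw [hcdef]; exact lt_min hc₁ one_pos
  have hcc1 : c ≤ c₁ := by rw [hcdef]; exact min_le_left _ _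
  have hcc2 : c ≤ 1 := by rw [hcdef]; exact min_le_right _ _
  clear hcdef
  refine ⟨1 + 3 / ε₁, by have : 0 < 3 / ε₁ := by positivity
                         linarith, C₁ + C₂, c, by positivity, hc, ?_⟩
  rintro γ s hs hs1 N ψ f hψ hf ⟨w, Λ, hΛ, hsupp, hsep, hmass⟩
  set F : ℝ := ∑ q ∈ Icc 1 N, f q with hF
  have hf0 : ∀ q, 0 ≤ f q := fun q => (hf q).1
  have hF0 : 0 ≤ F := sum_nonneg fun q _ => hf0 q
  have hs2 : s ≤ 1 := by linarith
  have hsc : 0 ≤ s ^ (1 + c) := Real.rpow_nonneg hs.le _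
  have hFF : 0 ≤ F + F ^ 2 := by positivity
  have hpow : ∀ a : ℝ, c ≤ a → s ^ (1 + a) ≤ s ^ (1 + c) := fun a ha =>
    Real.rpow_le_rpow_of_exponent_ge hs hs2 (by linarith only [ha])
  -- the windows do not interact
  have hgcd : ∀ q r : ℕ, 0 < q → 0 < r → (q : ℝ) ≤ r * ψ q → (cofac r q : ℝ) * ψ q ≤ s → False := by
    intro q r hq hr h1 h2
    have hq' : (0 : ℝ) < q := by exact_mod_cast hq
    have h3 : (r : ℝ) ≤ q * cofac r q := by
      have h4 : r ≤ q * cofac r q := by
        have h5 : r = cofac r q * Nat.gcd r q := by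
          unfold cofac
          exact (Nat.div_mul_cancel (Nat.gcd_dvd_left r q)).symm
        have h6 : Nat.gcd r q ≤ q := Nat.gcd_le_right _ hq
        calc r = cofac r q * Nat.gcd r q := h5
          _ ≤ cofac r q * q := Nat.mul_le_mul_left _ h6
          _ = q * cofac r q := Nat.mul_comm _ _
      exact_mod_cast h4
    have h7 : (q : ℝ) ≤ q * s := by
      calc (q : ℝ) ≤ r * ψ q := h1
        _ ≤ q * cofac r q * ψ q := mul_le_mul_of_nonneg_right h3 (hψ q)
        _ = q * (cofac r q * ψ q) := by ring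
        _ ≤ q * s := mul_le_mul_of_nonneg_left h2 hq'.le
    nlinarith
  have hwin : ∀ q ∈ Icc 1 N, ∀ r ∈ Icc 1 N, TA γ ψ s q r → f q ≠ 0 → f r ≠ 0 → w q = w r := by
    intro q hq r hr hR hfq hfr
    have hq0 : 0 < q := (mem_Icc.mp hq).1
    have hr0 : 0 < r := (mem_Icc.mp hr).1
    rcases lt_trichotomy (w q) (w r) with h | h | h
    · exact (hgcd q r hq0 hr0 (hsep q r hfq hfr h) hR.1.2.1).elim
    · exact h
    · exact (hgcd r q hr0 hq0 (hsep r q hfr hfq h) hR.1.2.2.1).elim
  have h1 := psum_windows (TA γ ψ s) N f w hf0 hwin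
  obtain ⟨hm1, hm2⟩ := windows_mass N f w hf0
  -- one window
  have hone : ∀ i ∈ (Icc 1 N).image w,
      psum (TA γ ψ s) N (fun q => if w q = i then f q else 0)
        (fun q => if w q = i then f q else 0) ≤
      (C₁ + C₂) * s ^ (1 + c) * ((∑ q ∈ Icc 1 N, (if w q = i then f q else 0)) +
        (∑ q ∈ Icc 1 N, (if w q = i then f q else 0)) ^ 2) := by
    intro i _
    set g : ℕ → ℝ := fun q => if w q = i then f q else 0 with hg
    have hg0 : ∀ q, 0 ≤ g q ∧ g q ≤ ψ q * (q.totient / q) := by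
      intro q
      simp only [hg]
      split_ifs
      · exact hf q
      · exact ⟨le_rfl, mul_nonneg (hψ q) (by positivity)⟩
    have hgs : ∀ q, g q ≠ 0 → w q = i ∧ f q ≠ 0 := by
      intro q hq
      simp only [hg] at hq
      split_ifs at hq with h
      · exact ⟨h, hq⟩
      · exact absurd rfl hq
    set G : ℝ := ∑ q ∈ Icc 1 N, g q with hGdef
    have hG0 : 0 ≤ G := sum_nonneg fun q _ => (hg0 q).1
    have hGG : 0 ≤ G + G ^ 2 := by positivity
    have hGm : G ≤ (Λ i) ^ (-(1 + 3 / ε₁)) := by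
      have h3 := hmass i
      rw [sum_filter] at h3
      exact h3
    by_cases hcase : Λ i ≤ s ^ (-ε₁)
    · have hsize : ∀ (v : ℕ) (x : ℝ), Real.exp (-Real.exp (Λ i)) ≤ x → (v : ℝ) * x ≤ s →
          (v : ℝ) ≤ Real.exp (Real.exp (s ^ (-ε₁))) := by
        intro v x hx hw
        have h1 : (v : ℝ) * Real.exp (-Real.exp (Λ i)) ≤ 1 :=
          (mul_le_mul_of_nonneg_left hx (Nat.cast_nonneg _)).trans (hw.trans hs2)
        have h2 : (v : ℝ) ≤ Real.exp (Real.exp (Λ i)) := by
          have h3 : (v : ℝ) = (v : ℝ) * Real.exp (-Real.exp (Λ i)) * Real.exp (Real.exp (Λ i)) := by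
            rw [mul_assoc, ← Real.exp_add]
            simp
          rw [h3]
          calc (v : ℝ) * Real.exp (-Real.exp (Λ i)) * Real.exp (Real.exp (Λ i))
              ≤ 1 * Real.exp (Real.exp (Λ i)) :=
                mul_le_mul_of_nonneg_right h1 (Real.exp_pos _).le
            _ = Real.exp (Real.exp (Λ i)) := one_mul _
        exact h2.trans (Real.exp_le_exp.mpr (Real.exp_le_exp.mpr hcase))
      have h3 : psum (TA γ ψ s) N g g ≤
          psum (fun q r => Rel γ ψ s q r ∧ Far γ s (cofac q r) (cofac r q) ∧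
            (cofac q r : ℝ) ≤ Real.exp (Real.exp (s ^ (-ε₁))) ∧
            (cofac r q : ℝ) ≤ Real.exp (Real.exp (s ^ (-ε₁)))) N g g := by
        apply psum_mono _ _ _ _ _ _ _ (fun q => (hg0 q).1) (fun q => (hg0 q).1)
        intro q _ r _ hR hne
        obtain ⟨hq, hq'⟩ := hgs q (left_ne_zero_of_mul hne)
        obtain ⟨hr, hr'⟩ := hgs r (right_ne_zero_of_mul hne)
        have e1 := (hsupp q hq').2
        have e2 := (hsupp r hr').2
        rw [hq] at e1
        rw [hr] at e2
        exact ⟨⟨hR.1, hR.2.1, hsize _ _ e2 hR.1.2.2.1, hsize _ _ e1 hR.1.2.1⟩, le_rfl⟩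
      have h4 := hnear γ s hs hs1 N ψ g hψ hg0
      calc psum (TA γ ψ s) N g g ≤ C₁ * s ^ (1 + c₁) * (G + G ^ 2) := h3.trans h4
        _ ≤ C₁ * s ^ (1 + c) * (G + G ^ 2) := by
            apply mul_le_mul_of_nonneg_right _ hGG
            exact mul_le_mul_of_nonneg_left (hpow _ hcc1) hC₁.le
        _ ≤ (C₁ + C₂) * s ^ (1 + c) * (G + G ^ 2) := by
            apply mul_le_mul_of_nonneg_right _ hGG
            apply mul_le_mul_of_nonneg_right _ hsc
            linarith
    · push Not at hcase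
      have h3 : psum (TA γ ψ s) N g g ≤
          psum (fun q r => (cofac r q : ℝ) * ψ q ≤ s ∧ (cofac q r : ℝ) * ψ r ≤ s) N g g := by
        apply psum_mono _ _ _ _ _ _ _ (fun q => (hg0 q).1) (fun q => (hg0 q).1)
        intro q _ r _ hR _
        exact ⟨⟨hR.1.2.1, hR.1.2.2.1⟩, le_rfl⟩
      have h4 := hT1 ψ ψ g g s s N hs hs hψ hψ hg0 hg0
      -- `G ≤ s ^ 3`
      have h5 : G ≤ s ^ (3 : ℝ) := by
        refine hGm.trans ?_
        have hsε : 1 ≤ s ^ (-ε₁) :=
          Real.one_le_rpow_of_pos_of_le_one_of_nonpos hs hs2 (by linarith)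
        calc (Λ i) ^ (-(1 + 3 / ε₁)) ≤ (s ^ (-ε₁)) ^ (-(1 + 3 / ε₁)) := by
              apply Real.rpow_le_rpow_of_nonpos (by linarith) hcase.le
              have : 0 < 3 / ε₁ := by positivity
              linarith
          _ = s ^ (ε₁ + 3) := by
              rw [← Real.rpow_mul hs.le]
              congr 1
              field_simp
          _ ≤ s ^ (3 : ℝ) := Real.rpow_le_rpow_of_exponent_ge hs hs2 (by linarith)
      have h6 : (s * s) ^ (1 - 3 / 4 : ℝ) = s ^ (1 / 2 : ℝ) := by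
        rw [← sq, ← Real.rpow_natCast, ← Real.rpow_mul hs.le]
        congr 1
        norm_num
      have h7 : (G * G) ^ (3 / 4 : ℝ) ≤ G * s ^ (3 / 2 : ℝ) := by
        have h8 : (G * G) ^ (3 / 4 : ℝ) = G * G ^ (1 / 2 : ℝ) := by
          rcases hG0.eq_or_lt with h0 | h0
          · rw [← h0]
            simp
          · rw [← sq, ← Real.rpow_natCast, ← Real.rpow_mul hG0]
            nth_rewrite 2 [← Real.rpow_one G]
            rw [← Real.rpow_add h0]
            congr 1
            norm_num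
        rw [h8]
        apply mul_le_mul_of_nonneg_left _ hG0
        calc G ^ (1 / 2 : ℝ) ≤ (s ^ (3 : ℝ)) ^ (1 / 2 : ℝ) :=
              Real.rpow_le_rpow hG0 h5 (by norm_num)
          _ = s ^ (3 / 2 : ℝ) := by
              rw [← Real.rpow_mul hs.le]
              congr 1
              norm_num
      calc psum (TA γ ψ s) N g g
          ≤ C₂ * (s * s) ^ (1 - 3 / 4 : ℝ) * (G * G) ^ (3 / 4 : ℝ) := h3.trans h4
        _ ≤ C₂ * s ^ (1 / 2 : ℝ) * (G * s ^ (3 / 2 : ℝ)) := by
            rw [h6]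
            apply mul_le_mul_of_nonneg_left h7
            positivity
        _ = C₂ * (s ^ (1 / 2 : ℝ) * s ^ (3 / 2 : ℝ)) * G := by ring
        _ = C₂ * s ^ (1 + 1 : ℝ) * G := by
            rw [← Real.rpow_add hs]
            norm_num
        _ ≤ C₂ * s ^ (1 + c) * (G + G ^ 2) := by
            have h9 := hpow 1 hcc2
            have h10 : G ≤ G + G ^ 2 := by nlinarith
            have h11 : C₂ * s ^ (1 + 1 : ℝ) ≤ C₂ * s ^ (1 + c) :=
              mul_le_mul_of_nonneg_left h9 hC₂.le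
            exact mul_le_mul h11 h10 hG0 (by positivity)
        _ ≤ (C₁ + C₂) * s ^ (1 + c) * (G + G ^ 2) := by
            apply mul_le_mul_of_nonneg_right _ hGG
            apply mul_le_mul_of_nonneg_right _ hsc
            linarith
  calc psum (TA γ ψ s) N f f
      ≤ ∑ i ∈ (Icc 1 N).image w, (C₁ + C₂) * s ^ (1 + c) *
          ((∑ q ∈ Icc 1 N, (if w q = i then f q else 0)) +
            (∑ q ∈ Icc 1 N, (if w q = i then f q else 0)) ^ 2) :=
        h1.trans (sum_le_sum hone)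
    _ = (C₁ + C₂) * s ^ (1 + c) *
          ((∑ i ∈ (Icc 1 N).image w, ∑ q ∈ Icc 1 N, (if w q = i then f q else 0)) +
            ∑ i ∈ (Icc 1 N).image w, (∑ q ∈ Icc 1 N, (if w q = i then f q else 0)) ^ 2) := by
        rw [← mul_sum, sum_add_distrib]
    _ ≤ (C₁ + C₂) * s ^ (1 + c) * (F + F ^ 2) := by
        apply mul_le_mul_of_nonneg_left _ (by positivity)
        rw [hm1]
        linarith

end Vale.P028
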