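import Vale.Agent.P028.MathlibUsed
import Vale.Agent.P028.XHDefs
import Vale.Agent.P028.QSize
import Vale.Agent.P028.QSelect

/-!
# Loss `(log log (1/ψ))^δ` from the block `BlkG`
-/

namespace Vale.P028

open Finset MeasureTheory

theorem blkHX : BlkHX := by
  intro hG ε hε
  obtain ⟨C₁, ε₁, c₁, hC₁, hε₁, hc₁, hnear⟩ := hG
  set k : ℝ := 1 / (512 * ε₁) with hk
  have hk0 : 0 < k := by positivity
  obtain ⟨C₂, δ, hC₂, hδ, hδ1, hbig⟩ := qs_case2 hk0.le hε
  obtain ⟨c, hcdef⟩ : ∃ c : ℝ, c = min c₁ δ := ⟨_, rfl⟩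
  have hc : 0 < c := by rw [hcdef]; exact lt_min hc₁ hδ
  have hcc1 : c ≤ c₁ := by rw [hcdef]; exact min_le_left _ _
  have hcc2 : c ≤ δ := by rw [hcdef]; exact min_le_right _ _
  clear hcdef
  refine ⟨C₁ + C₂, c, by positivity, hc, ?_⟩
  rintro γ s hs hs1 N ψ f hψ hf ⟨Λ, hΛ, hsupp, hFx⟩
  set F : ℝ := ∑ q ∈ Icc 1 N, f q with hF
  have hf0 : ∀ q, 0 ≤ f q := fun q => (hf q).1
  have hF0 : 0 ≤ F := sum_nonneg fun q _ => hf0 q
  have hs2 : s ≤ 1 := by linarith
  have hsc : 0 ≤ s ^ (1 + c) := Real.rpow_nonneg hs.le _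
  have hFF : 0 ≤ F + F ^ 2 := by positivity
  have hpow : ∀ a : ℝ, c ≤ a → s ^ (1 + a) ≤ s ^ (1 + c) := fun a ha =>
    Real.rpow_le_rpow_of_exponent_ge hs hs2 (by linarith only [ha])
  by_cases hcase : s ^ (-(1 / 512) : ℝ) < (1 + Λ) ^ k
  · have h1 := hbig γ s (1 + Λ) N ψ f hs hs2 (by linarith) hψ hf hFx hcase
    refine h1.trans ?_
    apply mul_le_mul_of_nonneg_right _ hFF
    calc C₂ * s ^ (1 + δ) ≤ C₂ * s ^ (1 + c) := mul_le_mul_of_nonneg_left (hpow _ hcc2) hC₂.le
      _ ≤ (C₁ + C₂) * s ^ (1 + c) := mul_le_mul_of_nonneg_right (by linarith) hsc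
  · push Not at hcase
    have hΛ1 : 1 + Λ ≤ s ^ (-ε₁) := by
      have h1 : ((1 + Λ) ^ k) ^ (512 * ε₁) ≤ (s ^ (-(1 / 512) : ℝ)) ^ (512 * ε₁) :=
        Real.rpow_le_rpow (Real.rpow_nonneg (by linarith) _) hcase (by positivity)
      rw [← Real.rpow_mul (by linarith), ← Real.rpow_mul hs.le] at h1
      have e1 : k * (512 * ε₁) = 1 := by
        rw [hk]
        field_simp
      have e2 : (-(1 / 512) : ℝ) * (512 * ε₁) = -ε₁ := by ring
      rw [e1, e2, Real.rpow_one] at h1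
      exact h1
    have hsize : ∀ (w : ℕ) (x : ℝ), Real.exp (-Real.exp Λ) ≤ x → (w : ℝ) * x ≤ s →
        (w : ℝ) ≤ Real.exp (Real.exp (s ^ (-ε₁))) := by
      intro w x hx hw
      have h1 : (w : ℝ) * Real.exp (-Real.exp Λ) ≤ 1 :=
        (mul_le_mul_of_nonneg_left hx (Nat.cast_nonneg _)).trans (hw.trans hs2)
      have h2 : (w : ℝ) ≤ Real.exp (Real.exp Λ) := by
        have h3 : (w : ℝ) = (w : ℝ) * Real.exp (-Real.exp Λ) * Real.exp (Real.exp Λ) := by
          rw [mul_assoc, ← Real.exp_add]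
          simp
        rw [h3]
        calc (w : ℝ) * Real.exp (-Real.exp Λ) * Real.exp (Real.exp Λ)
            ≤ 1 * Real.exp (Real.exp Λ) :=
              mul_le_mul_of_nonneg_right h1 (Real.exp_pos _).le
          _ = Real.exp (Real.exp Λ) := one_mul _
      refine h2.trans (Real.exp_le_exp.mpr (Real.exp_le_exp.mpr ?_))
      linarith
    have h1 : psum (TA γ ψ s) N f f ≤
        psum (fun q r => Rel γ ψ s q r ∧ Far γ s (cofac q r) (cofac r q) ∧
          (cofac q r : ℝ) ≤ Real.exp (Real.exp (s ^ (-ε₁))) ∧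
          (cofac r q : ℝ) ≤ Real.exp (Real.exp (s ^ (-ε₁)))) N f f := by
      apply psum_mono _ _ _ _ _ _ _ hf0 hf0
      intro q _ r _ hR hne
      have hq : f q ≠ 0 := left_ne_zero_of_mul hne
      have hr : f r ≠ 0 := right_ne_zero_of_mul hne
      exact ⟨⟨hR.1, hR.2.1, hsize _ _ (hsupp r hr).2 hR.1.2.2.1,
        hsize _ _ (hsupp q hq).2 hR.1.2.1⟩, le_rfl⟩
    have h2 := hnear γ s hs hs1 N ψ f hψ hf
    calc psum (TA γ ψ s) N f f ≤ C₁ * s ^ (1 + c₁) * (F + F ^ 2) := h1.trans h2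
      _ ≤ C₁ * s ^ (1 + c) * (F + F ^ 2) := by
          apply mul_le_mul_of_nonneg_right _ hFF
          exact mul_le_mul_of_nonneg_left (hpow _ hcc1) hC₁.le
      _ ≤ (C₁ + C₂) * s ^ (1 + c) * (F + F ^ 2) := by
          apply mul_le_mul_of_nonneg_right _ hFF
          apply mul_le_mul_of_nonneg_right _ hsc
          linarith

theorem blkHX2 : BlkHX2 := by
  classical
  intro hTA γ ψ hψ δ hδ hdiv
  have hδ2 : 0 < δ / 2 := by linarith
  have hg0 : ∀ q : ℕ, 0 ≤ ((q.totient : ℝ) / q) * ψ q := fun q =>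
    mul_nonneg (by positivity) (hψ q)
  have hy0 : ∀ q : ℕ, (1 / 2 : ℝ) ≤ Real.log (2 + 1 / ψ q) := by
    intro q
    have h0 : 0 ≤ 1 / ψ q := one_div_nonneg.mpr (hψ q)
    have h1 : Real.log 2 ≤ Real.log (2 + 1 / ψ q) := Real.log_le_log (by norm_num) (by linarith)
    have h2 := Real.log_two_gt_d9
    linarith
  refine full_P (hTA (δ / 2) hδ2) γ ψ hψ ?_
  intro N
  have hdiv' : ¬ Summable (fun q : ℕ => ((q.totient : ℝ) / q) * ψ q /
      (Real.log (2 + 8 * Real.log (2 + 1 / ψ q))) ^ δ) := by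
    intro hs
    apply hdiv
    refine Summable.of_nonneg_of_le ?_ ?_ (hs.mul_left ((4 : ℝ) ^ δ))
    · intro q
      exact div_nonneg (hg0 q) (Real.rpow_nonneg (Real.log_nonneg (by
        have := hy0 q
        linarith)) _)
    · intro q
      have h0 := hy0 q
      have h9 : 0 < Real.log (2 + Real.log (2 + 1 / ψ q)) := Real.log_pos (by linarith)
      have h10 : 0 < Real.log (2 + 8 * Real.log (2 + 1 / ψ q)) := Real.log_pos (by linarith)
      have h1 : Real.log (2 + 8 * Real.log (2 + 1 / ψ q)) ≤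
          4 * Real.log (2 + Real.log (2 + 1 / ψ q)) := by
        have h2 : 2 + 8 * Real.log (2 + 1 / ψ q) ≤ (2 + Real.log (2 + 1 / ψ q)) ^ (4 : ℕ) := by
          have h3 : (2 : ℝ) ^ 3 ≤ (2 + Real.log (2 + 1 / ψ q)) ^ 3 :=
            pow_le_pow_left₀ (by norm_num) (by linarith) 3
          have h4 : (2 + Real.log (2 + 1 / ψ q)) ^ (4 : ℕ) =
              (2 + Real.log (2 + 1 / ψ q)) ^ 3 * (2 + Real.log (2 + 1 / ψ q)) := by ring
          rw [h4]
          nlinarith
        calc Real.log (2 + 8 * Real.log (2 + 1 / ψ q))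
            ≤ Real.log ((2 + Real.log (2 + 1 / ψ q)) ^ (4 : ℕ)) :=
              Real.log_le_log (by linarith) h2
          _ = 4 * Real.log (2 + Real.log (2 + 1 / ψ q)) := by
              rw [Real.log_pow]
              norm_num
      have h7 : (Real.log (2 + 8 * Real.log (2 + 1 / ψ q))) ^ δ ≤
          4 ^ δ * (Real.log (2 + Real.log (2 + 1 / ψ q))) ^ δ := by
        rw [← Real.mul_rpow (by norm_num) h9.le]
        exact Real.rpow_le_rpow h10.le h1 hδ.le
      have h8 : 0 < (Real.log (2 + Real.log (2 + 1 / ψ q))) ^ δ := Real.rpow_pos_of_pos h9 _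
      have h11 : 0 < (Real.log (2 + 8 * Real.log (2 + 1 / ψ q))) ^ δ :=
        Real.rpow_pos_of_pos h10 _
      rw [← mul_div_assoc, div_le_div_iff₀ h8 h11]
      calc ((q.totient : ℝ) / q) * ψ q * (Real.log (2 + 8 * Real.log (2 + 1 / ψ q))) ^ δ
          ≤ ((q.totient : ℝ) / q) * ψ q * (4 ^ δ *
              (Real.log (2 + Real.log (2 + 1 / ψ q))) ^ δ) :=
            mul_le_mul_of_nonneg_left h7 (hg0 q)
        _ = _ := by ring
  obtain ⟨T, S, hT, hS, hF⟩ := ql_select (g := fun q : ℕ => ((q.totient : ℝ) / q) * ψ q)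
    (t := fun q : ℕ => 8 * Real.log (2 + 1 / ψ q)) hg0
    (fun q => by have := hy0 q; linarith) hδ hdiv' (N + 1)
  have hT0 : 0 < T := by linarith
  have hlogT : 0 ≤ Real.log T := Real.log_nonneg hT
  have hpos : ∀ q ∈ S, 0 < ψ q := by
    intro q hq
    refine lt_of_le_of_ne (hψ q) ?_
    intro h0
    have h1 := (hS q hq).2.1
    simp only [← h0, mul_zero] at h1
    exact h1 rfl
  have hF1 : 1 ≤ ∑ q ∈ S, ((q.totient : ℝ) / q) * ψ q :=
    (Real.one_le_rpow (by linarith) hδ2.le).trans hF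
  have hne : S.Nonempty := by
    rw [nonempty_iff_ne_empty]
    rintro rfl
    rw [sum_empty] at hF1
    linarith
  have hT4 : Real.exp 1 ≤ T := by
    obtain ⟨q, hq⟩ := hne
    have h1 := hy0 q
    have h2 := (hS q hq).2.2
    have h3 := Real.exp_one_lt_d9
    linarith
  have hT1 : 1 ≤ Real.log T := by
    rw [Real.le_log_iff_exp_le hT0]
    exact hT4
  refine ⟨S, fun q hq => ⟨by have := (hS q hq).1; omega, hpos q hq⟩, hF1, Real.log T, hT1, ?_, ?_⟩
  · intro q hq
    by_cases h : q ∈ S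
    · simp only [if_pos h]
      refine ⟨by have := (hS q h).1; omega, ?_⟩
      rw [Real.exp_log hT0]
      have h1 := (hS q h).2.2
      have h2 := hy0 q
      have hp := hpos q h
      have h3 : Real.log (1 / ψ q) ≤ T := by
        have h4 : Real.log (1 / ψ q) ≤ Real.log (2 + 1 / ψ q) :=
          Real.log_le_log (by positivity) (by linarith)
        linarith
      rw [one_div, Real.log_inv] at h3
      rw [← Real.le_log_iff_exp_le hp]
      linarith
    · simp only [if_neg h, ne_eq, not_true_eq_false] at hq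
  · refine hF.trans (le_of_eq ?_)
    have hSN : S ⊆ Icc 1 (S.sup id) := by
      intro q hq
      rw [mem_Icc]
      exact ⟨by have := (hS q hq).1; omega, Finset.le_sup (f := id) hq⟩
    rw [← sum_subset hSN]
    · exact sum_congr rfl fun q hq => by rw [if_pos hq]
    · intro q _ hq
      rw [if_neg hq]

end Vale.P028
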