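import Vale.Agent.P028.MathlibUsed
import Vale.Agent.P028.XHX
import Vale.Agent.P028.UMain

/-!
# The combined statement (loss `(log log (1/ψ))^δ`)
-/

namespace Vale.P028

open Finset MeasureTheory

/-- loss `1` where `ψ` is small in terms of the anatomy, `(log log (1/ψ))^δ` elsewhere -/
theorem theoremXU (hG : BlkG) {δ : ℝ} (hδ : 0 < δ) :
    ∃ A : ℝ, 1 ≤ A ∧ ∀ (γ : ℝ) (ψ : ℕ → ℝ), (∀ q, 0 ≤ ψ q) →
      ((∃ C : ℝ, ¬ Summable (fun q : ℕ => if ∑ p ∈ q.primeFactors, (Real.log p) ^ A / p ≤ C then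
          ((q.totient : ℝ) / q) * ψ q else 0)) ∨
        ¬ Summable (fun q : ℕ => ((q.totient : ℝ) / q) * ψ q /
          (if ψ q ≤ Real.exp (-(1 + ∑ p ∈ q.primeFactors, (Real.log p) ^ A / p) ^ ((1 + δ) / A))
            then 1 else (Real.log (2 + Real.log (2 + 1 / ψ q))) ^ δ))) →
      volume (W γ ψ)ᶜ = 0 := by
  classical
  obtain ⟨A, hA1, hU⟩ := theoremU hδ
  refine ⟨A, hA1, ?_⟩
  intro γ ψ hψ h
  have hg0 : ∀ q : ℕ, 0 ≤ ((q.totient : ℝ) / q) * ψ q := fun q =>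
    mul_nonneg (by positivity) (hψ q)
  rcases h with h | h
  · exact hU γ ψ hψ (Or.inl h)
  by_cases h1 : Summable (fun q : ℕ => ((q.totient : ℝ) / q) * ψ q /
      (Real.log (2 + Real.log (2 + 1 / ψ q))) ^ δ)
  · refine hU γ ψ hψ (Or.inr ?_)
    intro h2
    apply h
    have hl1 : ∀ q : ℕ, 0 < Real.log (2 + 1 / ψ q) := fun q => Real.log_pos (by
      have := one_div_nonneg.mpr (hψ q)
      linarith)
    have hl2 : ∀ q : ℕ, 0 < Real.log (2 + Real.log (2 + 1 / ψ q)) := fun q =>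
      Real.log_pos (by have := hl1 q; linarith)
    refine Summable.of_nonneg_of_le ?_ ?_ (h1.add h2)
    · intro q
      apply div_nonneg (hg0 q)
      split_ifs
      · exact zero_le_one
      · exact Real.rpow_nonneg (hl2 q).le _
    · intro q
      have hA0 : 0 ≤ ((q.totient : ℝ) / q) * ψ q /
          (Real.log (2 + Real.log (2 + 1 / ψ q))) ^ δ :=
        div_nonneg (hg0 q) (Real.rpow_nonneg (hl2 q).le _)
      have hB0 : 0 ≤ ((q.totient : ℝ) / q) * ψ q / (Real.log (2 + 1 / ψ q)) ^ δ :=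
        div_nonneg (hg0 q) (Real.rpow_nonneg (hl1 q).le _)
      split_ifs with hc
      · linarith
      · linarith
  · exact blkHX2 (blkHX hG) γ ψ hψ δ hδ h1

end Vale.P028
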